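import Claimed.Agent.R257.Ang.Phi

/-!
# R257 / Ang / Dec : DECOUPLING INSIDE A CODIMENSION-TWO STRIP, LOCAL WEIGHTED FORM AT EVERY PARENT CAP (H d:strip-decoupling)      PAPER-FREE: Mathlib + Lib/BD.      (architect helper83)

`SDec n P C ρ D` : every robust family (`BD.Rob C ρ`) of `E n` whose centres lie in a strip of half width `C ρ` about an affine `(n-2)`-plane is decoupled in `L^P(ST n)` (global norms) with the constant `D`.
* `an_sdec_of_dec` : from `BD.DecLe (E (n-2))` by the cylinder lemma, twice (slices: `BD.bdc_*`).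
* `an_sdec_resc`   : parabolic rescaling (as `BD.DecLe.resc`).
* `an_rob_loc`     : a robust family at the scale `σ ρ` inside the parent cap `B(u, C σ)`, multiplied by `η (Lam u (σρ²) (σ²ρ²) (y - z'))`, is robust.
* `an_wt_of_eta`   : `η`-localised global inequalities at all centres ⟹ the inequality for the weighted local norms `anN`, SAME weight exponent on both sides (Minkowski).
* EXIT `an_ld`     : `anN (∑ H_j) z ^ (2/P) ≤ A D² ∑ anN (H_j) z ^ (2/P)`, pointwise in `z`, planks `a = σ ρ²`, `b = σ² ρ²`.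
-/

set_option autoImplicit false

namespace Claimed.Agent.R257

open MeasureTheory Metric Set
open scoped ENNReal InnerProductSpace

variable {n : ℕ}

/-- decoupling constant for robust families in a codimension-two strip -/
def SDec (n : ℕ) (P C ρ : ℝ) (D : ℝ≥0∞) : Prop :=
  ∀ (ι : Type) (s : Finset ι) (v : ι → E n) (H : ι → ST n → ℂ), BD.Rob C ρ s v H → Strip2 (C * ρ) (v '' (s : Set ι)) →
    BD.nm P (fun z => ∑ j ∈ s, H j z) ≤ D * (∑ j ∈ s, BD.nm P (H j) ^ (2 : ℝ)) ^ (1 / 2 : ℝ)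

/-- **L-AN-D1** (80 l.) copy of `BD.bdc_core` with the decoupling of the slices as a hypothesis (the proof of `bdc_core` uses `hD` only through `h1`). -/
theorem an_slice_core {V W : Type} [NormedAddCommGroup V] [InnerProductSpace ℝ V] [FiniteDimensional ℝ V] [MeasurableSpace V] [BorelSpace V]
    [NormedAddCommGroup W] [InnerProductSpace ℝ W] [FiniteDimensional ℝ W] [MeasurableSpace W] [BorelSpace W]
    (e : V ≃ₗᵢ[ℝ] WithLp 2 (W × ℝ)) (p : ℝ) (hp : 2 ≤ p) (D : ℝ≥0∞) {ι : Type} (s : Finset ι)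
    (H : ι → V × ℝ → ℂ) (hm : ∀ j ∈ s, Measurable (H j))
    (hsl : ∀ y, BD.nm p (fun q => ∑ j ∈ s, BD.cySl e (H j) y q) ≤ D * (∑ j ∈ s, BD.nm p (BD.cySl e (H j) y) ^ (2 : ℝ)) ^ (1 / 2 : ℝ)) :
    BD.nm p (fun z => ∑ j ∈ s, H j z) ≤ D * (∑ j ∈ s, BD.nm p (H j) ^ (2 : ℝ)) ^ (1 / 2 : ℝ) := by
  have hp0 : 0 < p := by linarith
  have hq : 1 ≤ p / 2 := by linarith
  have hq0 : 0 < p / 2 := by linarith
  unfold BD.nm
  refine BD.bdc_pow' p hp0 D _ s _ ?_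
  have hms : Measurable fun z => ∑ j ∈ s, H j z := Finset.measurable_fun_sum s hm
  rw [BD.bdc_ip_slice e p _ hms]
  have h1 : ∀ y, BD.ip p (BD.cySl e (fun z => ∑ j ∈ s, H j z) y) ≤ D ^ p * (∑ j ∈ s, BD.ip p (BD.cySl e (H j) y) ^ (2 / p)) ^ (p / 2) := by
    intro y
    exact BD.bdc_pow p hp0 D _ s _ (hsl y)
  refine (lintegral_mono h1).trans ?_
  have hmeas : Measurable fun y => (∑ j ∈ s, BD.ip p (BD.cySl e (H j) y) ^ (2 / p)) ^ (p / 2) :=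
    (Finset.measurable_fun_sum s fun j hj => (BD.bdc_ip_meas e p (H j) (hm j hj)).pow_const _).pow_const _
  rw [lintegral_const_mul _ hmeas]
  gcongr
  have h2 := BD.bdc_mink volume s (fun j y => BD.ip p (BD.cySl e (H j) y) ^ (2 / p))
    (fun j hj => ((BD.bdc_ip_meas e p (H j) (hm j hj)).pow_const _).aemeasurable) (p / 2) hq
  have h3 : ∀ j ∈ s, (∫⁻ y, (BD.ip p (BD.cySl e (H j) y) ^ (2 / p)) ^ (p / 2)) ^ (1 / (p / 2)) = BD.ip p (H j) ^ (2 / p) := by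
    intro j hj
    rw [BD.bdc_ip_slice e p (H j) (hm j hj)]
    congr 1
    · refine lintegral_congr fun y => ?_
      rw [← ENNReal.rpow_mul]
      have : 2 / p * (p / 2) = 1 := by field_simp
      rw [this, ENNReal.rpow_one]
    · field_simp
  rw [Finset.sum_congr rfl h3] at h2
  have h4 := ENNReal.rpow_le_rpow h2 hq0.le
  rw [← ENNReal.rpow_mul] at h4
  have : 1 / (p / 2) * (p / 2) = 1 := by field_simp
  rw [this, ENNReal.rpow_one] at h4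
  exact h4

/-- **L-AN-D2** (300 l.) the cylinder lemma twice.  `W₁ = E (n-1)`, `W₂ = E (n-2)`.  Follow `BD.bdc_cyl`: Galilean map by `c₁ e₁` (`BD.bdc_gal_dec`), splitting `e` with `cyA e v = ⟪e₁, v⟫` (`BD.bdc_split`), `BD.bdc_rob_slice`: the slices are robust in `W₁`
with centres `cyW e (v j)`; `e₂ ⟂ e₁` gives the unit vector `n₂ = cyW e e₂` of `W₁` with `⟪n₂, cyW e v⟫ = ⟪e₂, v⟫` (`BD.bdc_J_inner`), so the centres of the slices are close to a hyperplane of `W₁`: `BD.bdc_cyl` for `(W₁, W₂)`; then `an_slice_core`. -/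
theorem an_sdec_of_dec (hn : 2 ≤ n) (P : ℝ) (hP : 2 ≤ P) (C : ℝ) (hC : 1 ≤ C) :
    ∃ C' : ℝ, ∀ (ρ : ℝ) (D : ℝ≥0∞), 0 < ρ → ρ ≤ 1 → BD.DecLe (E (n - 2)) P C' ρ D → SDec n P C ρ D := by
  have hW1 : Module.finrank ℝ (E n) = Module.finrank ℝ (E (n - 1)) + 1 := by
    rw [finrank_euclideanSpace_fin, finrank_euclideanSpace_fin]; omega
  have hW2 : Module.finrank ℝ (E (n - 1)) = Module.finrank ℝ (E (n - 2)) + 1 := by
    rw [finrank_euclideanSpace_fin, finrank_euclideanSpace_fin]; omega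
  obtain ⟨C₁, hC₁⟩ := BD.bdc_rob_slice (V := E n) (W := E (n - 1)) (3 * C) (by linarith)
  set C₂ := max C₁ C with hC₂
  have hC₂1 : 1 ≤ C₂ := hC.trans (le_max_right _ _)
  obtain ⟨C', hC'⟩ := BD.bdc_cyl (V := E (n - 1)) (W := E (n - 2)) hW2 P hP C₂ hC₂1
  refine ⟨C', fun ρ D hρ hρ1 hD ι s v H hR hs => ?_⟩
  obtain ⟨e₁, e₂, c₁, c₂, he₁, he₂, he₁₂, hst⟩ := hs
  obtain ⟨e, he⟩ := BD.bdc_split (W := E (n - 1)) hW1 e₁ he₁
  have hc : ∀ j ∈ s, |⟪e₁, v j⟫_ℝ - c₁| ≤ C * ρ ∧ |⟪e₂, v j⟫_ℝ - c₂| ≤ C * ρ := fun j hj => hst (v j) ⟨j, hj, rfl⟩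
  have hb : ∀ j ∈ s, ‖v j - c₁ • e₁‖ ≤ 3 * C := by
    intro j hj
    have h1 : |⟪e₁, v j⟫_ℝ| ≤ ‖v j‖ := by
      have := abs_real_inner_le_norm e₁ (v j)
      rwa [he₁, one_mul] at this
    have h2 : |c₁| ≤ 2 * C := by
      have h3 := (hc j hj).1
      have h4 := hR.bdd j hj
      have h5 : C * ρ ≤ C := by nlinarith
      have h6 : |c₁| ≤ |⟪e₁, v j⟫_ℝ| + |⟪e₁, v j⟫_ℝ - c₁| := by
        have := abs_sub_abs_le_abs_sub c₁ (⟪e₁, v j⟫_ℝ)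
        rw [abs_sub_comm] at this
        linarith
      linarith
    calc ‖v j - c₁ • e₁‖ ≤ ‖v j‖ + ‖c₁ • e₁‖ := norm_sub_le _ _
      _ = ‖v j‖ + |c₁| := by rw [norm_smul, he₁, mul_one, Real.norm_eq_abs]
      _ ≤ 3 * C := by have := hR.bdd j hj; linarith
  obtain ⟨G, hG1, hG2, hG3⟩ := BD.bdc_gal_dec (c₁ • e₁) P C ρ s v H hR (3 * C) (by linarith) hρ.le hb
  rw [hG3, Finset.sum_congr rfl fun j hj => by rw [hG2 j hj]]
  have hA : ∀ j ∈ s, |BD.cyA e (v j - c₁ • e₁)| ≤ 3 * C * ρ := by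
    intro j hj
    rw [he, inner_sub_right, real_inner_smul_right, real_inner_self_eq_norm_sq, he₁]
    have := (hc j hj).1
    have h5 : C * ρ ≤ 3 * C * ρ := by nlinarith
    simpa using this.trans h5
  have hsl := hC₁ e ρ hρ ι s _ G hG1 hA
  refine an_slice_core e P hP D s G (fun j hj => (hG1.fs j hj).continuous.measurable) fun y => ?_
  have hR2 : BD.Rob C₂ ρ s (fun j => BD.cyW e (v j - c₁ • e₁)) (fun j => BD.cySl e (G j) y) :=
    BD.bdc_rob_mono (le_max_left _ _) hρ.le (hsl y)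
  have hA2 : BD.cyA e e₂ = 0 := by rw [he, he₁₂]
  have hin : ∀ w : E n, ⟪BD.cyW e e₂, BD.cyW e w⟫_ℝ = ⟪e₂, w⟫_ℝ := by
    intro w
    have := BD.bdc_J_inner e (BD.cyW e e₂, BD.cyA e e₂) (BD.cyW e w, BD.cyA e w)
    rw [BD.bdc_J_WA, BD.bdc_J_WA, hA2] at this
    simpa using this.symm
  have hn2 : ‖BD.cyW e e₂‖ = 1 := by
    have h1 := hin e₂
    rw [real_inner_self_eq_norm_sq, real_inner_self_eq_norm_sq, he₂] at h1
    have h2 : ‖BD.cyW e e₂‖ ^ 2 = 1 ^ 2 := h1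
    exact (sq_eq_sq₀ (norm_nonneg _) zero_le_one).1 h2
  refine hC' ρ D hρ hρ1 hD ι s _ _ hR2 (BD.cyW e e₂) c₂ hn2 fun j hj => ?_
  rw [hin, inner_sub_right, real_inner_smul_right, real_inner_comm e₁ e₂, he₁₂, mul_zero, sub_zero]
  exact (hc j hj).2.trans (mul_le_mul_of_nonneg_right (le_max_right _ _) hρ.le)

/-- the strip decoupling with `ε`-loss from the box BD -/
theorem an_sdec_pow (hn : 2 ≤ n) (P : ℝ) (hP : 2 ≤ P) (hBD : ∀ η : ℝ, 0 < η → BD.DecPow (E (n - 2)) P η) (C : ℝ) (hC : 1 ≤ C) (η : ℝ) (hη : 0 < η) :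
    ∃ D₀ : ℝ, ∀ ρ : ℝ, 0 < ρ → ρ ≤ 1 → SDec n P C ρ (ENNReal.ofReal (D₀ * ρ ^ (-η))) := by
  obtain ⟨C', hC'⟩ := an_sdec_of_dec hn P hP C hC
  obtain ⟨D₀, hD₀⟩ := hBD η hη C'
  exact ⟨D₀, fun ρ h0 h1 => hC' ρ _ h0 h1 (hD₀ ρ h0 h1)⟩

/-- **L-AN-D3** (200 l.) parabolic rescaling (plan of `BD.DecLe.resc`): `BD.FS.unpar` about `u` with `σ`: `H j z = ch (..) G j (Lam u σ σ² z)`, `G j ∈ FS (cap (σ⁻¹(v j - u)) (C ρ) (C ρ²))` (`BD.Par_preimage_cap`);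
`Rob C ρ s (σ⁻¹ (v - u)) G`;  the strip is rescaled (`c_i ↦ (c_i - ⟪e_i,u⟫)/σ`);  both sides scale by the same factor (`BD.ip_Lam`). -/
theorem an_sdec_resc {P C ρ σ : ℝ} {D : ℝ≥0∞} (hD : SDec n P C ρ D) (hP : 0 < P) (hC : 1 ≤ C) (hρ : 0 < ρ) (hσ : 0 < σ)
    {ι : Type} {s : Finset ι} {v : ι → E n} {H : ι → ST n → ℂ} (h : BD.Rob C (σ * ρ) s v H) (u : E n) (hu : ∀ j ∈ s, ‖v j - u‖ ≤ C * σ)
    (hs : Strip2 (C * (σ * ρ)) (v '' (s : Set ι))) :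
    BD.nm P (fun z => ∑ j ∈ s, H j z) ≤ D * (∑ j ∈ s, BD.nm P (H j) ^ (2 : ℝ)) ^ (1 / 2 : ℝ) := by
  have hex : ∀ j, ∃ G : ST n → ℂ, j ∈ s → (BD.FS (BD.cap (σ⁻¹ • (v j - u)) (C * ρ) (C * ρ ^ 2)) G ∧
      ∀ z, H j z = BD.ch (BD.pr z (u, ‖u‖ ^ 2)) * G (BD.Lam u σ (σ ^ 2) z)) := by
    intro j
    by_cases hj : j ∈ s
    · obtain ⟨G, hG, hz⟩ := (h.fs j hj).unpar u hσ
      refine ⟨G, fun _ => ⟨?_, hz⟩⟩
      rw [BD.Par_preimage_cap u (v j) hσ] at hG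
      have e1 : C * (σ * ρ) / σ = C * ρ := by field_simp
      have e2 : C * (σ * ρ) ^ 2 / σ ^ 2 = C * ρ ^ 2 := by field_simp
      rwa [e1, e2] at hG
    · exact ⟨0, fun h => absurd h hj⟩
  choose G hG using hex
  have hrob : BD.Rob C ρ s (fun j => σ⁻¹ • (v j - u)) G := by
    refine ⟨fun j hj => ?_, fun ξ t ht hξ => ?_, fun j hj => (hG j hj).1⟩
    · rw [norm_smul, Real.norm_of_nonneg (inv_nonneg.2 hσ.le), inv_mul_le_iff₀ hσ, mul_comm]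
      exact hu j hj
    · refine h.mult (u + σ • ξ) t ht fun j hj => ?_
      have e : v j - (u + σ • ξ) = σ • (σ⁻¹ • (v j - u) - ξ) := by
        rw [smul_sub, smul_smul, mul_inv_cancel₀ hσ.ne', one_smul]; abel
      rw [e, norm_smul, Real.norm_of_nonneg hσ.le]
      exact mul_le_mul_of_nonneg_left (hξ j hj) hσ.le
  have hstrip : Strip2 (C * ρ) ((fun j => σ⁻¹ • (v j - u)) '' (s : Set ι)) := by
    obtain ⟨e₁, e₂, c₁, c₂, h1, h2, h3, h4⟩ := hs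
    refine ⟨e₁, e₂, σ⁻¹ * (c₁ - ⟪e₁, u⟫_ℝ), σ⁻¹ * (c₂ - ⟪e₂, u⟫_ℝ), h1, h2, h3, ?_⟩
    rintro _ ⟨j, hj, rfl⟩
    have h5 := h4 (v j) ⟨j, hj, rfl⟩
    have key : ∀ (e : E n) (c : ℝ), |⟪e, v j⟫_ℝ - c| ≤ C * (σ * ρ) → |⟪e, σ⁻¹ • (v j - u)⟫_ℝ - σ⁻¹ * (c - ⟪e, u⟫_ℝ)| ≤ C * ρ := by
      intro e c hc
      have e1 : ⟪e, σ⁻¹ • (v j - u)⟫_ℝ - σ⁻¹ * (c - ⟪e, u⟫_ℝ) = σ⁻¹ * (⟪e, v j⟫_ℝ - c) := by
        rw [real_inner_smul_right, inner_sub_right]; ring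
      rw [e1, abs_mul, abs_of_pos (inv_pos.2 hσ), inv_mul_le_iff₀ hσ]
      calc _ ≤ C * (σ * ρ) := hc
        _ = _ := by ring
    exact ⟨key e₁ c₁ h5.1, key e₂ c₂ h5.2⟩
  have h0 := hD ι s _ G hrob hstrip
  set c : ℝ≥0∞ := ENNReal.ofReal ((σ ^ Module.finrank ℝ (E n) * σ ^ 2)⁻¹) ^ (1 / P) with hc
  have e1 : BD.nm P (fun z => ∑ j ∈ s, H j z) = c * BD.nm P (fun z => ∑ j ∈ s, G j z) := by
    rw [hc, ← BD.rs_nm_Lam u hσ (pow_pos hσ 2) hP (fun z => BD.pr z (u, ‖u‖ ^ 2))]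
    congr 1
    ext z
    rw [Finset.mul_sum]
    exact Finset.sum_congr rfl fun j hj => (hG j hj).2 z
  have e2 : ∀ j ∈ s, BD.nm P (H j) = c * BD.nm P (G j) := by
    intro j hj
    rw [hc, ← BD.rs_nm_Lam u hσ (pow_pos hσ 2) hP (fun z => BD.pr z (u, ‖u‖ ^ 2))]
    congr 1
    ext z
    exact (hG j hj).2 z
  have e3 : (∑ j ∈ s, BD.nm P (H j) ^ (2 : ℝ)) ^ (1 / 2 : ℝ) = c * (∑ j ∈ s, BD.nm P (G j) ^ (2 : ℝ)) ^ (1 / 2 : ℝ) := by
    have : ∑ j ∈ s, BD.nm P (H j) ^ (2 : ℝ) = c ^ (2 : ℝ) * ∑ j ∈ s, BD.nm P (G j) ^ (2 : ℝ) := by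
      rw [Finset.mul_sum]
      exact Finset.sum_congr rfl fun j hj => by rw [e2 j hj, ENNReal.mul_rpow_of_nonneg _ _ (by norm_num)]
    rw [this, ENNReal.mul_rpow_of_nonneg _ _ (by norm_num), ← ENNReal.rpow_mul]
    norm_num
  rw [e1, e3, mul_left_comm]
  exact mul_le_mul_right h0 c

open scoped Pointwise in
theorem an_cap_add {C ρ σ : ℝ} (hC : 1 ≤ C) (hρ : 0 < ρ) (hρ1 : ρ ≤ 1) (hσ : 0 < σ) (v u : E n) (hu : ‖v - u‖ ≤ C * σ) :
    BD.cap v (C * (σ * ρ)) (C * (σ * ρ) ^ 2) + BD.LamT u (σ * ρ ^ 2) (σ ^ 2 * ρ ^ 2) '' closedBall 0 1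
      ⊆ BD.cap v (7 * C * (σ * ρ)) (7 * C * (σ * ρ) ^ 2) := by
  rintro _ ⟨w₀, hw₀, _, ⟨w₁, hw₁, rfl⟩, rfl⟩
  rw [mem_closedBall_zero_iff] at hw₁
  have hx : ‖w₁.1‖ ≤ 1 := (norm_fst_le _).trans hw₁
  have ht : |w₁.2| ≤ 1 := (norm_snd_le _).trans hw₁
  obtain ⟨h1, h2⟩ := hw₀
  set a := σ * ρ ^ 2 with ha
  set b := σ ^ 2 * ρ ^ 2 with hb
  have ha0 : 0 < a := by positivity
  have hb0 : 0 < b := by positivity
  have hsr : 0 < σ * ρ := by positivity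
  have haσ : a ≤ σ * ρ := by
    rw [ha]
    nlinarith [mul_pos hσ hρ]
  unfold BD.LamT
  constructor
  · show ‖w₀.1 + a • w₁.1 - v‖ ≤ _
    have e : w₀.1 + a • w₁.1 - v = (w₀.1 - v) + a • w₁.1 := by abel
    rw [e]
    have h3 : ‖a • w₁.1‖ ≤ σ * ρ := by
      rw [norm_smul, Real.norm_of_nonneg ha0.le]
      calc a * ‖w₁.1‖ ≤ a * 1 := mul_le_mul_of_nonneg_left hx ha0.le
        _ ≤ σ * ρ := by linarith
    have h4 := norm_add_le (w₀.1 - v) (a • w₁.1)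
    nlinarith
  · show |w₀.2 + (2 * a * ⟪u, w₁.1⟫_ℝ + b * w₁.2) - ‖w₀.1 + a • w₁.1‖ ^ 2| ≤ _
    have e : w₀.2 + (2 * a * ⟪u, w₁.1⟫_ℝ + b * w₁.2) - ‖w₀.1 + a • w₁.1‖ ^ 2
        = (w₀.2 - ‖w₀.1‖ ^ 2) + 2 * a * ⟪u - w₀.1, w₁.1⟫_ℝ + b * w₁.2 - a ^ 2 * ‖w₁.1‖ ^ 2 := by
      rw [norm_add_sq_real, real_inner_smul_right, norm_smul, Real.norm_of_nonneg ha0.le, inner_sub_left]
      ring
    rw [e]
    have h5 : ‖u - w₀.1‖ ≤ 2 * C * σ := by
      have e2 : u - w₀.1 = -(v - u) - (w₀.1 - v) := by abel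
      rw [e2]
      have h6 := norm_sub_le (-(v - u)) (w₀.1 - v)
      rw [norm_neg] at h6
      have h7 : C * (σ * ρ) ≤ C * σ := by
        have : σ * ρ ≤ σ := by nlinarith
        nlinarith
      linarith
    have h6 : |⟪u - w₀.1, w₁.1⟫_ℝ| ≤ 2 * C * σ := by
      refine (abs_real_inner_le_norm _ _).trans ?_
      calc ‖u - w₀.1‖ * ‖w₁.1‖ ≤ (2 * C * σ) * 1 := mul_le_mul h5 hx (norm_nonneg _) (by positivity)
        _ = _ := by ring
    have h7 : |2 * a * ⟪u - w₀.1, w₁.1⟫_ℝ| ≤ 4 * C * (σ * ρ) ^ 2 := by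
      rw [abs_mul, abs_of_pos (by positivity : 0 < 2 * a)]
      calc 2 * a * |⟪u - w₀.1, w₁.1⟫_ℝ| ≤ 2 * a * (2 * C * σ) := mul_le_mul_of_nonneg_left h6 (by positivity)
        _ = _ := by rw [ha]; ring
    have h8 : |b * w₁.2| ≤ (σ * ρ) ^ 2 := by
      rw [abs_mul, abs_of_pos hb0]
      calc b * |w₁.2| ≤ b * 1 := mul_le_mul_of_nonneg_left ht hb0.le
        _ = _ := by rw [hb]; ring
    have h9 : |a ^ 2 * ‖w₁.1‖ ^ 2| ≤ (σ * ρ) ^ 2 := by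
      rw [abs_of_nonneg (by positivity)]
      calc a ^ 2 * ‖w₁.1‖ ^ 2 ≤ (σ * ρ) ^ 2 * 1 ^ 2 :=
            mul_le_mul (pow_le_pow_left₀ ha0.le haσ 2) (pow_le_pow_left₀ (norm_nonneg _) hx 2) (by positivity) (by positivity)
        _ = _ := by ring
    have h10 : 0 < (σ * ρ) ^ 2 := by positivity
    calc |(w₀.2 - ‖w₀.1‖ ^ 2) + 2 * a * ⟪u - w₀.1, w₁.1⟫_ℝ + b * w₁.2 - a ^ 2 * ‖w₁.1‖ ^ 2|
        ≤ |w₀.2 - ‖w₀.1‖ ^ 2| + |2 * a * ⟪u - w₀.1, w₁.1⟫_ℝ| + |b * w₁.2| + |a ^ 2 * ‖w₁.1‖ ^ 2| := by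
          refine (abs_sub _ _).trans ?_
          gcongr
          refine (abs_add_le _ _).trans ?_
          gcongr
          exact abs_add_le _ _
      _ ≤ C * (σ * ρ) ^ 2 + 4 * C * (σ * ρ) ^ 2 + (σ * ρ) ^ 2 + (σ * ρ) ^ 2 := by linarith
      _ ≤ _ := by nlinarith

/-- **L-AN-D4** (200 l.) localisation to a plank of the parent cap.  `y ↦ η (Lam u a b (y - z'))` has Fourier support in `LamT u a b '' closedBall 0 1` (`BD.FS.lin`, `BD.FS.shift`), `a = σρ²`, `b = σ²ρ²`; `BD.FS.mul`;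
for `(ξ₀,τ₀) ∈ cap (v j) (Cσρ) (C(σρ)²)`, `‖w₁‖, |w₂| ≤ 1`, `ξ = ξ₀ + a w₁`, `τ = τ₀ + 2a⟪u,w₁⟫ + b w₂`:  `‖ξ - v j‖ ≤ (C+1)σρ`,
`τ - ‖ξ‖² = (τ₀ - ‖ξ₀‖²) + 2a⟪u - ξ₀, w₁⟫ + b w₂ - a²‖w₁‖²`, `‖u - ξ₀‖ ≤ Cσ + Cσρ`: modulus `≤ (5C+2)(σρ)²`. -/
theorem an_rob_loc {C ρ σ : ℝ} (hC : 1 ≤ C) (hρ : 0 < ρ) (hρ1 : ρ ≤ 1) (hσ : 0 < σ) (hσ1 : σ ≤ 1)
    {ι : Type} {s : Finset ι} {v : ι → E n} {H : ι → ST n → ℂ} (h : BD.Rob C (σ * ρ) s v H) (u : E n) (hu : ∀ j ∈ s, ‖v j - u‖ ≤ C * σ)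
    {η : ST n → ℂ} (hη : BD.FS (closedBall 0 1) η) (z' : ST n) :
    BD.Rob (7 * C) (σ * ρ) s v (fun j y => H j y * η (BD.Lam u (σ * ρ ^ 2) (σ ^ 2 * ρ ^ 2) (y - z'))) := by
  have h7 : C ≤ 7 * C := by linarith
  refine ⟨fun j hj => (h.bdd j hj).trans h7, fun ξ t ht h1 => (h.mult ξ t ht h1).trans h7, fun j hj => ?_⟩
  have h1 := (hη.lin u (a := σ * ρ ^ 2) (b := σ ^ 2 * ρ ^ 2) (by positivity) (by positivity)).shift (-z')
  simp only [← sub_eq_add_neg] at h1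
  exact ((h.fs j hj).mul h1).mono (an_cap_add hC hρ hρ1 hσ (v j) u (hu j hj))

theorem an_peetre_real {Ew p p' r : ℝ} (hE : 0 ≤ Ew) (hp : 0 ≤ p) (hp' : 0 ≤ p') (hr0 : 0 ≤ r) (hr : r ≤ p + p') :
    (1 + p) ^ (-Ew) ≤ (1 + p') ^ Ew * (1 + r) ^ (-Ew) := by
  have h : (1 + r) ^ Ew ≤ (1 + p) ^ Ew * (1 + p') ^ Ew := by
    rw [← Real.mul_rpow (by positivity) (by positivity)]
    exact Real.rpow_le_rpow (by positivity) (by nlinarith) hE
  rw [Real.rpow_neg (by positivity), Real.rpow_neg (by positivity)]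
  have hX : 0 < (1 + p) ^ Ew := by positivity
  have hZ : 0 < (1 + r) ^ Ew := by positivity
  calc ((1 + p) ^ Ew)⁻¹ = (1 + r) ^ Ew * ((1 + p) ^ Ew * (1 + r) ^ Ew)⁻¹ := by field_simp
    _ ≤ ((1 + p) ^ Ew * (1 + p') ^ Ew) * ((1 + p) ^ Ew * (1 + r) ^ Ew)⁻¹ := by gcongr
    _ = _ := by field_simp

theorem an_Lam_add (u : E n) (a b : ℝ) (x x' : ST n) : BD.Lam u a b (x + x') = BD.Lam u a b x + BD.Lam u a b x' := by
  have := BD.bdlc_Lam_sub u a b x (-x')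
  have h0 := BD.bdlc_Lam_sub u a b 0 x'
  have h00 := BD.bdlc_Lam_sub u a b 0 0
  rw [sub_zero, sub_self] at h00
  rw [zero_sub, h00, zero_sub] at h0
  rw [sub_neg_eq_add, h0, sub_neg_eq_add] at this
  exact this

theorem an_tw_peetre {Ew : ℝ} (hE : 0 ≤ Ew) (u : E n) {a b : ℝ} (ha : 0 < a) (hb : 0 < b) (x x' : ST n) :
    BD.tw Ew u a b x ≤ ENNReal.ofReal ((1 + ‖BD.Lam u a b x'‖) ^ Ew) * BD.tw Ew u a b (x + x') := by
  unfold BD.tw
  rw [← ENNReal.ofReal_mul (by positivity)]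
  apply ENNReal.ofReal_le_ofReal
  have h := an_peetre_real hE (norm_nonneg (BD.Lam u a b x)) (norm_nonneg (BD.Lam u a b x')) (norm_nonneg (BD.Lam u a b (x + x')))
    (by rw [an_Lam_add]; exact norm_add_le _ _)
  have hq : 0 < a ^ Module.finrank ℝ (E n) * b := by positivity
  calc a ^ Module.finrank ℝ (E n) * b * (1 + ‖BD.Lam u a b x‖) ^ (-Ew)
      ≤ a ^ Module.finrank ℝ (E n) * b * ((1 + ‖BD.Lam u a b x'‖) ^ Ew * (1 + ‖BD.Lam u a b (x + x')‖) ^ (-Ew)) :=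
        mul_le_mul_of_nonneg_left h hq.le
    _ = _ := by ring

theorem an_wt_lower (n : ℕ) (P Ew : ℝ) (hP : 0 < P) (hE : 0 ≤ Ew) (η : ST n → ℂ) (hηc : Continuous η) (hη1 : ∀ y, ‖y‖ ≤ 1 → 1 ≤ ‖η y‖) :
    ∃ c : ℝ, 0 ≤ c ∧ ∀ (u : E n) (a b : ℝ), 0 < a → 0 < b → ∀ y z : ST n,
      BD.tw Ew u a b (y - z) ≤ ENNReal.ofReal c * (ENNReal.ofReal (a ^ n * b) * ∫⁻ z', ‖η (BD.Lam u a b (y - z'))‖ₑ ^ P * BD.tw Ew u a b (z' - z)) := by
  obtain ⟨cB, hcB, hvol⟩ := an_vol_plank n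
  refine ⟨2 ^ Ew / cB, by positivity, fun u a b ha hb y z => ?_⟩
  have hq : 0 < a ^ n * b := by positivity
  set S : Set (ST n) := {z' | ‖BD.Lam u a b (y - z')‖ ≤ 1} with hS
  have hSm : MeasurableSet S :=
    (isClosed_le ((an_cont_Lam u a b).comp (continuous_const.sub continuous_id)).norm continuous_const).measurableSet
  have hSv : volume S = ENNReal.ofReal (cB / (a ^ n * b)) := by
    rw [hS, an_vol_plank_sub, hvol u a b 1 ha hb one_pos, one_pow, mul_one]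
  set I := ∫⁻ z', ‖η (BD.Lam u a b (y - z'))‖ₑ ^ P * BD.tw Ew u a b (z' - z) with hI
  have hm : Measurable fun z' => ‖η (BD.Lam u a b (y - z'))‖ₑ ^ P * BD.tw Ew u a b (z' - z) :=
    ((hηc.comp ((an_cont_Lam u a b).comp (continuous_const.sub continuous_id))).measurable.enorm.pow_const _).mul
      ((BD.measurable_tw Ew u a b).comp (measurable_id.sub measurable_const))
  have h1 : BD.tw Ew u a b (y - z) * ENNReal.ofReal (cB / (a ^ n * b)) ≤ ENNReal.ofReal (2 ^ Ew) * I := by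
    rw [← hSv, ← setLIntegral_const, hI, ← lintegral_const_mul _ hm]
    refine le_trans (setLIntegral_mono (hm.const_mul _) fun z' hz' => ?_) (setLIntegral_le_lintegral _ _)
    have hz1 : ‖BD.Lam u a b (y - z')‖ ≤ 1 := hz'
    have h2 := an_tw_peetre hE u ha hb (y - z) (z' - y)
    rw [show y - z + (z' - y) = z' - z by abel] at h2
    have h3 : ‖BD.Lam u a b (z' - y)‖ ≤ 1 := by
      rw [BD.bdlc_Lam_sub, norm_sub_rev, ← BD.bdlc_Lam_sub]; exact hz1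
    have h4 : ENNReal.ofReal ((1 + ‖BD.Lam u a b (z' - y)‖) ^ Ew) ≤ ENNReal.ofReal (2 ^ Ew) := by
      apply ENNReal.ofReal_le_ofReal
      exact Real.rpow_le_rpow (by positivity) (by linarith) hE
    have h5 : (1 : ℝ≥0∞) ≤ ‖η (BD.Lam u a b (y - z'))‖ₑ ^ P := by
      apply ENNReal.one_le_rpow _ hP
      rw [← ofReal_norm, ← ENNReal.ofReal_one]
      exact ENNReal.ofReal_le_ofReal (hη1 _ hz1)
    calc BD.tw Ew u a b (y - z) ≤ ENNReal.ofReal (2 ^ Ew) * BD.tw Ew u a b (z' - z) := h2.trans (mul_le_mul_left h4 _)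
      _ = ENNReal.ofReal (2 ^ Ew) * (1 * BD.tw Ew u a b (z' - z)) := by rw [one_mul]
      _ ≤ _ := mul_le_mul_right (mul_le_mul_left h5 _) _
  calc BD.tw Ew u a b (y - z) = ENNReal.ofReal ((a ^ n * b) / cB) * (BD.tw Ew u a b (y - z) * ENNReal.ofReal (cB / (a ^ n * b))) := by
        rw [mul_comm (BD.tw Ew u a b (y - z)), ← mul_assoc, ← ENNReal.ofReal_mul (by positivity)]
        have : a ^ n * b / cB * (cB / (a ^ n * b)) = 1 := by field_simp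
        rw [this, ENNReal.ofReal_one, one_mul]
    _ ≤ ENNReal.ofReal ((a ^ n * b) / cB) * (ENNReal.ofReal (2 ^ Ew) * I) := mul_le_mul_right h1 _
    _ = _ := by
        rw [← mul_assoc, ← mul_assoc, ← ENNReal.ofReal_mul (by positivity), ← ENNReal.ofReal_mul (by positivity)]
        congr 2
        ring

theorem an_wt_upper (n : ℕ) (P Ew : ℝ) (hP : 1 ≤ P) (hE : 0 ≤ Ew) (η : ST n → ℂ)
    (hηd : ∀ M : ℝ, ∃ C : ℝ, ∀ y, ‖η y‖ ≤ C * (1 + ‖y‖) ^ (-M)) :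
    ∃ c : ℝ, 0 ≤ c ∧ ∀ (u : E n) (a b : ℝ), 0 < a → 0 < b → ∀ y z : ST n,
      ENNReal.ofReal (a ^ n * b) * ∫⁻ z', ‖η (BD.Lam u a b (y - z'))‖ₑ ^ P * BD.tw Ew u a b (z' - z) ≤ ENNReal.ofReal c * BD.tw Ew u a b (y - z) := by
  have hP0 : 0 < P := by linarith
  have hfr : Module.finrank ℝ (E n) = n := finrank_euclideanSpace_fin
  have hdd : (BD.dd (E n) : ℝ) < (n : ℝ) + 2 := by
    unfold BD.dd
    rw [hfr]
    push_cast
    linarith
  obtain ⟨cE, hcE, hmass⟩ := BD.exists_lintegral_tw (V := E n) hdd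
  obtain ⟨C, hC⟩ := hηd (Ew + n + 2)
  have hC0 : 0 ≤ C := by
    have := (norm_nonneg _).trans (hC 0)
    simpa using this
  refine ⟨C ^ P * cE, by positivity, fun u a b ha hb y z => ?_⟩
  have := BD.bdlc_haar (V := E n)
  have hq : 0 < a ^ n * b := by positivity
  have hpt : ∀ z', ENNReal.ofReal (a ^ n * b) * (‖η (BD.Lam u a b (y - z'))‖ₑ ^ P * BD.tw Ew u a b (z' - z))
      ≤ ENNReal.ofReal (C ^ P) * BD.tw Ew u a b (y - z) * BD.tw ((n : ℝ) + 2) u a b (y - z') := by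
    intro z'
    set L := ‖BD.Lam u a b (y - z')‖ with hL
    have hL0 : 0 ≤ L := norm_nonneg _
    have h2 := an_tw_peetre hE u ha hb (z' - z) (y - z')
    rw [show z' - z + (y - z') = y - z by abel] at h2
    have h3 : ‖η (BD.Lam u a b (y - z'))‖ₑ ^ P ≤ ENNReal.ofReal (C ^ P * (1 + L) ^ (-(Ew + n + 2))) := by
      rw [← ofReal_norm, ENNReal.ofReal_rpow_of_nonneg (norm_nonneg _) hP0.le]
      apply ENNReal.ofReal_le_ofReal
      have h4 := Real.rpow_le_rpow (norm_nonneg _) (hC (BD.Lam u a b (y - z'))) hP0.le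
      refine h4.trans ?_
      rw [Real.mul_rpow hC0 (by positivity)]
      apply mul_le_mul_of_nonneg_left _ (by positivity)
      rw [← Real.rpow_mul (by positivity)]
      apply Real.rpow_le_rpow_of_exponent_le (by linarith)
      have : 0 ≤ Ew + n + 2 := by positivity
      nlinarith
    have h5 : BD.tw ((n : ℝ) + 2) u a b (y - z') = ENNReal.ofReal (a ^ n * b * (1 + L) ^ (-((n : ℝ) + 2))) := by
      unfold BD.tw
      rw [hfr]
    calc ENNReal.ofReal (a ^ n * b) * (‖η (BD.Lam u a b (y - z'))‖ₑ ^ P * BD.tw Ew u a b (z' - z))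
        ≤ ENNReal.ofReal (a ^ n * b) * (ENNReal.ofReal (C ^ P * (1 + L) ^ (-(Ew + n + 2))) * (ENNReal.ofReal ((1 + L) ^ Ew) * BD.tw Ew u a b (y - z))) :=
          mul_le_mul_right (mul_le_mul' h3 h2) _
      _ = (ENNReal.ofReal (a ^ n * b) * ENNReal.ofReal (C ^ P * (1 + L) ^ (-(Ew + n + 2))) * ENNReal.ofReal ((1 + L) ^ Ew)) * BD.tw Ew u a b (y - z) := by ring
      _ = (ENNReal.ofReal (C ^ P) * ENNReal.ofReal (a ^ n * b * (1 + L) ^ (-((n : ℝ) + 2)))) * BD.tw Ew u a b (y - z) := by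
          congr 1
          rw [← ENNReal.ofReal_mul (by positivity), ← ENNReal.ofReal_mul (by positivity), ← ENNReal.ofReal_mul (by positivity)]
          congr 1
          have e : (1 + L) ^ (-(Ew + n + 2)) * (1 + L) ^ Ew = (1 + L) ^ (-((n : ℝ) + 2)) := by
            rw [← Real.rpow_add (by positivity)]
            congr 1
            ring
          rw [← e]
          ring
      _ = _ := by rw [h5]; ring
  rw [← lintegral_const_mul' _ _ ENNReal.ofReal_ne_top]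
  refine (lintegral_mono hpt).trans ?_
  have hm2 : Measurable fun z' : ST n => BD.tw ((n : ℝ) + 2) u a b (y - z') :=
    (BD.measurable_tw _ u a b).comp (measurable_const.sub measurable_id)
  rw [lintegral_const_mul _ hm2,
    lintegral_sub_left_eq_self (BD.tw ((n : ℝ) + 2) u a b) y, hmass u a b ha hb, ENNReal.ofReal_mul (by positivity)]
  exact le_of_eq (by ring)

theorem an_wt_meas_ip (P : ℝ) (η : ST n → ℂ) (hηc : Continuous η) (u : E n) (a b : ℝ) (K : ST n → ℂ) (hK : Continuous K) :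
    Measurable fun z' => BD.ip P (fun y => K y * η (BD.Lam u a b (y - z'))) := by
  unfold BD.ip
  have hm : Measurable (Function.uncurry fun (z' y : ST n) => ‖K y * η (BD.Lam u a b (y - z'))‖ₑ ^ P) := by
    have hc : Continuous (Function.uncurry fun (z' y : ST n) => K y * η (BD.Lam u a b (y - z'))) :=
      (hK.comp continuous_snd).mul (hηc.comp ((an_cont_Lam u a b).comp (continuous_snd.sub continuous_fst)))
    exact hc.measurable.enorm.pow_const _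
  exact hm.lintegral_prod_right'

theorem an_wt_tonelli (P Ew : ℝ) (hP : 0 ≤ P) (η : ST n → ℂ) (hηc : Continuous η) (u : E n) (a b : ℝ) (K : ST n → ℂ) (hK : Continuous K)
    (z : ST n) (q : ℝ≥0∞) :
    ∫⁻ z', q * (BD.ip P (fun y => K y * η (BD.Lam u a b (y - z'))) * BD.tw Ew u a b (z' - z))
      = ∫⁻ y, ‖K y‖ₑ ^ P * (q * ∫⁻ z', ‖η (BD.Lam u a b (y - z'))‖ₑ ^ P * BD.tw Ew u a b (z' - z)) := by
  set f : ST n → ST n → ℝ≥0∞ := fun z' y => ‖K y‖ₑ ^ P * (q * (‖η (BD.Lam u a b (y - z'))‖ₑ ^ P * BD.tw Ew u a b (z' - z))) with hf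
  have hη2 : Measurable (Function.uncurry fun (z' y : ST n) => ‖η (BD.Lam u a b (y - z'))‖ₑ ^ P) :=
    (hηc.comp ((an_cont_Lam u a b).comp (continuous_snd.sub continuous_fst))).measurable.enorm.pow_const _
  have hfm : Measurable (Function.uncurry f) := by
    apply Measurable.mul
    · exact (hK.comp continuous_snd).measurable.enorm.pow_const _
    · apply Measurable.const_mul
      exact hη2.mul ((BD.measurable_tw Ew u a b).comp (measurable_fst.sub measurable_const))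
  have e1 : ∀ z', q * (BD.ip P (fun y => K y * η (BD.Lam u a b (y - z'))) * BD.tw Ew u a b (z' - z)) = ∫⁻ y, f z' y := by
    intro z'
    unfold BD.ip
    have hm1 : Measurable fun y => ‖K y * η (BD.Lam u a b (y - z'))‖ₑ ^ P :=
      (hK.mul (hηc.comp ((an_cont_Lam u a b).comp (continuous_id.sub continuous_const)))).measurable.enorm.pow_const _
    rw [← lintegral_mul_const _ hm1, ← lintegral_const_mul _ (hm1.mul_const _)]
    refine lintegral_congr fun y => ?_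
    rw [hf, enorm_mul, ENNReal.mul_rpow_of_nonneg _ _ hP]
    ring
  have e2 : ∀ y, ∫⁻ z', f z' y = ‖K y‖ₑ ^ P * (q * ∫⁻ z', ‖η (BD.Lam u a b (y - z'))‖ₑ ^ P * BD.tw Ew u a b (z' - z)) := by
    intro y
    have hm2 : Measurable fun z' => ‖η (BD.Lam u a b (y - z'))‖ₑ ^ P * BD.tw Ew u a b (z' - z) :=
      ((hηc.comp ((an_cont_Lam u a b).comp (continuous_const.sub continuous_id))).measurable.enorm.pow_const _).mul
        ((BD.measurable_tw Ew u a b).comp (measurable_id.sub measurable_const))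
    rw [hf, lintegral_const_mul _ (hm2.const_mul _), lintegral_const_mul _ hm2]
  simp_rw [e1]
  rw [lintegral_lintegral_swap hfm.aemeasurable]
  simp_rw [e2]

/-- **L-AN-D5** (300 l.) from `η`-localised inequalities to weights.  `Λ = Lam u a b`, `N_j z' = ∫ |H_j y|^P |η (Λ (y - z'))|^P dy`.
(1) `(1 + ‖Λ(y - z)‖)^{-Ew} ≤ 2^Ew cB⁻¹ a^n b ∫ 1[‖Λ(y - z')‖ ≤ 1] (1 + ‖Λ(z' - z)‖)^{-Ew} dz'` (Peetre, `an_vol_plank`), and `1[..] ≤ |η (Λ (y - z'))|^P`;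
(2) hypothesis in `P`-th powers (`BD.bdc_pow`): `∫ |∑ H_j|^P |η_{z'}|^P ≤ D^P (∑_j N_j(z')^{2/P})^{P/2}`;   (3) `BD.abs_l2Lp` for the measure `tw Ew u a b (z' - z) dz'`;
(4) `∫ N_j(z') tw(z' - z) dz' ≤ C anN (H_j) z`: `|η|^P ≤ C (1+|·|)^{-Ew-n-2}`, Peetre, Tonelli, `BD.lintegral_Lam`. -/
theorem an_wt_of_eta (n : ℕ) (P Ew : ℝ) (hP : 2 ≤ P) (hE : (n : ℝ) + 1 < Ew) (η : ST n → ℂ) (hηc : Continuous η) (hη1 : ∀ y, ‖y‖ ≤ 1 → 1 ≤ ‖η y‖)
    (hηd : ∀ M : ℝ, ∃ C : ℝ, ∀ y, ‖η y‖ ≤ C * (1 + ‖y‖) ^ (-M)) :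
    ∃ A : ℝ, ∀ (u : E n) (a b : ℝ) (ι : Type) (s : Finset ι) (H : ι → ST n → ℂ) (D : ℝ≥0∞), 0 < a → 0 < b → (∀ j ∈ s, Continuous (H j)) →
      (∀ z', BD.nm P (fun y => ∑ j ∈ s, H j y * η (BD.Lam u a b (y - z'))) ≤
        D * (∑ j ∈ s, BD.nm P (fun y => H j y * η (BD.Lam u a b (y - z'))) ^ (2 : ℝ)) ^ (1 / 2 : ℝ)) →
      ∀ z, anN P Ew u a b (fun y => ∑ j ∈ s, H j y) z ^ (2 / P) ≤ ENNReal.ofReal A * D ^ 2 * ∑ j ∈ s, anN P Ew u a b (H j) z ^ (2 / P) := by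
  have hP0 : 0 < P := by linarith
  have hEw : 0 ≤ Ew := by
    have : (0:ℝ) ≤ n := Nat.cast_nonneg n
    linarith
  obtain ⟨c₁, hc₁0, hc₁⟩ := an_wt_lower n P Ew hP0 hEw η hηc hη1
  obtain ⟨c₄, hc₄0, hc₄⟩ := an_wt_upper n P Ew (by linarith) hEw η hηd
  have h2P : 0 < 2 / P := by positivity
  have hP2 : 0 < P / 2 := by positivity
  have e2P : 2 / P * (P / 2) = 1 := by field_simp
  refine ⟨c₁ ^ (2 / P) * c₄ ^ (2 / P), fun u a b ι s H D ha hb hH hyp z => ?_⟩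
  set q : ℝ≥0∞ := ENNReal.ofReal (a ^ n * b) with hq
  set Ψ : ST n → ℝ≥0∞ := fun y => q * ∫⁻ z', ‖η (BD.Lam u a b (y - z'))‖ₑ ^ P * BD.tw Ew u a b (z' - z) with hΨ
  set Nj : ι → ST n → ℝ≥0∞ := fun j z' => BD.ip P (fun y => H j y * η (BD.Lam u a b (y - z'))) with hNj
  set aj : ι → ST n → ℝ≥0∞ := fun j z' => q * (Nj j z' * BD.tw Ew u a b (z' - z)) with haj
  have hFc : Continuous fun y => ∑ j ∈ s, H j y := continuous_finsetSum s hH
  have hajm : ∀ j ∈ s, AEMeasurable (aj j) volume := fun j hj =>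
    (((an_wt_meas_ip P η hηc u a b (H j) (hH j hj)).mul ((BD.measurable_tw Ew u a b).comp (measurable_id.sub measurable_const))).const_mul _).aemeasurable
  -- step 1
  have s1 : anN P Ew u a b (fun y => ∑ j ∈ s, H j y) z ≤
      ENNReal.ofReal c₁ * ∫⁻ z', q * (BD.ip P (fun y => (∑ j ∈ s, H j y) * η (BD.Lam u a b (y - z'))) * BD.tw Ew u a b (z' - z)) := by
    rw [an_wt_tonelli P Ew hP0.le η hηc u a b _ hFc z q, ← lintegral_const_mul' _ _ ENNReal.ofReal_ne_top]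
    unfold anN
    refine lintegral_mono fun y => ?_
    calc ‖∑ j ∈ s, H j y‖ₑ ^ P * BD.tw Ew u a b (y - z) ≤ ‖∑ j ∈ s, H j y‖ₑ ^ P * (ENNReal.ofReal c₁ * Ψ y) :=
          mul_le_mul_right (hc₁ u a b ha hb y z) _
      _ = _ := by ring
  -- step 2
  have s2 : ∀ z', q * (BD.ip P (fun y => (∑ j ∈ s, H j y) * η (BD.Lam u a b (y - z'))) * BD.tw Ew u a b (z' - z))
      ≤ D ^ P * (∑ j ∈ s, aj j z' ^ (2 / P)) ^ (P / 2) := by
    intro z'
    have h1 := BD.bdc_pow P hP0 D (BD.ip P (fun y => ∑ j ∈ s, H j y * η (BD.Lam u a b (y - z')))) s (fun j => Nj j z') (hyp z')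
    have e1 : (fun y => (∑ j ∈ s, H j y) * η (BD.Lam u a b (y - z'))) = fun y => ∑ j ∈ s, H j y * η (BD.Lam u a b (y - z')) := by
      funext y
      rw [Finset.sum_mul]
    rw [e1]
    set t := BD.tw Ew u a b (z' - z) with ht
    have e2 : (∑ j ∈ s, aj j z' ^ (2 / P)) ^ (P / 2) = (q * t) * (∑ j ∈ s, Nj j z' ^ (2 / P)) ^ (P / 2) := by
      have e3 : ∀ j, aj j z' ^ (2 / P) = (q * t) ^ (2 / P) * Nj j z' ^ (2 / P) := by
        intro j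
        rw [← ENNReal.mul_rpow_of_nonneg _ _ h2P.le]
        congr 1
        rw [haj]
        ring
      simp_rw [e3]
      rw [← Finset.mul_sum, ENNReal.mul_rpow_of_nonneg _ _ hP2.le, ← ENNReal.rpow_mul, e2P, ENNReal.rpow_one]
    rw [e2]
    calc q * (BD.ip P (fun y => ∑ j ∈ s, H j y * η (BD.Lam u a b (y - z'))) * t)
        ≤ q * ((D ^ P * (∑ j ∈ s, Nj j z' ^ (2 / P)) ^ (P / 2)) * t) := mul_le_mul_right (mul_le_mul_left h1 _) _
      _ = _ := by ring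
  -- step 3
  have s3 := BD.abs_l2Lp (μ := (volume : Measure (ST n))) hP s aj hajm
  -- step 4
  have s4 : ∀ j ∈ s, ∫⁻ z', aj j z' ≤ ENNReal.ofReal c₄ * anN P Ew u a b (H j) z := by
    intro j hj
    rw [haj, hNj, an_wt_tonelli P Ew hP0.le η hηc u a b _ (hH j hj) z q]
    unfold anN
    rw [← lintegral_const_mul' _ _ ENNReal.ofReal_ne_top]
    refine lintegral_mono fun y => ?_
    calc ‖H j y‖ₑ ^ P * Ψ y ≤ ‖H j y‖ₑ ^ P * (ENNReal.ofReal c₄ * BD.tw Ew u a b (y - z)) := mul_le_mul_right (hc₄ u a b ha hb y z) _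
      _ = _ := by ring
  have s5 : anN P Ew u a b (fun y => ∑ j ∈ s, H j y) z ≤
      ENNReal.ofReal c₁ * (D ^ P * (∑ j ∈ s, (ENNReal.ofReal c₄ * anN P Ew u a b (H j) z) ^ (2 / P)) ^ (P / 2)) := by
    refine s1.trans (mul_le_mul_right ?_ _)
    refine (lintegral_mono s2).trans ?_
    have hmm : AEMeasurable (fun z' => (∑ j ∈ s, aj j z' ^ (2 / P)) ^ (P / 2)) volume :=
      (Finset.aemeasurable_fun_sum s fun j hj => (hajm j hj).pow_const _).pow_const _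
    rw [lintegral_const_mul'' _ hmm]
    refine mul_le_mul_right (s3.trans ?_) _
    exact ENNReal.rpow_le_rpow (Finset.sum_le_sum fun j hj => ENNReal.rpow_le_rpow (s4 j hj) h2P.le) hP2.le
  have s6 := ENNReal.rpow_le_rpow s5 h2P.le
  rw [ENNReal.mul_rpow_of_nonneg _ _ h2P.le, ENNReal.mul_rpow_of_nonneg _ _ h2P.le, ← ENNReal.rpow_mul, ← ENNReal.rpow_mul,
    mul_comm (P / 2), e2P, ENNReal.rpow_one] at s6
  have e5 : P * (2 / P) = 2 := by field_simp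
  rw [e5] at s6
  refine s6.trans (le_of_eq ?_)
  have e6 : ∀ j, (ENNReal.ofReal c₄ * anN P Ew u a b (H j) z) ^ (2 / P) = ENNReal.ofReal (c₄ ^ (2 / P)) * anN P Ew u a b (H j) z ^ (2 / P) := by
    intro j
    rw [ENNReal.mul_rpow_of_nonneg _ _ h2P.le, ENNReal.ofReal_rpow_of_nonneg hc₄0 h2P.le]
  simp_rw [e6]
  rw [← Finset.mul_sum, ENNReal.ofReal_rpow_of_nonneg hc₁0 h2P.le, ENNReal.ofReal_mul (by positivity), ENNReal.rpow_two]
  ring

/-- **EXIT: local decoupling at a parent cap** -/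
theorem an_ld (n : ℕ) (P Ew C : ℝ) (hP : 2 ≤ P) (hE : (n : ℝ) + 1 < Ew) (hC : 1 ≤ C) :
    ∃ A : ℝ, ∀ (σ ρ : ℝ) (D : ℝ≥0∞), 0 < σ → σ ≤ 1 → 0 < ρ → ρ ≤ 1 → SDec n P (7 * C) ρ D →
      ∀ (ι : Type) (s : Finset ι) (v : ι → E n) (H : ι → ST n → ℂ) (u : E n), BD.Rob C (σ * ρ) s v H → (∀ j ∈ s, ‖v j - u‖ ≤ C * σ) →
      Strip2 (C * (σ * ρ)) (v '' (s : Set ι)) →
      ∀ z, anN P Ew u (σ * ρ ^ 2) (σ ^ 2 * ρ ^ 2) (fun y => ∑ j ∈ s, H j y) z ^ (2 / P) ≤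
        ENNReal.ofReal A * D ^ 2 * ∑ j ∈ s, anN P Ew u (σ * ρ ^ 2) (σ ^ 2 * ρ ^ 2) (H j) z ^ (2 / P) := by
  obtain ⟨η, hη, hη1, hηd, -⟩ := BD.exists_eta (V := E n)
  obtain ⟨A, hA⟩ := an_wt_of_eta n P Ew hP hE η hη.continuous hη1 hηd
  refine ⟨A, fun σ ρ D hσ hσ1 hρ hρ1 hD ι s v H u hR hu hs z => ?_⟩
  refine hA u _ _ ι s H D (by positivity) (by positivity) (fun j hj => (hR.fs j hj).continuous) (fun z' => ?_) z
  have hR' := an_rob_loc hC hρ hρ1 hσ hσ1 hR u hu hη z'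
  have h7 : C ≤ 7 * C := by linarith
  refine an_sdec_resc hD (by linarith) (by linarith) hρ hσ hR' u (fun j hj => (hu j hj).trans ?_) (hs.mono ?_ subset_rfl)
  · exact mul_le_mul_of_nonneg_right h7 hσ.le
  · exact mul_le_mul_of_nonneg_right h7 (by positivity)

/-- Stores the on-demand equation lemmas of the definitions of THIS module here (rule 6 hygiene). -/
theorem an_dec_forced : True := by
  have := @SDec.eq_1
  trivial

end Claimed.Agent.R257
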