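import Claimed.Agent.R257.Weak.Defs
import Claimed.Agent.Lib.BD.Defs

/-!
# R257 / Ang / Defs : Lemma `w:angular` (H angular.tex), THE CONTRACT `AngularWith`            (captain helper83)            -- SHARED

Vocabulary for the consumers (WEAK-HR, WALL, SPFL):
* `fbin R w`       index `k ∈ ℤⁿ` of the frequency bin `∏ [k_i/R, (k_i+1)/R)` of the ORIGINAL grid containing `w`;   `bcen R k` its centre
* `bigc a z`       index of the big cube `cubeS a κ` containing `z`  (used with `a = R⁴`)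
* `selS A s R T`   the labels of `s` whose bin belongs to `T` (whole bins are selected);   `selF A s c R Sel z` = prescribed-bin field: on the big cube `κ` the bins `Sel κ`
* `Strip2 w T`     `T` lies in the strip of half width `w` about an affine `(n-2)`-plane (given by an orthonormal pair and two heights; `n = 2`: a point)
* `QHyp n`, `QHyp.Ok Cq cq`, `QHyp.nbhd`     hyperplane `{⟪e,v⟫ = h}`, origin `o` in it, `Q(v) = ⟪S(v-o),v-o⟫ + ⟪l,v-o⟫ + q`, `S` symmetric, `S e = 0`, `l ⟂ e`, all coefficients `≤ Cq`, `cq ≤ ‖S‖+‖l‖+|q|`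
* `Narrow`, `AngCover`     type (a) / type (b) sets, cover of the centres of the selected bins by `N` such sets
* `AngularWith n W X G J K₀ c₂ Ca CN`      (w:eq-angular) with explicit constants, `R = K^J`.

REMARKS. (1) the tube moments of `μ` and `D` are NOT used; the active range enters only through `L^{-Cl} ≤ λ`.  (2) `L` dominates `R` only through `R² ≤ L`.  (3) the number `Ncov` of covering sets enters as the factor `Ncov^p`.
(4) outer induction hypothesis = `WeakAt0` at the single scale `L/R`, `D = 1`.   (5) existence theorem with the order of the constants: `an_main` in `Ang/Main.lean`.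
-/

set_option autoImplicit false

namespace Claimed.Agent.R257

open MeasureTheory Metric Set
open scoped ENNReal InnerProductSpace

variable {n : ℕ} {ι : Type}

/-- index of the frequency bin of side `1/R` containing `w` -/
noncomputable def fbin (R : ℝ) (w : E n) : Fin n → ℤ := fun i => ⌊R * w i⌋

/-- centre of the frequency bin `k` of side `1/R` -/
noncomputable def bcen (R : ℝ) (k : Fin n → ℤ) : E n := WithLp.toLp 2 (fun i => ((k i : ℝ) + 1 / 2) / R)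

/-- index of the big cube of side `a` containing `z` -/
noncomputable def bigc (a : ℝ) (z : ST n) : (Fin n → ℤ) × ℤ := (fun i => ⌊z.1 i / a⌋, ⌊z.2 / a⌋)

/-- the labels of `s` whose bin of side `1/R` belongs to `T` -/
noncomputable def selS (A : Arr n ι) (s : Finset ι) (R : ℝ) (T : Finset (Fin n → ℤ)) : Finset ι :=
  s.filter (fun α => fbin R (A.om α) ∈ T)

/-- the prescribed-bin field: on the big cube `κ` of side `R⁴` the sum of the whole bins `Sel κ` -/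
noncomputable def selF (A : Arr n ι) (s : Finset ι) (c : ι → ℂ) (R : ℝ) (Sel : (Fin n → ℤ) × ℤ → Finset (Fin n → ℤ)) (z : ST n) : ℂ :=
  A.fld (selS A s R (Sel (bigc (R ^ 4) z))) c z

/-- `T` lies in the strip of half width `w` about an affine `(n-2)`-plane -/
def Strip2 (w : ℝ) (T : Set (E n)) : Prop :=
  ∃ (e₁ e₂ : E n) (c₁ c₂ : ℝ), ‖e₁‖ = 1 ∧ ‖e₂‖ = 1 ∧ ⟪e₁, e₂⟫_ℝ = 0 ∧ ∀ v ∈ T, |⟪e₁, v⟫_ℝ - c₁| ≤ w ∧ |⟪e₂, v⟫_ℝ - c₂| ≤ w

/-- `Strip2` is monotone -/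
theorem Strip2.mono {w w' : ℝ} {T T' : Set (E n)} (h : Strip2 w T) (hw : w ≤ w') (hT : T' ⊆ T) : Strip2 w' T' := by
  obtain ⟨e₁, e₂, c₁, c₂, h1, h2, h3, h4⟩ := h
  exact ⟨e₁, e₂, c₁, c₂, h1, h2, h3, fun v hv => ⟨((h4 v (hT hv)).1).trans hw, ((h4 v (hT hv)).2).trans hw⟩⟩

/-- an affine hyperplane with an origin and a quadratic polynomial on it -/
structure QHyp (n : ℕ) where
  /-- unit normal -/
  e : E n
  /-- height: the hyperplane is `{v | ⟪e, v⟫ = h}` -/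
  h : ℝ
  /-- origin of the coordinates on the hyperplane -/
  o : E n
  /-- quadratic part -/
  S : E n →L[ℝ] E n
  /-- linear part -/
  l : E n
  /-- constant part -/
  q : ℝ

/-- the value of the polynomial -/
noncomputable def QHyp.val (Q : QHyp n) (v : E n) : ℝ := ⟪Q.S (v - Q.o), v - Q.o⟫_ℝ + ⟪Q.l, v - Q.o⟫_ℝ + Q.q

/-- normalisation: bounded origin, coefficients `≤ Cq`, coefficient norm `≥ cq` -/
structure QHyp.Ok (Q : QHyp n) (Cq cq : ℝ) : Prop where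
  unit : ‖Q.e‖ = 1
  org : ⟪Q.e, Q.o⟫_ℝ = Q.h
  orgb : ‖Q.o‖ ≤ Cq
  symm : ∀ v w, ⟪Q.S v, w⟫_ℝ = ⟪v, Q.S w⟫_ℝ
  Se : Q.S Q.e = 0
  le : ⟪Q.l, Q.e⟫_ℝ = 0
  ubS : ‖Q.S‖ ≤ Cq
  ubl : ‖Q.l‖ ≤ Cq
  ubq : |Q.q| ≤ Cq
  lb : cq ≤ ‖Q.S‖ + ‖Q.l‖ + |Q.q|

/-- the `w`-neighbourhood of `{v ∈ H, ‖v‖ ≤ Cq, |Q v| ≤ r}` -/
def QHyp.nbhd (Q : QHyp n) (Cq w r : ℝ) : Set (E n) :=
  {v | ∃ x : E n, ⟪Q.e, x⟫_ℝ = Q.h ∧ ‖x‖ ≤ Cq ∧ |Q.val x| ≤ r ∧ ‖v - x‖ ≤ w}

/-- `T` is contained in a narrow set of type (a) or (b) at the scale `1/R` -/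
def Narrow (Cw Cq cq R : ℝ) (T : Set (E n)) : Prop :=
  Strip2 (Cw / R) T ∨ ∃ Q : QHyp n, Q.Ok Cq cq ∧ T ⊆ Q.nbhd Cq (Cw / R) (R⁻¹ ^ 4)

/-- the centres of the bins `T` are covered by `N` narrow sets -/
def AngCover (Cw Cq cq R : ℝ) (N : ℕ) (T : Finset (Fin n → ℤ)) : Prop :=
  ∃ P : Fin N → Set (E n), (∀ i, Narrow Cw Cq cq R (P i)) ∧ ∀ k ∈ T, ∃ i, bcen R k ∈ P i

/-- the fixed constants of an application of w:angular -/
structure ACon where
  /-- the narrow sets have width `Cw / R` -/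
  Cw : ℝ
  /-- bounded region, bounded origin, upper bound of the coefficients -/
  Cq : ℝ
  /-- lower bound of the coefficient norm -/
  cq : ℝ
  /-- the level is `c₀ λ` -/
  c₀ : ℝ
  /-- active range: `L^{-Cl} ≤ λ` -/
  Cl : ℝ
  /-- the absolute error is `CN m L^{-N}` -/
  N : ℝ
  /-- the constant of `WeakAt0` -/
  C' : ℝ

/-- sanity of the constants of an application -/
structure ACon.Ok (G : ACon) : Prop where
  Cw : 0 ≤ G.Cw
  Cq : 1 ≤ G.Cq
  cq : 0 < G.cq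
  c₀ : 0 < G.c₀
  Cl : 0 ≤ G.Cl
  N : 0 ≤ G.N
  C' : 0 ≤ G.C'

/-- **Lemma w:angular with explicit constants**, `R = K^J` -/
def AngularWith (n : ℕ) (W : WCon) (X : WExp) (G : ACon) (J : ℕ) (K₀ c₂ Ca CN : ℝ) : Prop :=
  ∀ (ι : Type) (A : Arr n ι) (s : Finset ι) (c : ι → ℂ) (μ : Measure (ST n)) (m χ g : ℝ) (K Ncov : ℕ)
    (Sel : (Fin n → ℤ) × ℤ → Finset (Fin n → ℤ)),
    K₀ ≤ (K : ℝ) → ((K : ℝ) ^ J) ^ 2 ≤ A.L → A.In s W.K → (∀ α ∈ s, A.tc α = 0) → energy s c ≤ 1 →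
    0 ≤ m → 0 < χ → χ ≤ 1 → 0 < g →
    Grow μ m n → Slab μ (W.T₀ * A.L ^ 2) → Dens μ m χ → (∃ x₀ : E n, InBall μ x₀ (W.Cb * A.L ^ 2)) →
    A.L ^ (-G.Cl) ≤ wlev n X.a χ g A.L →
    WeakAt0 n W X G.C' (A.L / (K : ℝ) ^ J) 1 →
    (∀ κ, AngCover G.Cw G.Cq G.cq ((K : ℝ) ^ J) Ncov (Sel κ)) →
    μ {z | G.c₀ * wlev n X.a χ g A.L ≤ ‖selF A s c ((K : ℝ) ^ J) Sel z‖} ≤
      ENNReal.ofReal (Ca * (Ncov : ℝ) ^ X.p * ((K : ℝ) ^ J) ^ (-c₂) * wrhs n X m A.L g 1 (energy s c) + CN * m * A.L ^ (-G.N))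

/-- Stores the on-demand equation lemmas of the definitions of THIS module here (rule 6 hygiene). -/
theorem an_defs_forced : True := by
  have := @fbin.eq_1
  have := @bcen.eq_1
  have := @bigc.eq_1
  have := @selS.eq_1
  have := @selF.eq_1
  have := @Strip2.eq_1
  have := @QHyp.val.eq_1
  have := @QHyp.nbhd.eq_1
  have := @Narrow.eq_1
  have := @AngCover.eq_1
  have := @AngularWith.eq_1
  trivial

end Claimed.Agent.R257
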