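import Claimed.Agent.R257.Ang.Main
import Claimed.Agent.R257.Top

/-!
# R257 / Ang / Exit : FROM `an_main_of_master` TO THE FIELD `Rest2.ang` OF `Top2.lean`            (helper244)

`an_stmt_of` : for any admissible `(bb, δ, pmax)` the contract `MasterWith` (hypothesis `hM` of `an_main_of_master`, VERBATIM) gives
`∃ a pmax, 0 < a ∧ 2 a < 1 - β ∧ 2 < pmax ∧ AngularStmt n W a pmax` for every `W` with `WOk n W`.
helper83: it remains to prove `hM` for ONE triple `(bb, δ, pmax)` with `0 < bb < 1`, `0 ≤ δ`, `2 < pmax`, `0 < bb - β - δ - (1 - 2/pmax)(n-1)`.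
-/

set_option autoImplicit false

namespace Claimed.Agent.R257

open MeasureTheory Metric Set
open scoped ENNReal

variable {n : ℕ} {ι : Type}

/-- a class with a negative bound of the profiles contains only empty subarrays -/
theorem an_exit_empty {A : Arr n ι} {s : Finset ι} {K : Cls} (h : A.In s K) (hB : K.B < 0) : s = ∅ := by
  by_contra hne
  obtain ⟨α, hα⟩ := Finset.nonempty_iff_ne_empty.2 hne
  have h1 := (h.prof α hα).bound 0 (Nat.zero_le _) 0
  have h2 : 0 ≤ ‖iteratedFDeriv ℝ 0 (A.pf α) 0‖ := norm_nonneg _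
  linarith

/-- the trivial case of `AngularWith` -/
theorem an_exit_neg (W : WCon) (X : WExp) (G : ACon) (hG : G.Ok) (J : ℕ) (c₂ : ℝ) (hB : W.K.B < 0) : AngularWith n W X G J 0 c₂ 0 0 := by
  intro ι A s c μ m χ g K Ncov Sel _ _ hin _ _ _ hχ _ hg _ _ _ _ _ _ _
  have hs : s = ∅ := an_exit_empty hin hB
  have hL : 0 < A.L := lt_of_lt_of_le one_pos hin.one_le
  have hw : 0 < G.c₀ * wlev n X.a χ g A.L := by
    have := hG.c₀
    unfold wlev
    positivity
  have he : {z | G.c₀ * wlev n X.a χ g A.L ≤ ‖selF A s c ((K : ℝ) ^ J) Sel z‖} = ∅ := by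
    ext z
    simp only [mem_setOf_eq, mem_empty_iff_false, iff_false, not_le]
    have : selF A s c ((K : ℝ) ^ J) Sel z = 0 := by
      subst hs
      simp [selF, selS, Arr.fld]
    rw [this, norm_zero]
    exact hw
  rw [he]
  simp

theorem WOk.sane {W : WCon} (h : WOk n W) (J : ℕ) {Bp : ℝ} (hB : 0 ≤ Bp) : (W.wJB J Bp).Sane n where
  time := h.time.le
  T0 := by have := h.T₀; show 0 ≤ W.T₀; linarith
  mom := by have := h.M; show n + 1 ≤ W.M; omega
  freq := by have := h.Rω; show Real.sqrt n ≤ W.K.Rω; linarith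
  Rp := by have := h.R; show 0 ≤ W.K.R; linarith
  Bp := hB
  Cb := by have := h.Cb; have := Real.sqrt_nonneg (n : ℝ); show 0 ≤ W.Cb; linarith

/-- **the exit of AN in the form of `Rest2.ang`** -/
theorem an_stmt_of (hn : 2 ≤ n) (bb δ pmax : ℝ) (hb0 : 0 < bb) (hb1 : bb < 1) (hδ : 0 ≤ δ) (hpm : 2 < pmax)
    (hγ : 0 < bb - bet n - δ - (1 - 2 / pmax) * ((n : ℝ) - 1))
    (hM : ∀ J : ℕ, 1 ≤ J → ∀ p a η : ℝ, 2 < p → p ≤ pmax → 2 * a = 1 - bb + δ → 0 < η → ∀ G : ACon, G.Ok → ∀ N₁ : ℕ, ∀ W : WCon, W.Sane n → N₁ + n + 2 ≤ W.K.J →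
        ∃ CM K₀ : ℝ, 0 ≤ CM ∧ MasterWith n W G J N₁ p a bb δ η CM K₀)
    {W : WCon} (hW : WOk n W) :
    ∃ a pmax : ℝ, 0 < a ∧ 2 * a < 1 - bet n ∧ 2 < pmax ∧ AngularStmt n W a pmax := by
  obtain ⟨J₀, h⟩ := an_main_of_master n hn bb δ pmax hb0 hb1 hγ hM
  have hn' : (2 : ℝ) ≤ n := by exact_mod_cast hn
  have h1 : 0 ≤ (1 - 2 / pmax) * ((n : ℝ) - 1) := by
    have : 2 / pmax ≤ 1 := by rw [div_le_one (by linarith)]; linarith
    exact mul_nonneg (by linarith) (by linarith)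
  refine ⟨(1 - bb + δ) / 2, pmax, by linarith, by linarith, hpm, (bb - bet n - δ - (1 - 2 / pmax) * ((n : ℝ) - 1)) / 4, max J₀ 1, by positivity,
    le_max_right _ _, fun G p σ hG hp hpp => ?_⟩
  obtain ⟨Jd, h⟩ := h (max J₀ 1) (le_max_left _ _) p σ ((1 - bb + δ) / 2) hp hpp (by ring) G hG
  refine ⟨Jd, fun J' hJ' Bp => ?_⟩
  rcases lt_or_ge Bp 0 with hB | hB
  · exact ⟨0, 0, 0, fun Cind _ => an_exit_neg _ _ G hG _ _ hB⟩
  · exact h (W.wJB J' Bp) (hW.sane J' hB) hJ'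

end Claimed.Agent.R257
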