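import Claimed.Agent.R257.Ang.Master
import Claimed.Agent.R257.Ang.Exit
import Claimed.Agent.Lib.BD.Top

/-!
# R257 / Ang / Final : THE EXIT OF AN            (captain helper83)

`an_stmt : 2 ≤ n → WOk n W → ∃ a pmax, 0 < a ∧ 2 a < 1 - β ∧ 2 < pmax ∧ AngularStmt n W a pmax`   (field `Rest2.ang` of `Top2.lean`).
Choice: `gap = 1/(n(n+1))`, `b = β + gap` (the midpoint of `(β, 2/n)`), `δ = gap/4`, `pmax = 2 + gap/(2n)`;   box decoupling `BD.bd_main` in dimension `n - 2` at `P = 2/(1-b)`: `P (n-2) ≤ 2n ⟺ n b ≤ 2`.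
-/

set_option autoImplicit false

namespace Claimed.Agent.R257

open MeasureTheory Metric Set
open scoped ENNReal

/-- **EXIT OF AN.** -/
theorem an_stmt {n : ℕ} (hn : 2 ≤ n) {W : WCon} (hW : WOk n W) :
    ∃ a pmax : ℝ, 0 < a ∧ 2 * a < 1 - bet n ∧ 2 < pmax ∧ AngularStmt n W a pmax := by
  have hn2 : (2 : ℝ) ≤ (n : ℝ) := by exact_mod_cast hn
  have hn0 : (0 : ℝ) < (n : ℝ) := by linarith
  set gap : ℝ := 1 / ((n : ℝ) * ((n : ℝ) + 1)) with hgap
  have hgap0 : 0 < gap := by rw [hgap]; positivity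
  have hβ : bet n = 2 / ((n : ℝ) + 1) := rfl
  have hβ0 : 0 < bet n := by rw [hβ]; positivity
  -- `n (β + gap) ≤ 2`
  have hnb : (n : ℝ) * (bet n + gap) ≤ 2 := by
    rw [hβ, hgap]
    have e : (n : ℝ) * (2 / ((n : ℝ) + 1) + 1 / ((n : ℝ) * ((n : ℝ) + 1))) = (2 * (n : ℝ) + 1) / ((n : ℝ) + 1) := by
      field_simp
    rw [e, div_le_iff₀ (by linarith)]
    linarith
  have hb0 : 0 < bet n + gap := by linarith
  have hb1 : bet n + gap < 1 := by
    rw [hβ, hgap]
    have e : 2 / ((n : ℝ) + 1) + 1 / ((n : ℝ) * ((n : ℝ) + 1)) = (2 * (n : ℝ) + 1) / ((n : ℝ) * ((n : ℝ) + 1)) := by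
      field_simp
    rw [e, div_lt_one (by positivity)]
    nlinarith
  have hgap1 : gap ≤ 1 := by linarith
  have ht0 : 0 < gap / (2 * (n : ℝ)) := by positivity
  have hpm : 2 < 2 + gap / (2 * (n : ℝ)) := by linarith
  have hloss : (1 - 2 / (2 + gap / (2 * (n : ℝ)))) * ((n : ℝ) - 1) ≤ gap / 4 := by
    have h1 : 1 - 2 / (2 + gap / (2 * (n : ℝ))) ≤ gap / (2 * (n : ℝ)) / 2 := by
      have e : 1 - 2 / (2 + gap / (2 * (n : ℝ))) = gap / (2 * (n : ℝ)) / (2 + gap / (2 * (n : ℝ))) := by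
        field_simp
        ring
      rw [e]
      exact div_le_div_of_nonneg_left ht0.le two_pos (by linarith)
    calc (1 - 2 / (2 + gap / (2 * (n : ℝ)))) * ((n : ℝ) - 1) ≤ gap / (2 * (n : ℝ)) / 2 * ((n : ℝ) - 1) :=
          mul_le_mul_of_nonneg_right h1 (by linarith)
      _ = gap / 4 * (((n : ℝ) - 1) / (n : ℝ)) := by
          field_simp
          ring
      _ ≤ gap / 4 * 1 := by
          refine mul_le_mul_of_nonneg_left ?_ (by positivity)
          rw [div_le_one hn0]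
          linarith
      _ = gap / 4 := mul_one _
  have hγ : 0 < bet n + gap - bet n - gap / 4 - (1 - 2 / (2 + gap / (2 * (n : ℝ)))) * ((n : ℝ) - 1) := by linarith
  have hb1' : 0 < 1 - (bet n + gap) := by linarith
  have hBD : ∀ η : ℝ, 0 < η → BD.DecPow (E (n - 2)) (2 / (1 - (bet n + gap))) η := by
    intro η hη
    have hfr : Module.finrank ℝ (E (n - 2)) = n - 2 := by
      rw [finrank_euclideanSpace, Fintype.card_fin]
    have hc : ((n - 2 : ℕ) : ℝ) = (n : ℝ) - 2 := by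
      rw [Nat.cast_sub hn]
      norm_num
    refine BD.bd_main ?_ ?_ hη
    · rw [le_div_iff₀ hb1']
      nlinarith
    · rw [hfr, hc, div_mul_eq_mul_div, div_le_iff₀ hb1']
      nlinarith
  exact an_stmt_of hn (bet n + gap) (gap / 4) (2 + gap / (2 * (n : ℝ))) hb0 hb1 (by positivity) hpm hγ
    (fun J hJ p a η hp _ h2a hη G hG N₁ W' hW' hJd =>
      an_master_all n hn (bet n + gap) (gap / 4) hb0 hb1 (by positivity) (by linarith) hBD J hJ p a η hp h2a hη G hG N₁ W' hW' hJd) hW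

end Claimed.Agent.R257
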