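import Claimed.Agent.R257.Ang.Defs

/-!
# R257 / Ang / Geo : unit AN1, THE NARROW GEOMETRY (H angular.tex l.41-78).      PAPER-FREE, finite dimensional, no analysis.      (architect helper83)

`R = K^J`.  Fine bins = bins of side `1/R`, index `k ∈ ℤⁿ`;  `banc K r k` = index of the ancestor `r` generations up (side `K^r/R`; integer division = floor).
`Chain K J C₁ Nb S` : there are at most `Nb` BAD levels; at every other level `j < J`, for EVERY parent bin `τ` of side `K^{-j}`, the centres of the fine bins of `S` inside `τ`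
lie in a strip of half width `C₁ K^{-(j+1)}` about an affine `(n-2)`-plane (the plane may depend on `τ`).
EXIT `an_geo` : the bins whose centres lie in ONE narrow set split into `≤ Ccl (1 + log R)` classes with the chain property, `Nb = 4` ABSOLUTE (because `K ≥ K₀`).

MATHEMATICS for type (b).  `x_k` = a point of the hyperplane with `‖x_k‖ ≤ Cq`, `|Q x_k| ≤ R⁻⁴`, `‖bcen k - x_k‖ ≤ Cw/R`;  `G₀ = 5 Cq²` bounds `‖grad Q‖` there;  `I = ⌈log₂ (G₀ R)⌉`;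
class `i < I`: `G₀ 2^{-i-1} < ‖grad Q (x_k)‖ ≤ G₀ 2^{-i} =: m₁` (then `m₁ ≥ 1/R`);  class `I`: `‖grad Q (x_k)‖ ≤ G₀ 2^{-I} ≤ 1/R`.
REGIME 1 (`an_geo_reg1`): if `m₁ (1+2Cq) + R⁻⁴ ≤ cq/2` the whole class lies within `Cw/R + C m₁` of ONE `(n-2)`-plane: level `j` is good as soon as `K^{j+1} ≤ 1/m₁`.
REGIME 2 (`an_geo_reg2`), classes `i < I`: inside a parent of side `1/s`, `s = K^j`, all `x_k` are within `Ca/s`, `Ca = √n + 2Cw`, of each other; Taylor at one of them: width `Cw/R + (2/m₁)(2R⁻⁴ + Cq Ca² s⁻²) ≤ (Cw+5)/(K s)` as soon as `s ≥ 2 Cq Ca² K/m₁`.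
BAD levels: `1/(m₁ K) < K^j < Cb K/m₁`: an interval of ratio `Cb K² ≤ K³`: at most 3 levels;   classes with `m₁` not small: `K^j < Cb K/m₁ ≤ K²`: at most 2 levels.
-/

set_option autoImplicit false

namespace Claimed.Agent.R257

open Set
open scoped InnerProductSpace

variable {n : ℕ}

/-- index of the ancestor `r` generations up -/
def banc (K r : ℕ) (k : Fin n → ℤ) : Fin n → ℤ := fun i => k i / ((K : ℤ) ^ r)

/-- the chain property -/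
def Chain (K J : ℕ) (C₁ : ℝ) (Nb : ℕ) (S : Finset (Fin n → ℤ)) : Prop :=
  ∃ bad : Finset ℕ, bad.card ≤ Nb ∧ ∀ j < J, j ∉ bad → ∀ τ : Fin n → ℤ,
    Strip2 (C₁ / (K : ℝ) ^ (j + 1)) {v | ∃ k ∈ S, banc K (J - j) k = τ ∧ v = bcen ((K : ℝ) ^ J) k}

/-- the gradient of the polynomial (tangent to the hyperplane) -/
noncomputable def QHyp.grad (Q : QHyp n) (x : E n) : E n := (2 : ℝ) • Q.S (x - Q.o) + Q.l

/-- **L-AN-G1** (60 l.) exact Taylor formula (`S` symmetric). -/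
theorem an_geo_taylor (Q : QHyp n) {Cq cq : ℝ} (hQ : Q.Ok Cq cq) (x y : E n) :
    Q.val y = Q.val x + ⟪Q.grad x, y - x⟫_ℝ + ⟪Q.S (y - x), y - x⟫_ℝ := by
  have e : y - Q.o = (x - Q.o) + (y - x) := by abel
  have h1 : ⟪Q.S (y - x), x - Q.o⟫_ℝ = ⟪Q.S (x - Q.o), y - x⟫_ℝ := by
    rw [hQ.symm, real_inner_comm]
  unfold QHyp.val QHyp.grad
  rw [e, map_add]
  simp only [inner_add_left, inner_add_right, real_inner_smul_left]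
  rw [h1]
  ring

/-- **L-AN-G2** (40 l.) the gradient is tangent and bounded. -/
theorem an_geo_grad (Q : QHyp n) {Cq cq : ℝ} (hQ : Q.Ok Cq cq) (hCq : 1 ≤ Cq) (x : E n) (hx : ‖x‖ ≤ Cq) :
    ⟪Q.e, Q.grad x⟫_ℝ = 0 ∧ ‖Q.grad x‖ ≤ 5 * Cq ^ 2 := by
  constructor
  · unfold QHyp.grad
    rw [inner_add_right, real_inner_smul_right, ← hQ.symm, hQ.Se, inner_zero_left, real_inner_comm, hQ.le]
    ring
  · have h1 : ‖x - Q.o‖ ≤ 2 * Cq := (norm_sub_le _ _).trans (by linarith [hQ.orgb])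
    have h2 : ‖Q.S (x - Q.o)‖ ≤ Cq * (2 * Cq) :=
      (Q.S.le_opNorm _).trans (mul_le_mul hQ.ubS h1 (norm_nonneg _) (by linarith))
    have h3 : ‖Q.grad x‖ ≤ 2 * ‖Q.S (x - Q.o)‖ + ‖Q.l‖ := by
      unfold QHyp.grad
      refine (norm_add_le _ _).trans (add_le_add (le_of_eq ?_) le_rfl)
      rw [norm_smul]
      norm_num
    have h4 := hQ.ubl
    nlinarith

/-- **L-AN-G3** (200 l.) REGIME 1.  A point with small value and small gradient forces `‖S‖ ≥ cS := cq/(2(1+4Cq+4Cq²))` (re-expand `q = Q(o)`, `l = grad Q (o)` at that point by `an_geo_taylor`);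
take `w`, `‖w‖ ≤ 1`, `‖S w‖ ≥ ‖S‖/2` (`ContinuousLinearMap.exists_lt_apply_of_lt_opNorm`), `e₂ = S w/‖S w‖` (orthogonal to `e` since `⟪S w, e⟫ = ⟪w, S e⟫ = 0`);
`⟪grad Q x, w⟫ = 2 ‖S w‖ ⟪x - o, e₂⟫ + ⟪l, w⟫`, so `|⟪e₂, x⟫ - c₂| ≤ m₁/(2‖S w‖) ≤ m₁/cS`. -/
theorem an_geo_reg1 (Q : QHyp n) {Cq cq : ℝ} (hQ : Q.Ok Cq cq) (hCq : 1 ≤ Cq) (hcq : 0 < cq) (m₁ r₀ : ℝ) (hm : 0 ≤ m₁) (hr : 0 ≤ r₀)
    (hsmall : m₁ * (1 + 2 * Cq) + r₀ ≤ cq / 2) (T : Set (E n)) (hne : T.Nonempty)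
    (hT : ∀ x ∈ T, ‖x‖ ≤ Cq ∧ |Q.val x| ≤ r₀ ∧ ‖Q.grad x‖ ≤ m₁) :
    ∃ (e₂ : E n) (c₂ : ℝ), ‖e₂‖ = 1 ∧ ⟪Q.e, e₂⟫_ℝ = 0 ∧ ∀ x ∈ T, |⟪e₂, x⟫_ℝ - c₂| ≤ m₁ * (2 * (1 + 4 * Cq + 4 * Cq ^ 2) / cq) := by
  obtain ⟨x₁, hx₁⟩ := hne
  obtain ⟨a1, a2, a3⟩ := hT x₁ hx₁
  have hS0 : 0 ≤ ‖Q.S‖ := norm_nonneg _
  have hd : ‖Q.o - x₁‖ ≤ 2 * Cq := (norm_sub_le _ _).trans (by linarith [hQ.orgb])
  have hd0 : 0 ≤ ‖Q.o - x₁‖ := norm_nonneg _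
  -- `q = Q(o)`
  have hq : |Q.q| ≤ r₀ + m₁ * (2 * Cq) + ‖Q.S‖ * (4 * Cq ^ 2) := by
    have h1 := an_geo_taylor Q hQ x₁ Q.o
    have h2 : Q.val Q.o = Q.q := by
      unfold QHyp.val
      simp
    rw [h2] at h1
    have h3 : |⟪Q.grad x₁, Q.o - x₁⟫_ℝ| ≤ m₁ * (2 * Cq) :=
      (abs_real_inner_le_norm _ _).trans (mul_le_mul a3 hd hd0 hm)
    have h4 : |⟪Q.S (Q.o - x₁), Q.o - x₁⟫_ℝ| ≤ ‖Q.S‖ * (4 * Cq ^ 2) := by
      refine (abs_real_inner_le_norm _ _).trans ?_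
      have h5 : ‖Q.S (Q.o - x₁)‖ ≤ ‖Q.S‖ * ‖Q.o - x₁‖ := Q.S.le_opNorm _
      have h6 : ‖Q.o - x₁‖ * ‖Q.o - x₁‖ ≤ (2 * Cq) * (2 * Cq) := mul_le_mul hd hd hd0 (by linarith)
      calc ‖Q.S (Q.o - x₁)‖ * ‖Q.o - x₁‖ ≤ ‖Q.S‖ * ‖Q.o - x₁‖ * ‖Q.o - x₁‖ := mul_le_mul_of_nonneg_right h5 hd0
        _ = ‖Q.S‖ * (‖Q.o - x₁‖ * ‖Q.o - x₁‖) := by ring
        _ ≤ ‖Q.S‖ * ((2 * Cq) * (2 * Cq)) := mul_le_mul_of_nonneg_left h6 hS0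
        _ = _ := by ring
    rw [h1]
    calc |Q.val x₁ + ⟪Q.grad x₁, Q.o - x₁⟫_ℝ + ⟪Q.S (Q.o - x₁), Q.o - x₁⟫_ℝ|
        ≤ |Q.val x₁ + ⟪Q.grad x₁, Q.o - x₁⟫_ℝ| + |⟪Q.S (Q.o - x₁), Q.o - x₁⟫_ℝ| := abs_add_le _ _
      _ ≤ |Q.val x₁| + |⟪Q.grad x₁, Q.o - x₁⟫_ℝ| + |⟪Q.S (Q.o - x₁), Q.o - x₁⟫_ℝ| := add_le_add (abs_add_le _ _) le_rfl
      _ ≤ _ := add_le_add (add_le_add a2 h3) h4
  -- `l = grad Q (o)`
  have hl : ‖Q.l‖ ≤ m₁ + ‖Q.S‖ * (4 * Cq) := by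
    have e : Q.l = Q.grad x₁ + (2 : ℝ) • Q.S (Q.o - x₁) := by
      unfold QHyp.grad
      have : Q.S (Q.o - x₁) = -Q.S (x₁ - Q.o) := by rw [← map_neg, neg_sub]
      rw [this, smul_neg]
      abel
    have h5 : ‖Q.S (Q.o - x₁)‖ ≤ ‖Q.S‖ * (2 * Cq) := (Q.S.le_opNorm _).trans (mul_le_mul_of_nonneg_left hd hS0)
    have h6 : ‖(2 : ℝ) • Q.S (Q.o - x₁)‖ = 2 * ‖Q.S (Q.o - x₁)‖ := by
      rw [norm_smul]
      norm_num
    calc ‖Q.l‖ = ‖Q.grad x₁ + (2 : ℝ) • Q.S (Q.o - x₁)‖ := by rw [← e]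
      _ ≤ ‖Q.grad x₁‖ + ‖(2 : ℝ) • Q.S (Q.o - x₁)‖ := norm_add_le _ _
      _ ≤ m₁ + ‖Q.S‖ * (4 * Cq) := by
        rw [h6]
        linarith
  -- lower bound of `‖S‖`
  obtain ⟨D, hD⟩ : ∃ D : ℝ, D = 1 + 4 * Cq + 4 * Cq ^ 2 := ⟨_, rfl⟩
  have hD0 : 0 < D := by
    rw [hD]
    positivity
  have hSlb : cq / 2 ≤ ‖Q.S‖ * D := by
    have := hQ.lb
    rw [hD]
    nlinarith
  have hSpos : 0 < ‖Q.S‖ := by
    by_contra hcon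
    have h0 : ‖Q.S‖ = 0 := le_antisymm (not_lt.1 hcon) hS0
    rw [h0, zero_mul] at hSlb
    linarith
  obtain ⟨w, hw1, hw2⟩ := Q.S.exists_lt_apply_of_lt_opNorm (r := ‖Q.S‖ / 2) (by linarith)
  have hSw : 0 < ‖Q.S w‖ := lt_of_le_of_lt (by positivity) hw2
  refine ⟨(‖Q.S w‖)⁻¹ • Q.S w, ⟪(‖Q.S w‖)⁻¹ • Q.S w, Q.o⟫_ℝ - ⟪Q.l, w⟫_ℝ / (2 * ‖Q.S w‖), ?_, ?_, fun x hx => ?_⟩
  · rw [norm_smul, norm_inv, norm_norm, inv_mul_cancel₀ hSw.ne']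
  · rw [real_inner_smul_right, ← hQ.symm, hQ.Se, inner_zero_left, mul_zero]
  · obtain ⟨b1, b2, b3⟩ := hT x hx
    have e1 : ⟪Q.grad x, w⟫_ℝ = 2 * ⟪Q.S w, x - Q.o⟫_ℝ + ⟪Q.l, w⟫_ℝ := by
      unfold QHyp.grad
      rw [inner_add_left, real_inner_smul_left, hQ.symm, real_inner_comm]
    have e2 : ⟪(‖Q.S w‖)⁻¹ • Q.S w, x⟫_ℝ - (⟪(‖Q.S w‖)⁻¹ • Q.S w, Q.o⟫_ℝ - ⟪Q.l, w⟫_ℝ / (2 * ‖Q.S w‖))
        = ⟪Q.grad x, w⟫_ℝ / (2 * ‖Q.S w‖) := by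
      rw [e1, inner_sub_right, real_inner_smul_left, real_inner_smul_left]
      field_simp
      ring
    rw [e2, abs_div, abs_of_pos (by positivity : (0 : ℝ) < 2 * ‖Q.S w‖)]
    have h7 : |⟪Q.grad x, w⟫_ℝ| ≤ m₁ := by
      refine (abs_real_inner_le_norm _ _).trans ?_
      calc ‖Q.grad x‖ * ‖w‖ ≤ m₁ * 1 := mul_le_mul b3 hw1.le (norm_nonneg _) hm
        _ = m₁ := mul_one _
    have h8 : cq / (2 * D) ≤ 2 * ‖Q.S w‖ := by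
      rw [div_le_iff₀ (by positivity)]
      nlinarith
    have h9 : 0 < cq / (2 * D) := by positivity
    calc |⟪Q.grad x, w⟫_ℝ| / (2 * ‖Q.S w‖) ≤ m₁ / (cq / (2 * D)) := div_le_div₀ hm h7 h9 h8
      _ = m₁ * (2 * (1 + 4 * Cq + 4 * Cq ^ 2) / cq) := by
        rw [hD]
        field_simp

/-- **L-AN-G4** (80 l.) REGIME 2: Taylor at `x₀`, `e₂ = grad Q x₀/‖grad Q x₀‖`. -/
theorem an_geo_reg2 (Q : QHyp n) {Cq cq : ℝ} (hQ : Q.Ok Cq cq) (hCq : 1 ≤ Cq) (x₀ : E n) (hx₀ : ‖x₀‖ ≤ Cq) (hg : 0 < ‖Q.grad x₀‖) :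
    ∃ e₂ : E n, ‖e₂‖ = 1 ∧ ⟪Q.e, e₂⟫_ℝ = 0 ∧
      ∀ x : E n, |⟪e₂, x⟫_ℝ - ⟪e₂, x₀⟫_ℝ| ≤ (|Q.val x| + |Q.val x₀| + Cq * ‖x - x₀‖ ^ 2) / ‖Q.grad x₀‖ := by
  refine ⟨(‖Q.grad x₀‖)⁻¹ • Q.grad x₀, ?_, ?_, fun x => ?_⟩
  · rw [norm_smul, norm_inv, norm_norm, inv_mul_cancel₀ hg.ne']
  · rw [real_inner_smul_right, (an_geo_grad Q hQ hCq x₀ hx₀).1, mul_zero]
  · have h1 := an_geo_taylor Q hQ x₀ x
    have h2 : |⟪Q.S (x - x₀), x - x₀⟫_ℝ| ≤ Cq * ‖x - x₀‖ ^ 2 := by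
      refine (abs_real_inner_le_norm _ _).trans ?_
      have h3 : ‖Q.S (x - x₀)‖ ≤ Cq * ‖x - x₀‖ :=
        (Q.S.le_opNorm _).trans (mul_le_mul_of_nonneg_right hQ.ubS (norm_nonneg _))
      calc ‖Q.S (x - x₀)‖ * ‖x - x₀‖ ≤ Cq * ‖x - x₀‖ * ‖x - x₀‖ := mul_le_mul_of_nonneg_right h3 (norm_nonneg _)
        _ = _ := by ring
    have e : ⟪(‖Q.grad x₀‖)⁻¹ • Q.grad x₀, x⟫_ℝ - ⟪(‖Q.grad x₀‖)⁻¹ • Q.grad x₀, x₀⟫_ℝ
        = (Q.val x - Q.val x₀ - ⟪Q.S (x - x₀), x - x₀⟫_ℝ) / ‖Q.grad x₀‖ := by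
      rw [← inner_sub_right, real_inner_smul_left, h1]
      field_simp
      ring
    rw [e, abs_div, abs_of_pos hg]
    refine div_le_div_of_nonneg_right ?_ hg.le
    calc |Q.val x - Q.val x₀ - ⟪Q.S (x - x₀), x - x₀⟫_ℝ| ≤ |Q.val x - Q.val x₀| + |⟪Q.S (x - x₀), x - x₀⟫_ℝ| := abs_sub _ _
      _ ≤ |Q.val x| + |Q.val x₀| + Cq * ‖x - x₀‖ ^ 2 := add_le_add (abs_sub _ _) h2

/-- **L-AN-G5** (80 l.) two fine bins with the same ancestor `r` generations up have centres within `√n K^r/R` (`k i / K^r = k' i / K^r` ⟹ `|k i - k' i| < K^r`; `EuclideanSpace.norm_eq`). -/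
theorem an_geo_anc (K J r : ℕ) (hK : 1 ≤ K) (k k' : Fin n → ℤ) (h : banc K r k = banc K r k') :
    ‖bcen ((K : ℝ) ^ J) k - bcen ((K : ℝ) ^ J) k'‖ ≤ Real.sqrt n * (K : ℝ) ^ r / (K : ℝ) ^ J := by
  have hK0 : (0 : ℝ) < K := by exact_mod_cast hK
  obtain ⟨R, hRd⟩ : ∃ R : ℝ, R = (K : ℝ) ^ J := ⟨_, rfl⟩
  rw [← hRd]
  have hR : 0 < R := by
    rw [hRd]
    positivity
  have hKr : (0 : ℤ) < (K : ℤ) ^ r := by
    have : (0 : ℤ) < (K : ℤ) := by exact_mod_cast hK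
    positivity
  have hi : ∀ i, |(k i : ℝ) - k' i| ≤ (K : ℝ) ^ r := by
    intro i
    have h1 : k i / (K : ℤ) ^ r = k' i / (K : ℤ) ^ r := congrFun h i
    have h2 : |k i - k' i| < (K : ℤ) ^ r := by
      have a1 := Int.emod_add_mul_ediv (k i) ((K : ℤ) ^ r)
      have a2 := Int.emod_add_mul_ediv (k' i) ((K : ℤ) ^ r)
      have b1 := Int.emod_nonneg (k i) hKr.ne'
      have b2 := Int.emod_lt_of_pos (k i) hKr
      have b3 := Int.emod_nonneg (k' i) hKr.ne'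
      have b4 := Int.emod_lt_of_pos (k' i) hKr
      rw [h1] at a1
      rw [abs_lt]
      constructor <;> linarith
    have h3 : ((|k i - k' i| : ℤ) : ℝ) ≤ (((K : ℤ) ^ r : ℤ) : ℝ) := by exact_mod_cast h2.le
    push_cast at h3
    exact h3
  have hterm : ∀ i, ‖(bcen R k - bcen R k') i‖ ^ 2 ≤ ((K : ℝ) ^ r / R) ^ 2 := by
    intro i
    have e : (bcen R k - bcen R k') i = ((k i : ℝ) - k' i) / R := by
      simp only [bcen, PiLp.sub_apply]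
      ring
    rw [e, Real.norm_eq_abs, abs_div, abs_of_pos hR]
    exact pow_le_pow_left₀ (by positivity) (div_le_div_of_nonneg_right (hi i) hR.le) 2
  rw [EuclideanSpace.norm_eq]
  calc Real.sqrt (∑ i, ‖(bcen R k - bcen R k') i‖ ^ 2) ≤ Real.sqrt (∑ _i : Fin n, ((K : ℝ) ^ r / R) ^ 2) :=
        Real.sqrt_le_sqrt (Finset.sum_le_sum fun i _ => hterm i)
    _ = Real.sqrt ((n : ℝ) * ((K : ℝ) ^ r / R) ^ 2) := by simp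
    _ = Real.sqrt n * ((K : ℝ) ^ r / R) := by rw [Real.sqrt_mul (by positivity), Real.sqrt_sq (by positivity)]
    _ = _ := by ring

/-- **L-AN-G6** (60 l.) counting levels: the exponents `j` with `a < K^j < b`, `b ≤ K^3 a`, are at most `3`. -/
theorem an_geo_count (K : ℕ) (hK : 2 ≤ K) (a b : ℝ) (ha : 0 < a) (hb : b ≤ (K : ℝ) ^ 3 * a) (t : Finset ℕ)
    (ht : ∀ j ∈ t, a < (K : ℝ) ^ j ∧ (K : ℝ) ^ j < b) : t.card ≤ 3 := by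
  rcases t.eq_empty_or_nonempty with rfl | hne
  · simp
  have hK1 : (1 : ℝ) < K := by exact_mod_cast (by omega : 1 < K)
  have hsub : t ⊆ Finset.Ico (t.min' hne) (t.min' hne + 3) := by
    intro j hj
    rw [Finset.mem_Ico]
    refine ⟨Finset.min'_le _ _ hj, ?_⟩
    have h1 := (ht j hj).2
    have h2 := (ht (t.min' hne) (Finset.min'_mem _ _)).1
    have h3 : (K : ℝ) ^ j < (K : ℝ) ^ (t.min' hne + 3) := by
      calc (K : ℝ) ^ j < b := h1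
        _ ≤ (K : ℝ) ^ 3 * a := hb
        _ < (K : ℝ) ^ 3 * (K : ℝ) ^ (t.min' hne) := mul_lt_mul_of_pos_left h2 (by positivity)
        _ = (K : ℝ) ^ (t.min' hne + 3) := by
          rw [pow_add]
          ring
    exact (pow_lt_pow_iff_right₀ hK1).1 h3
  calc t.card ≤ (Finset.Ico (t.min' hne) (t.min' hne + 3)).card := Finset.card_le_card hsub
    _ = 3 := by simp

/-- **L-AN-G7** (60 l.) type (a): all levels are good. -/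
theorem an_geo_a (K J : ℕ) (hK : 1 ≤ K) (Cw : ℝ) (hCw : 0 ≤ Cw) (P : Set (E n)) (hP : Strip2 (Cw / (K : ℝ) ^ J) P)
    (S : Finset (Fin n → ℤ)) (hS : ∀ k ∈ S, bcen ((K : ℝ) ^ J) k ∈ P) : Chain K J Cw 0 S := by
  have hK1 : (1 : ℝ) ≤ K := by exact_mod_cast hK
  refine ⟨∅, by simp, fun j hj _ τ => hP.mono ?_ ?_⟩
  · exact div_le_div_of_nonneg_left hCw (by positivity) (pow_le_pow_right₀ hK1 hj)
  · rintro v ⟨k, hk, -, rfl⟩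
    exact hS k hk

/-- the empty set lies in every strip (`n ≥ 2`) -/
theorem an_geo_aux_empty (hn : 2 ≤ n) (w : ℝ) : Strip2 w (∅ : Set (E n)) := by
  refine ⟨EuclideanSpace.single ⟨0, by omega⟩ 1, EuclideanSpace.single ⟨1, by omega⟩ 1, 0, 0, ?_, ?_, ?_, fun v hv => absurd hv (notMem_empty v)⟩
  · simp
  · simp
  · simp [EuclideanSpace.inner_single_left]

/-- a functional at a nearby point -/
theorem an_geo_aux_pt {e v x : E n} (he : ‖e‖ = 1) (c : ℝ) : |⟪e, v⟫_ℝ - c| ≤ ‖v - x‖ + |⟪e, x⟫_ℝ - c| := by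
  have e1 : ⟪e, v⟫_ℝ - c = ⟪e, v - x⟫_ℝ + (⟪e, x⟫_ℝ - c) := by
    rw [inner_sub_right]
    ring
  rw [e1]
  refine (abs_add_le _ _).trans (add_le_add ?_ le_rfl)
  calc |⟪e, v - x⟫_ℝ| ≤ ‖e‖ * ‖v - x‖ := abs_real_inner_le_norm _ _
    _ = ‖v - x‖ := by rw [he, one_mul]

/-- REGIME 1 for a whole class of bins -/
theorem an_geo_aux_reg1 (hn : 2 ≤ n) (Q : QHyp n) {Cq cq : ℝ} (hQ : Q.Ok Cq cq) (hCq : 1 ≤ Cq) (hcq : 0 < cq) (R w₀ m₁ r₀ : ℝ) (hm : 0 ≤ m₁) (hr : 0 ≤ r₀)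
    (hsmall : m₁ * (1 + 2 * Cq) + r₀ ≤ cq / 2) (S : Finset (Fin n → ℤ)) (x : (Fin n → ℤ) → E n)
    (hS : ∀ k ∈ S, ⟪Q.e, x k⟫_ℝ = Q.h ∧ ‖x k‖ ≤ Cq ∧ |Q.val (x k)| ≤ r₀ ∧ ‖bcen R k - x k‖ ≤ w₀ ∧ ‖Q.grad (x k)‖ ≤ m₁) :
    Strip2 (w₀ + m₁ * (2 * (1 + 4 * Cq + 4 * Cq ^ 2) / cq)) {v | ∃ k ∈ S, v = bcen R k} := by
  rcases S.eq_empty_or_nonempty with rfl | ⟨k₀, hk₀⟩
  · refine (an_geo_aux_empty hn _).mono le_rfl ?_
    rintro v ⟨k, hk, -⟩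
    simp at hk
  obtain ⟨e₂, c₂, h1, h2, h3⟩ := an_geo_reg1 Q hQ hCq hcq m₁ r₀ hm hr hsmall {y | ∃ k ∈ S, y = x k} ⟨x k₀, k₀, hk₀, rfl⟩ (by
    rintro y ⟨k, hk, rfl⟩
    obtain ⟨-, a2, a3, -, a5⟩ := hS k hk
    exact ⟨a2, a3, a5⟩)
  have hpos : 0 ≤ m₁ * (2 * (1 + 4 * Cq + 4 * Cq ^ 2) / cq) := by positivity
  refine ⟨Q.e, e₂, Q.h, c₂, hQ.unit, h1, h2, ?_⟩
  rintro v ⟨k, hk, rfl⟩
  obtain ⟨a1, -, -, a4, -⟩ := hS k hk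
  constructor
  · have := an_geo_aux_pt (v := bcen R k) (x := x k) hQ.unit Q.h
    rw [a1, sub_self, abs_zero, add_zero] at this
    linarith
  · have := an_geo_aux_pt (v := bcen R k) (x := x k) h1 c₂
    have h4 := h3 (x k) ⟨k, hk, rfl⟩
    linarith

/-- the numbers of REGIME 2 -/
theorem an_geo_aux_num {Cw Cq Ca m₁ R s K g : ℝ} (hCw : 0 ≤ Cw) (hCq : 0 ≤ Cq) (hR1 : 1 ≤ R) (hs : 0 < s) (hK : 0 < K) (hKs : K * s ≤ R)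
    (hm : R⁻¹ ≤ m₁) (hg : m₁ / 2 < g) (hbig : 2 * Cq * Ca ^ 2 * K / m₁ ≤ s) {a b d : ℝ} (ha : a ≤ R⁻¹ ^ 4) (hb : b ≤ R⁻¹ ^ 4)
    (hd0 : 0 ≤ d) (hd : d ≤ Ca / s) : Cw / R + (a + b + Cq * d ^ 2) / g ≤ (Cw + 5) / (K * s) := by
  have hR0 : 0 < R := lt_of_lt_of_le one_pos hR1
  have hρ0 : 0 < R⁻¹ := inv_pos.2 hR0
  have hρ1 : R⁻¹ ≤ 1 := inv_le_one_of_one_le₀ hR1
  have hm0 : 0 < m₁ := lt_of_lt_of_le hρ0 hm
  have hKs0 : 0 < K * s := mul_pos hK hs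
  have hρK : R⁻¹ ≤ (K * s)⁻¹ := inv_anti₀ hKs0 hKs
  have hminv : m₁⁻¹ ≤ R := by
    rw [inv_le_comm₀ hm0 hR0]
    exact hm
  -- numerator
  have hd2 : d ^ 2 ≤ (Ca / s) ^ 2 := pow_le_pow_left₀ hd0 hd 2
  have hN : a + b + Cq * d ^ 2 ≤ 2 * R⁻¹ ^ 4 + Cq * (Ca / s) ^ 2 := by
    have := mul_le_mul_of_nonneg_left hd2 hCq
    linarith
  have hN0 : 0 ≤ 2 * R⁻¹ ^ 4 + Cq * (Ca / s) ^ 2 := by positivity
  have h1 : (a + b + Cq * d ^ 2) / g ≤ (2 * R⁻¹ ^ 4 + Cq * (Ca / s) ^ 2) / (m₁ / 2) :=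
    div_le_div₀ hN0 hN (by positivity) hg.le
  have e1 : (2 * R⁻¹ ^ 4 + Cq * (Ca / s) ^ 2) / (m₁ / 2) = 4 * (R⁻¹ ^ 4 * m₁⁻¹) + 2 * Cq * Ca ^ 2 / (m₁ * s ^ 2) := by
    field_simp
    ring
  -- (i)
  have h2 : R⁻¹ ^ 4 * m₁⁻¹ ≤ (K * s)⁻¹ := by
    calc R⁻¹ ^ 4 * m₁⁻¹ ≤ R⁻¹ ^ 4 * R := mul_le_mul_of_nonneg_left hminv (by positivity)
      _ = R⁻¹ ^ 3 := by
        field_simp
      _ ≤ R⁻¹ ^ 1 := pow_le_pow_of_le_one hρ0.le hρ1 (by norm_num)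
      _ = R⁻¹ := pow_one _
      _ ≤ (K * s)⁻¹ := hρK
  -- (ii)
  have h3 : 2 * Cq * Ca ^ 2 / (m₁ * s ^ 2) ≤ (K * s)⁻¹ := by
    rw [div_le_iff₀ hm0] at hbig
    rw [inv_eq_one_div, div_le_div_iff₀ (by positivity) hKs0]
    nlinarith
  have h4 : Cw / R ≤ Cw * (K * s)⁻¹ := by
    rw [div_eq_mul_inv]
    exact mul_le_mul_of_nonneg_left hρK hCw
  calc Cw / R + (a + b + Cq * d ^ 2) / g ≤ Cw * (K * s)⁻¹ + (4 * (K * s)⁻¹ + (K * s)⁻¹) := by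
        rw [e1] at h1
        linarith
    _ = (Cw + 5) / (K * s) := by
        rw [div_eq_mul_inv]
        ring

/-- REGIME 2 at one level -/
theorem an_geo_aux_reg2 (hn : 2 ≤ n) {Cw Cq cq : ℝ} (hCw : 0 ≤ Cw) (hCq : 1 ≤ Cq) (K J : ℕ) (hK : 1 ≤ K) (Q : QHyp n) (hQ : Q.Ok Cq cq)
    (S : Finset (Fin n → ℤ)) (x : (Fin n → ℤ) → E n) (m₁ : ℝ) (hm : ((K : ℝ) ^ J)⁻¹ ≤ m₁)
    (hS : ∀ k ∈ S, ⟪Q.e, x k⟫_ℝ = Q.h ∧ ‖x k‖ ≤ Cq ∧ |Q.val (x k)| ≤ ((K : ℝ) ^ J)⁻¹ ^ 4 ∧ ‖bcen ((K : ℝ) ^ J) k - x k‖ ≤ Cw / (K : ℝ) ^ J ∧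
        m₁ / 2 < ‖Q.grad (x k)‖ ∧ ‖Q.grad (x k)‖ ≤ m₁)
    (j : ℕ) (hj : j < J) (hbig : 2 * Cq * (Real.sqrt n + 2 * Cw) ^ 2 * (K : ℝ) / m₁ ≤ (K : ℝ) ^ j) (τ : Fin n → ℤ) :
    Strip2 ((Cw + 5) / (K : ℝ) ^ (j + 1)) {v | ∃ k ∈ S, banc K (J - j) k = τ ∧ v = bcen ((K : ℝ) ^ J) k} := by
  have hK1 : (1 : ℝ) ≤ K := by exact_mod_cast hK
  have hK0 : (0 : ℝ) < K := lt_of_lt_of_le one_pos hK1
  obtain ⟨R, hRd⟩ : ∃ R : ℝ, R = (K : ℝ) ^ J := ⟨_, rfl⟩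
  obtain ⟨s, hsd⟩ : ∃ s : ℝ, s = (K : ℝ) ^ j := ⟨_, rfl⟩
  have hR1 : 1 ≤ R := by
    rw [hRd]
    exact one_le_pow₀ hK1
  have hR0 : 0 < R := lt_of_lt_of_le one_pos hR1
  have hs0 : 0 < s := by
    rw [hsd]
    positivity
  have hKs : (K : ℝ) * s ≤ R := by
    rw [hsd, hRd, ← pow_succ']
    exact pow_le_pow_right₀ hK1 hj
  have hsR : s ≤ R := by
    rw [hsd, hRd]
    exact pow_le_pow_right₀ hK1 hj.le
  have hpow : (K : ℝ) ^ (j + 1) = (K : ℝ) * s := by rw [hsd, pow_succ']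
  have hquot : (K : ℝ) ^ (J - j) / R = 1 / s := by
    rw [hRd, hsd, div_eq_div_iff (by positivity) (by positivity), one_mul, ← pow_add]
    congr 1
    omega
  rw [hpow]
  rw [← hRd] at hm hS ⊢
  rw [← hsd] at hbig
  by_cases hemp : ∃ k₀ ∈ S, banc K (J - j) k₀ = τ
  swap
  · refine (an_geo_aux_empty hn _).mono le_rfl ?_
    rintro v ⟨k, hk, hb, -⟩
    exact absurd ⟨k, hk, hb⟩ hemp
  obtain ⟨k₀, hk₀, hb₀⟩ := hemp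
  obtain ⟨z1, z2, z3, z4, z5, z6⟩ := hS k₀ hk₀
  have hm0 : 0 < m₁ := lt_of_lt_of_le (inv_pos.2 hR0) hm
  have hg0 : 0 < ‖Q.grad (x k₀)‖ := lt_trans (by positivity) z5
  obtain ⟨e₂, h1, h2, h3⟩ := an_geo_reg2 Q hQ hCq (x k₀) z2 hg0
  have hKs0 : 0 < (K : ℝ) * s := mul_pos hK0 hs0
  refine ⟨Q.e, e₂, Q.h, ⟪e₂, x k₀⟫_ℝ, hQ.unit, h1, h2, ?_⟩
  rintro v ⟨k, hk, hb, rfl⟩
  obtain ⟨a1, a2, a3, a4, a5, a6⟩ := hS k hk
  constructor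
  · have h4 := an_geo_aux_pt (v := bcen R k) (x := x k) hQ.unit Q.h
    rw [a1, sub_self, abs_zero, add_zero] at h4
    refine h4.trans (a4.trans ?_)
    calc Cw / R ≤ Cw / ((K : ℝ) * s) := div_le_div_of_nonneg_left hCw hKs0 hKs
      _ ≤ (Cw + 5) / ((K : ℝ) * s) := div_le_div_of_nonneg_right (by linarith) hKs0.le
  · have h4 := an_geo_aux_pt (v := bcen R k) (x := x k) h1 ⟪e₂, x k₀⟫_ℝ
    have h5 := h3 (x k)
    have hanc : ‖bcen R k - bcen R k₀‖ ≤ Real.sqrt n * (1 / s) := by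
      have := an_geo_anc K J (J - j) hK k k₀ (hb.trans hb₀.symm)
      rw [← hRd, mul_div_assoc, hquot] at this
      exact this
    have hdist : ‖x k - x k₀‖ ≤ (Real.sqrt n + 2 * Cw) / s := by
      have e : x k - x k₀ = -(bcen R k - x k) + (bcen R k - bcen R k₀) + (bcen R k₀ - x k₀) := by abel
      have h6 : ‖x k - x k₀‖ ≤ ‖bcen R k - x k‖ + ‖bcen R k - bcen R k₀‖ + ‖bcen R k₀ - x k₀‖ := by
        rw [e]
        refine (norm_add_le _ _).trans (add_le_add ((norm_add_le _ _).trans (add_le_add ?_ le_rfl)) le_rfl)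
        rw [norm_neg]
      have h7 : Cw / R ≤ Cw / s := div_le_div_of_nonneg_left hCw hs0 hsR
      calc ‖x k - x k₀‖ ≤ Cw / s + Real.sqrt n * (1 / s) + Cw / s := by linarith
        _ = _ := by ring
    have h8 := an_geo_aux_num (Cw := Cw) (Cq := Cq) (Ca := Real.sqrt n + 2 * Cw) (m₁ := m₁) (R := R) (s := s) (K := K) (g := ‖Q.grad (x k₀)‖)
      hCw (by linarith) hR1 hs0 hK0 hKs hm z5 hbig a3 z3 (norm_nonneg _) hdist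
    linarith
/-- **L-AN-G8** (250 l.) ONE gradient class with a lower bound (see the header: regimes 1, 2, bad levels by `an_geo_count`).  `x k` = the approximating points. -/
theorem an_geo_class (hn : 2 ≤ n) (Cw Cq cq : ℝ) (hCw : 0 ≤ Cw) (hCq : 1 ≤ Cq) (hcq : 0 < cq) :
    ∃ C₁ K₀ : ℝ, ∀ (K J : ℕ), K₀ ≤ (K : ℝ) → 1 ≤ J → ∀ (Q : QHyp n), Q.Ok Cq cq → ∀ (S : Finset (Fin n → ℤ)) (x : (Fin n → ℤ) → E n) (m₁ : ℝ),
      ((K : ℝ) ^ J)⁻¹ ≤ m₁ →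
      (∀ k ∈ S, ⟪Q.e, x k⟫_ℝ = Q.h ∧ ‖x k‖ ≤ Cq ∧ |Q.val (x k)| ≤ ((K : ℝ) ^ J)⁻¹ ^ 4 ∧ ‖bcen ((K : ℝ) ^ J) k - x k‖ ≤ Cw / (K : ℝ) ^ J ∧
        m₁ / 2 < ‖Q.grad (x k)‖ ∧ ‖Q.grad (x k)‖ ≤ m₁) →
      Chain K J C₁ 4 S := by
  classical
  obtain ⟨Cb, hCb⟩ : ∃ Cb : ℝ, Cb = 2 * Cq * (Real.sqrt n + 2 * Cw) ^ 2 := ⟨_, rfl⟩
  obtain ⟨Cr, hCr⟩ : ∃ Cr : ℝ, Cr = 2 * (1 + 4 * Cq + 4 * Cq ^ 2) / cq := ⟨_, rfl⟩
  obtain ⟨Cm, hCm⟩ : ∃ Cm : ℝ, Cm = 4 * (1 + 2 * Cq) / cq := ⟨_, rfl⟩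
  have hCb0 : 0 ≤ Cb := by
    rw [hCb]
    positivity
  have hCr0 : 0 ≤ Cr := by
    rw [hCr]
    positivity
  have hCm0 : 0 < Cm := by
    rw [hCm]
    positivity
  refine ⟨Cw + Cr + 5, max (max 2 (4 / cq)) (max Cb (Cb * Cm)), fun K J hK hJ Q hQ S x m₁ hm hS => ?_⟩
  have hK2 : (2 : ℝ) ≤ K := ((le_max_left _ _).trans (le_max_left _ _)).trans hK
  have hK2' : 2 ≤ K := by exact_mod_cast hK2
  have hKq : 4 / cq ≤ K := ((le_max_right _ _).trans (le_max_left _ _)).trans hK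
  have hKb : Cb ≤ K := ((le_max_left _ _).trans (le_max_right _ _)).trans hK
  have hKm : Cb * Cm ≤ K := ((le_max_right _ _).trans (le_max_right _ _)).trans hK
  have hK1 : (1 : ℝ) ≤ K := by linarith
  have hK0 : (0 : ℝ) < K := by linarith
  have hKR : (K : ℝ) ≤ (K : ℝ) ^ J := le_self_pow₀ hK1 (by omega)
  have hR0 : (0 : ℝ) < (K : ℝ) ^ J := by positivity
  have hm0 : 0 < m₁ := lt_of_lt_of_le (inv_pos.2 hR0) hm
  -- regime 2 in the final form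
  have reg2 : ∀ j < J, Cb * (K : ℝ) / m₁ ≤ (K : ℝ) ^ j → ∀ τ : Fin n → ℤ,
      Strip2 ((Cw + Cr + 5) / (K : ℝ) ^ (j + 1)) {v | ∃ k ∈ S, banc K (J - j) k = τ ∧ v = bcen ((K : ℝ) ^ J) k} := by
    intro j hj hbig τ
    rw [hCb] at hbig
    refine (an_geo_aux_reg2 hn hCw hCq K J (by omega) Q hQ S x m₁ hm hS j hj hbig τ).mono ?_ subset_rfl
    exact div_le_div_of_nonneg_right (by linarith) (by positivity)
  by_cases hsm : m₁ * (1 + 2 * Cq) + ((K : ℝ) ^ J)⁻¹ ^ 4 ≤ cq / 2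
  · -- the gradient is small: regimes 1 and 2
    have reg1 : Strip2 (Cw / (K : ℝ) ^ J + m₁ * Cr) {v | ∃ k ∈ S, v = bcen ((K : ℝ) ^ J) k} := by
      rw [hCr]
      exact an_geo_aux_reg1 hn Q hQ hCq hcq _ _ m₁ _ hm0.le (by positivity) hsm S x
        (fun k hk => ⟨(hS k hk).1, (hS k hk).2.1, (hS k hk).2.2.1, (hS k hk).2.2.2.1, (hS k hk).2.2.2.2.2⟩)
    refine ⟨(Finset.range J).filter (fun j => 1 / (m₁ * K) < (K : ℝ) ^ j ∧ (K : ℝ) ^ j < Cb * (K : ℝ) / m₁), ?_, fun j hj hbad τ => ?_⟩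
    · refine (an_geo_count K hK2' (1 / (m₁ * K)) (Cb * (K : ℝ) / m₁) (by positivity) ?_ _ (fun j hj => (Finset.mem_filter.1 hj).2)).trans (by norm_num)
      have e : (K : ℝ) ^ 3 * (1 / (m₁ * K)) = (K : ℝ) * K / m₁ := by
        field_simp
      rw [e]
      exact div_le_div_of_nonneg_right (mul_le_mul_of_nonneg_right hKb hK0.le) hm0.le
    · have h1 : ¬ (1 / (m₁ * K) < (K : ℝ) ^ j ∧ (K : ℝ) ^ j < Cb * (K : ℝ) / m₁) := fun h =>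
        hbad (Finset.mem_filter.2 ⟨Finset.mem_range.2 hj, h⟩)
      rw [not_and_or, not_lt, not_lt] at h1
      rcases h1 with h1 | h1
      · refine reg1.mono ?_ ?_
        · have hp : (0 : ℝ) < (K : ℝ) ^ (j + 1) := by positivity
          have h2 : m₁ ≤ 1 / (K : ℝ) ^ (j + 1) := by
            rw [le_div_iff₀ (by positivity)] at h1
            rw [le_div_iff₀ hp, pow_succ]
            nlinarith
          have h3 : Cw / (K : ℝ) ^ J ≤ Cw / (K : ℝ) ^ (j + 1) :=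
            div_le_div_of_nonneg_left hCw hp (pow_le_pow_right₀ hK1 hj)
          have h4 : m₁ * Cr ≤ 1 / (K : ℝ) ^ (j + 1) * Cr := mul_le_mul_of_nonneg_right h2 hCr0
          have h5 : (0 : ℝ) ≤ 5 / (K : ℝ) ^ (j + 1) := by positivity
          calc Cw / (K : ℝ) ^ J + m₁ * Cr ≤ Cw / (K : ℝ) ^ (j + 1) + 1 / (K : ℝ) ^ (j + 1) * Cr + 5 / (K : ℝ) ^ (j + 1) := by linarith
            _ = _ := by ring
        · rintro v ⟨k, hk, -, rfl⟩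
          exact ⟨k, hk, rfl⟩
      · exact reg2 j hj h1 τ
  · -- the gradient is not small: regime 2 from the level 2 on
    refine ⟨Finset.range 2, by simp, fun j hj hbad τ => reg2 j hj ?_ τ⟩
    have hj2 : 2 ≤ j := by
      by_contra hcon
      exact hbad (Finset.mem_range.2 (by omega))
    push Not at hsm
    have hρ : ((K : ℝ) ^ J)⁻¹ ^ 4 ≤ cq / 4 := by
      have h1 : ((K : ℝ) ^ J)⁻¹ ≤ 1 := inv_le_one_of_one_le₀ (hK1.trans hKR)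
      have h2 : ((K : ℝ) ^ J)⁻¹ ≤ (K : ℝ)⁻¹ := inv_anti₀ hK0 hKR
      have h3 : (K : ℝ)⁻¹ ≤ cq / 4 := by
        rw [inv_le_comm₀ hK0 (by positivity), inv_div]
        exact hKq
      calc ((K : ℝ) ^ J)⁻¹ ^ 4 ≤ ((K : ℝ) ^ J)⁻¹ ^ 1 := pow_le_pow_of_le_one (by positivity) h1 (by norm_num)
        _ = ((K : ℝ) ^ J)⁻¹ := pow_one _
        _ ≤ cq / 4 := h2.trans h3
    have hminv : 1 / m₁ ≤ Cm := by
      rw [hCm, div_le_div_iff₀ hm0 hcq]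
      nlinarith
    calc Cb * (K : ℝ) / m₁ = Cb * (1 / m₁) * K := by ring
      _ ≤ Cb * Cm * K := mul_le_mul_of_nonneg_right (mul_le_mul_of_nonneg_left hminv hCb0) hK0.le
      _ ≤ (K : ℝ) * K := mul_le_mul_of_nonneg_right hKm hK0.le
      _ = (K : ℝ) ^ 2 := by ring
      _ ≤ (K : ℝ) ^ j := pow_le_pow_right₀ hK1 hj2

/-- **L-AN-G9** (120 l.) the LAST class (gradient `≤ 1/R`): regime 1 at all levels. -/
theorem an_geo_last (hn : 2 ≤ n) (Cw Cq cq : ℝ) (hCw : 0 ≤ Cw) (hCq : 1 ≤ Cq) (hcq : 0 < cq) :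
    ∃ C₁ K₀ : ℝ, ∀ (K J : ℕ), K₀ ≤ (K : ℝ) → 1 ≤ J → ∀ (Q : QHyp n), Q.Ok Cq cq → ∀ (S : Finset (Fin n → ℤ)) (x : (Fin n → ℤ) → E n),
      (∀ k ∈ S, ⟪Q.e, x k⟫_ℝ = Q.h ∧ ‖x k‖ ≤ Cq ∧ |Q.val (x k)| ≤ ((K : ℝ) ^ J)⁻¹ ^ 4 ∧ ‖bcen ((K : ℝ) ^ J) k - x k‖ ≤ Cw / (K : ℝ) ^ J ∧
        ‖Q.grad (x k)‖ ≤ ((K : ℝ) ^ J)⁻¹) →
      Chain K J C₁ 4 S := by
  have hCr0 : 0 ≤ 2 * (1 + 4 * Cq + 4 * Cq ^ 2) / cq := by positivity
  refine ⟨Cw + 2 * (1 + 4 * Cq + 4 * Cq ^ 2) / cq, max 1 (4 * (1 + Cq) / cq), fun K J hK hJ Q hQ S x hS => ?_⟩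
  have hK1 : (1 : ℝ) ≤ K := (le_max_left _ _).trans hK
  have hK0 : (0 : ℝ) < K := by linarith
  have hKq : 4 * (1 + Cq) / cq ≤ K := (le_max_right _ _).trans hK
  have hKR : (K : ℝ) ≤ (K : ℝ) ^ J := le_self_pow₀ hK1 (by omega)
  have hR0 : (0 : ℝ) < (K : ℝ) ^ J := by positivity
  have hρ0 : 0 < ((K : ℝ) ^ J)⁻¹ := inv_pos.2 hR0
  have hsm : ((K : ℝ) ^ J)⁻¹ * (1 + 2 * Cq) + ((K : ℝ) ^ J)⁻¹ ^ 4 ≤ cq / 2 := by
    have h1 : ((K : ℝ) ^ J)⁻¹ ≤ 1 := inv_le_one_of_one_le₀ (hK1.trans hKR)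
    have h2 : ((K : ℝ) ^ J)⁻¹ ≤ (K : ℝ)⁻¹ := inv_anti₀ hK0 hKR
    have h3 : (K : ℝ)⁻¹ ≤ cq / (4 * (1 + Cq)) := by
      rw [inv_le_comm₀ hK0 (by positivity), inv_div]
      exact hKq
    have h4 : ((K : ℝ) ^ J)⁻¹ ^ 4 ≤ ((K : ℝ) ^ J)⁻¹ := by
      calc ((K : ℝ) ^ J)⁻¹ ^ 4 ≤ ((K : ℝ) ^ J)⁻¹ ^ 1 := pow_le_pow_of_le_one hρ0.le h1 (by norm_num)
        _ = _ := pow_one _
    have h5 : ((K : ℝ) ^ J)⁻¹ * (2 * (1 + Cq)) ≤ cq / (4 * (1 + Cq)) * (2 * (1 + Cq)) :=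
      mul_le_mul_of_nonneg_right (h2.trans h3) (by positivity)
    have e : cq / (4 * (1 + Cq)) * (2 * (1 + Cq)) = cq / 2 := by
      field_simp
      ring
    rw [e] at h5
    linarith
  have reg1 := an_geo_aux_reg1 hn Q hQ hCq hcq _ _ _ _ hρ0.le (by positivity) hsm S x hS
  refine ⟨∅, by simp, fun j hj _ τ => reg1.mono ?_ ?_⟩
  · have hp : (0 : ℝ) < (K : ℝ) ^ (j + 1) := by positivity
    have h2 : ((K : ℝ) ^ J)⁻¹ ≤ ((K : ℝ) ^ (j + 1))⁻¹ := inv_anti₀ hp (pow_le_pow_right₀ hK1 hj)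
    calc Cw / (K : ℝ) ^ J + ((K : ℝ) ^ J)⁻¹ * (2 * (1 + 4 * Cq + 4 * Cq ^ 2) / cq)
        = ((K : ℝ) ^ J)⁻¹ * (Cw + 2 * (1 + 4 * Cq + 4 * Cq ^ 2) / cq) := by
          rw [div_eq_mul_inv]
          ring
      _ ≤ ((K : ℝ) ^ (j + 1))⁻¹ * (Cw + 2 * (1 + 4 * Cq + 4 * Cq ^ 2) / cq) := mul_le_mul_of_nonneg_right h2 (by positivity)
      _ = _ := by
          rw [div_eq_mul_inv]
          ring
  · rintro v ⟨k, hk, -, rfl⟩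
    exact ⟨k, hk, rfl⟩

/-- **L-AN-G10** (60 l.) `Chain` is monotone in the constants. -/
theorem Chain.mono {K J : ℕ} {C₁ C₁' : ℝ} {Nb Nb' : ℕ} {S : Finset (Fin n → ℤ)} (h : Chain K J C₁ Nb S) (hC : C₁ ≤ C₁') (hN : Nb ≤ Nb') :
    Chain K J C₁' Nb' S := by
  obtain ⟨bad, h1, h2⟩ := h
  refine ⟨bad, h1.trans hN, fun j hj hb τ => (h2 j hj hb τ).mono ?_ subset_rfl⟩
  exact div_le_div_of_nonneg_right hC (by positivity)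

/-- the number of dyadic gradient classes -/
theorem an_geo_aux_I (G₀ R : ℝ) (hG : 5 ≤ G₀) (hR : 1 ≤ R) : ∃ I : ℕ, 1 ≤ I ∧ G₀ * R ≤ (2 : ℝ) ^ I ∧ (2 : ℝ) ^ (I - 1) < G₀ * R ∧
    ((I + 1 : ℕ) : ℝ) ≤ (2 + (Real.log G₀ + 1) / Real.log 2) * (1 + Real.log R) := by
  have hGR : 5 ≤ G₀ * R := by nlinarith
  have hx : 1 < ⌈G₀ * R⌉₊ := by
    rw [Nat.lt_ceil]
    push_cast
    linarith
  have h1 : ⌈G₀ * R⌉₊ ≤ 2 ^ Nat.clog 2 ⌈G₀ * R⌉₊ := Nat.le_pow_clog (by norm_num) _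
  have h2 : 2 ^ (Nat.clog 2 ⌈G₀ * R⌉₊).pred < ⌈G₀ * R⌉₊ := Nat.pow_pred_clog_lt_self (by norm_num) hx
  have h3 : 0 < Nat.clog 2 ⌈G₀ * R⌉₊ := Nat.clog_pos (by norm_num) hx
  obtain ⟨I, hI⟩ : ∃ I : ℕ, I = Nat.clog 2 ⌈G₀ * R⌉₊ := ⟨_, rfl⟩
  rw [← hI] at h1 h2 h3
  rw [Nat.pred_eq_sub_one, Nat.lt_ceil] at h2
  push_cast at h2
  refine ⟨I, h3, ?_, h2, ?_⟩
  · calc G₀ * R ≤ (⌈G₀ * R⌉₊ : ℝ) := Nat.le_ceil _
      _ ≤ ((2 ^ I : ℕ) : ℝ) := by exact_mod_cast h1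
      _ = (2 : ℝ) ^ I := by push_cast; rfl
  · have hl2 : 0 < Real.log 2 := Real.log_pos (by norm_num)
    have hlG : 0 ≤ Real.log G₀ := Real.log_nonneg (by linarith)
    have hlR : 0 ≤ Real.log R := Real.log_nonneg hR
    have h4 : Real.log ((2 : ℝ) ^ (I - 1)) < Real.log (G₀ * R) := Real.log_lt_log (by positivity) h2
    rw [Real.log_pow, Real.log_mul (by linarith) (by linarith)] at h4
    have h5 : ((I - 1 : ℕ) : ℝ) = (I : ℝ) - 1 := by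
      rw [Nat.cast_sub h3]
      norm_num
    rw [h5] at h4
    have h6 : (I : ℝ) - 1 < (Real.log G₀ + Real.log R) / Real.log 2 := by
      rw [lt_div_iff₀ hl2]
      exact h4
    have h7 : (Real.log G₀ + Real.log R) / Real.log 2 ≤ (Real.log G₀ + 1) / Real.log 2 * (1 + Real.log R) := by
      rw [div_mul_eq_mul_div]
      refine div_le_div_of_nonneg_right ?_ hl2.le
      nlinarith [mul_nonneg hlG hlR]
    push_cast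
    nlinarith
/-- **L-AN-G11** (250 l.) **EXIT OF AN1.**  Type (a): `an_geo_a`, one class.  Type (b): choose `x k`; `cl k = min I ⌊log₂ (G₀/‖grad Q (x k)‖)⌋` (`I` for gradient `0`); `an_geo_class` with `m₁ = G₀ 2^{-i}`, `an_geo_last`; `N = I + 1 ≤ Ccl (1 + log R)`. -/
theorem an_geo (hn : 2 ≤ n) (Cw Cq cq : ℝ) (hCw : 0 ≤ Cw) (hCq : 1 ≤ Cq) (hcq : 0 < cq) :
    ∃ C₁ K₀ Ccl : ℝ, ∀ (K J : ℕ), K₀ ≤ (K : ℝ) → 1 ≤ J → ∀ P : Set (E n), Narrow Cw Cq cq ((K : ℝ) ^ J) P →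
      ∀ S : Finset (Fin n → ℤ), (∀ k ∈ S, bcen ((K : ℝ) ^ J) k ∈ P) →
      ∃ (N : ℕ) (cl : (Fin n → ℤ) → ℕ), (N : ℝ) ≤ Ccl * (1 + Real.log ((K : ℝ) ^ J)) ∧ (∀ k ∈ S, cl k < N) ∧
        ∀ i < N, Chain K J C₁ 4 (S.filter (fun k => cl k = i)) := by
  classical
  obtain ⟨Ca, Ka, Ha⟩ := an_geo_class hn Cw Cq cq hCw hCq hcq
  obtain ⟨Cl, Kl, Hl⟩ := an_geo_last hn Cw Cq cq hCw hCq hcq
  obtain ⟨G₀, hG₀⟩ : ∃ G₀ : ℝ, G₀ = 5 * Cq ^ 2 := ⟨_, rfl⟩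
  have hG5 : 5 ≤ G₀ := by
    rw [hG₀]
    nlinarith
  have hG0 : 0 < G₀ := by linarith
  have hl2 : 0 < Real.log 2 := Real.log_pos (by norm_num)
  have hlG : 0 ≤ Real.log G₀ := Real.log_nonneg (by linarith)
  refine ⟨max Cw (max Ca Cl), max 1 (max Ka Kl), 2 + (Real.log G₀ + 1) / Real.log 2, fun K J hK hJ P hP S hS => ?_⟩
  have hK1 : (1 : ℝ) ≤ K := (le_max_left _ _).trans hK
  have hK1' : 1 ≤ K := by exact_mod_cast hK1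
  have hKa : Ka ≤ K := ((le_max_left _ _).trans (le_max_right _ _)).trans hK
  have hKl : Kl ≤ K := ((le_max_right _ _).trans (le_max_right _ _)).trans hK
  have hR1 : (1 : ℝ) ≤ (K : ℝ) ^ J := one_le_pow₀ hK1
  have hR0 : (0 : ℝ) < (K : ℝ) ^ J := by positivity
  have hlR : 0 ≤ Real.log ((K : ℝ) ^ J) := Real.log_nonneg hR1
  rcases hP with hP | ⟨Q, hQ, hsub⟩
  · -- type (a)
    refine ⟨1, fun _ => 0, ?_, fun _ _ => Nat.one_pos, fun i hi => ?_⟩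
    · have h1 : 0 ≤ (Real.log G₀ + 1) / Real.log 2 := by positivity
      push_cast
      nlinarith [mul_nonneg h1 hlR]
    · have hi0 : i = 0 := by omega
      subst hi0
      rw [Finset.filter_true_of_mem (fun _ _ => rfl)]
      exact (an_geo_a K J hK1' Cw hCw P hP S hS).mono (le_max_left _ _) (by norm_num)
  · -- type (b)
    have hex : ∀ k, ∃ x : E n, k ∈ S → (⟪Q.e, x⟫_ℝ = Q.h ∧ ‖x‖ ≤ Cq ∧ |Q.val x| ≤ ((K : ℝ) ^ J)⁻¹ ^ 4 ∧ ‖bcen ((K : ℝ) ^ J) k - x‖ ≤ Cw / (K : ℝ) ^ J) := by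
      intro k
      by_cases hk : k ∈ S
      · obtain ⟨x, hx⟩ := hsub (hS k hk)
        exact ⟨x, fun _ => hx⟩
      · exact ⟨0, fun h => absurd h hk⟩
    choose x hx using hex
    obtain ⟨I, hI1, hI2, hI3, hI4⟩ := an_geo_aux_I G₀ ((K : ℝ) ^ J) hG5 hR1
    obtain ⟨cl, hcl⟩ : ∃ cl : (Fin n → ℤ) → ℕ, ∀ k, cl k = if h : ∃ i, i < I ∧ G₀ / 2 ^ (i + 1) < ‖Q.grad (x k)‖ then Nat.find h else I :=
      ⟨_, fun _ => rfl⟩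
    -- the three facts on `cl`
    have hle : ∀ k, cl k ≤ I := by
      intro k
      rw [hcl k]
      split_ifs with h
      · exact (Nat.find_spec h).1.le
      · exact le_rfl
    have hlow : ∀ k, cl k < I → G₀ / 2 ^ (cl k + 1) < ‖Q.grad (x k)‖ := by
      intro k hk
      have e := hcl k
      split_ifs at e with h
      · rw [e]
        exact (Nat.find_spec h).2
      · omega
    have hup : ∀ k ∈ S, ‖Q.grad (x k)‖ ≤ G₀ / 2 ^ (cl k) := by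
      intro k hk
      rcases Nat.eq_zero_or_pos (cl k) with h0 | h0
      · rw [h0, pow_zero, div_one, hG₀]
        exact (an_geo_grad Q hQ hCq (x k) (hx k hk).2.1).2
      · obtain ⟨i, hi⟩ : ∃ i, cl k = i + 1 := ⟨cl k - 1, by omega⟩
        rw [hi]
        have hiI : i < I := by
          have := hle k
          omega
        by_contra hcon
        push Not at hcon
        have hex' : ∃ i, i < I ∧ G₀ / 2 ^ (i + 1) < ‖Q.grad (x k)‖ := ⟨i, hiI, hcon⟩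
        have e := hcl k
        rw [dif_pos hex'] at e
        have := Nat.find_min' hex' ⟨hiI, hcon⟩
        omega
    refine ⟨I + 1, cl, hI4, fun k _ => Nat.lt_succ_of_le (hle k), fun i hi => ?_⟩
    rcases Nat.lt_or_ge i I with hiI | hiI
    · -- a class with a lower bound
      refine (Ha K J hKa hJ Q hQ _ x (G₀ / 2 ^ i) ?_ ?_).mono ((le_max_left _ _).trans (le_max_right _ _)) le_rfl
      · have h1 : (2 : ℝ) ^ i ≤ (2 : ℝ) ^ (I - 1) := pow_le_pow_right₀ (by norm_num) (by omega)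
        rw [inv_eq_one_div, div_le_div_iff₀ hR0 (by positivity)]
        linarith
      · intro k hk
        obtain ⟨hkS, hki⟩ := Finset.mem_filter.1 hk
        obtain ⟨a1, a2, a3, a4⟩ := hx k hkS
        refine ⟨a1, a2, a3, a4, ?_, ?_⟩
        · have := hlow k (by omega)
          rw [hki, pow_succ] at this
          rw [div_div]
          exact this
        · have := hup k hkS
          rwa [hki] at this
    · -- the last class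
      have hiI' : i = I := by omega
      subst hiI'
      refine (Hl K J hKl hJ Q hQ _ x ?_).mono ((le_max_right _ _).trans (le_max_right _ _)) le_rfl
      intro k hk
      obtain ⟨hkS, hki⟩ := Finset.mem_filter.1 hk
      obtain ⟨a1, a2, a3, a4⟩ := hx k hkS
      refine ⟨a1, a2, a3, a4, ?_⟩
      have := hup k hkS
      rw [hki] at this
      refine this.trans ?_
      rw [inv_eq_one_div, div_le_div_iff₀ (by positivity) hR0]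
      linarith

/-- Stores the on-demand equation lemmas of the definitions of THIS module here (rule 6 hygiene). -/
theorem an_geo_forced : True := by
  have := @banc.eq_1
  have := @Chain.eq_1
  have := @QHyp.grad.eq_1
  trivial

end Claimed.Agent.R257
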