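import Claimed.Agent.R257.Ang.Dec
import Claimed.Agent.R257.Ang.Geo

/-!
# R257 / Ang / Iter : THE `J`-FOLD ANGULAR ITERATION AND THE ENGINE (H angular.tex l.79-160)      PAPER-FREE: Mathlib + Lib/BD + Ang/{Phi,Dec,Geo}.      (architect helper83)

`R = K^J`.  Fine fields `G k`, `k ∈ ℤⁿ` (bins of side `1/R`), Fourier support in `BD.cap (-bcen R k) (C/R) (C/R²)`  (`BinFam`; in the application `G k` = complex conjugate of the band limited bin field: conjugation maps `τ = -|ξ|²` to `τ = |ξ|²`, `ξ ↦ -ξ`).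
Level `j ≤ J`: bins `τ` of side `K^{-j}`, `binF … S j τ` = sum of the fine fields of `S` inside `τ`, planks `lvA K j = K^{-j} K^{-2}`, `lvB K j = K^{-2j} K^{-2}`, centre `-bcen (K^j) τ`, radius `2`:  `anPsi … S j τ`.
ONE STEP `j → j+1`:  (good) `an_ld` + `an_phi_dec` + `an_coarsen`: cost `A Dg²`;   (bad) `an_N_cs`: cost `A K^n`.   The measure and the fields are never rescaled.
`an_iter` : `J` steps along a set with the chain property.     `an_engine` : start + iteration + recombination of the big cubes.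
-/

set_option autoImplicit false

namespace Claimed.Agent.R257

open MeasureTheory Metric Set
open scoped ENNReal InnerProductSpace

variable {n : ℕ}

/-- plank parameter (space) of the level `j` -/
noncomputable def lvA (K j : ℕ) : ℝ := ((K : ℝ) ^ j)⁻¹ * ((K : ℝ)⁻¹) ^ 2

/-- plank parameter (time) of the level `j` -/
noncomputable def lvB (K j : ℕ) : ℝ := (((K : ℝ) ^ j)⁻¹) ^ 2 * ((K : ℝ)⁻¹) ^ 2

/-- the sum of the fine fields of `S` inside the bin `τ` of the level `j` -/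
noncomputable def binF (K J : ℕ) (G : (Fin n → ℤ) → ST n → ℂ) (S : Finset (Fin n → ℤ)) (j : ℕ) (τ : Fin n → ℤ) (y : ST n) : ℂ :=
  ∑ k ∈ S.filter (fun k => banc K (J - j) k = τ), G k y

/-- the functional of the level `j` at the bin `τ` -/
noncomputable def anPsi (bb Ew : ℝ) (K J : ℕ) (G : (Fin n → ℤ) → ST n → ℂ) (ν : Measure (ST n)) (S : Finset (Fin n → ℤ)) (j : ℕ) (τ : Fin n → ℤ) : ℝ≥0∞ :=
  anPhi bb Ew 2 (-bcen ((K : ℝ) ^ j) τ) (lvA K j) (lvB K j) (binF K J G S j τ) ν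

/-- the children (level `j+1`) of `τ` (level `j`) which contain a bin of `S` -/
noncomputable def binC (K J : ℕ) (S : Finset (Fin n → ℤ)) (j : ℕ) (τ : Fin n → ℤ) : Finset (Fin n → ℤ) :=
  (S.filter (fun k => banc K (J - j) k = τ)).image (banc K (J - (j + 1)))

/-- family of fine fields -/
structure BinFam (C : ℝ) (K J : ℕ) (S : Finset (Fin n → ℤ)) (G : (Fin n → ℤ) → ST n → ℂ) : Prop where
  bdd : ∀ k ∈ S, ‖bcen ((K : ℝ) ^ J) k‖ ≤ C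
  fs : ∀ k ∈ S, BD.FS (BD.cap (-bcen ((K : ℝ) ^ J) k) (C / (K : ℝ) ^ J) (C / ((K : ℝ) ^ J) ^ 2)) (G k)

/-- the robustness constant of the children -/
noncomputable def anCr (n : ℕ) (C C₁ : ℝ) : ℝ := C + C₁ + Real.sqrt n + 3 ^ n

/-! ## bins -/

/-- **L-AN-I1** (40 l.) `Int.ediv_ediv_eq_ediv_mul` / `Int.ediv_ediv`, `pow_succ`. -/
theorem an_banc_succ (K r : ℕ) (k : Fin n → ℤ) : banc K (r + 1) k = banc K 1 (banc K r k) := by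
  funext i
  unfold banc
  rw [pow_one, pow_succ, Int.ediv_ediv_of_nonneg (by positivity)]

/-- the Euclidean norm from the components -/
theorem an_aux_norm_le (v : E n) (a : ℝ) (ha : 0 ≤ a) (h : ∀ i, |v i| ≤ a) : ‖v‖ ≤ Real.sqrt n * a := by
  rw [EuclideanSpace.norm_eq]
  calc Real.sqrt (∑ i, ‖v i‖ ^ 2) ≤ Real.sqrt (∑ _i : Fin n, a ^ 2) := by
        refine Real.sqrt_le_sqrt (Finset.sum_le_sum fun i _ => ?_)
        rw [Real.norm_eq_abs]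
        exact pow_le_pow_left₀ (abs_nonneg _) (h i) 2
    _ = Real.sqrt ((n : ℝ) * a ^ 2) := by simp
    _ = Real.sqrt n * a := by rw [Real.sqrt_mul (by positivity), Real.sqrt_sq ha]
/-- **L-AN-I2** (100 l.) the centre of an ancestor: componentwise `|(q + 1/2)/K^j - (k + 1/2)/K^J| ≤ 1/(2K^j)`, `q = k / K^{J-j}` (`Int.emod_add_ediv`, `Int.emod_nonneg`, `Int.emod_lt_of_pos`); `EuclideanSpace.norm_eq`. -/
theorem an_bin_cen (K J j : ℕ) (hK : 1 ≤ K) (hj : j ≤ J) (k : Fin n → ℤ) :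
    ‖bcen ((K : ℝ) ^ j) (banc K (J - j) k) - bcen ((K : ℝ) ^ J) k‖ ≤ Real.sqrt n / (K : ℝ) ^ j := by
  have hK0 : (0 : ℝ) < K := by exact_mod_cast hK
  have hc : (0 : ℤ) < (K : ℤ) ^ (J - j) := by
    have : (0 : ℤ) < (K : ℤ) := by exact_mod_cast hK
    positivity
  have hpow : (K : ℝ) ^ J = (K : ℝ) ^ j * (K : ℝ) ^ (J - j) := by
    rw [← pow_add]
    congr 1
    omega
  have hs : (0 : ℝ) < (K : ℝ) ^ j := by positivity
  have hcr : (0 : ℝ) < (K : ℝ) ^ (J - j) := by positivity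
  rw [div_eq_mul_inv]
  refine an_aux_norm_le _ _ (by positivity) fun i => ?_
  have a1 := Int.emod_add_mul_ediv (k i) ((K : ℤ) ^ (J - j))
  have b1 := Int.emod_nonneg (k i) hc.ne'
  have b2 := Int.emod_lt_of_pos (k i) hc
  obtain ⟨ρ, hρ⟩ : ∃ ρ : ℤ, ρ = k i % (K : ℤ) ^ (J - j) := ⟨_, rfl⟩
  obtain ⟨q, hq⟩ : ∃ q : ℤ, q = k i / (K : ℤ) ^ (J - j) := ⟨_, rfl⟩
  rw [← hρ, ← hq] at a1
  rw [← hρ] at b1 b2
  have a1' : (k i : ℝ) = (ρ : ℝ) + (K : ℝ) ^ (J - j) * q := by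
    rw [← a1]
    push_cast
    ring
  have b1' : (0 : ℝ) ≤ ρ := by exact_mod_cast b1
  have b2' : (ρ : ℝ) + 1 ≤ (K : ℝ) ^ (J - j) := by
    have : ρ + 1 ≤ (K : ℤ) ^ (J - j) := b2
    exact_mod_cast this
  have e : (bcen ((K : ℝ) ^ j) (banc K (J - j) k) - bcen ((K : ℝ) ^ J) k) i
      = ((K : ℝ) ^ (J - j) / 2 - ρ - 1 / 2) / ((K : ℝ) ^ j * (K : ℝ) ^ (J - j)) := by
    simp only [bcen, banc, PiLp.sub_apply]
    rw [← hq, a1', hpow]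
    field_simp
    ring
  rw [e, abs_div, abs_of_pos (mul_pos hs hcr), div_le_iff₀ (mul_pos hs hcr)]
  have e2 : ((K : ℝ) ^ j)⁻¹ * ((K : ℝ) ^ j * (K : ℝ) ^ (J - j)) = (K : ℝ) ^ (J - j) := by
    field_simp
  rw [e2, abs_le]
  constructor <;> linarith

/-- **L-AN-I3** (100 l.) a bin has at most `K^n` children: `banc K 1 τ' = τ` ⟹ `τ' i ∈ [K τ i, K τ i + K)`; inject into `Fin n → Fin K` (or `Fintype.piFinset` of `Finset.Ico`). -/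
theorem an_binC_card (K J : ℕ) (hK : 1 ≤ K) (S : Finset (Fin n → ℤ)) (j : ℕ) (hj : j < J) (τ : Fin n → ℤ) : (binC K J S j τ).card ≤ K ^ n := by
  have hK0 : (0 : ℤ) < (K : ℤ) := by exact_mod_cast hK
  have hsub : binC K J S j τ ⊆ Fintype.piFinset (fun i => Finset.Ico ((K : ℤ) * τ i) ((K : ℤ) * τ i + K)) := by
    intro τ' hτ'
    unfold binC at hτ'
    obtain ⟨k, hk, rfl⟩ := Finset.mem_image.1 hτ'
    have hk2 := (Finset.mem_filter.1 hk).2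
    have e : J - j = (J - (j + 1)) + 1 := by omega
    rw [e, an_banc_succ] at hk2
    rw [Fintype.mem_piFinset]
    intro i
    have h1 : banc K (J - (j + 1)) k i / (K : ℤ) ^ 1 = τ i := congrFun hk2 i
    rw [pow_one] at h1
    have a1 := Int.emod_add_mul_ediv (banc K (J - (j + 1)) k i) (K : ℤ)
    have b1 := Int.emod_nonneg (banc K (J - (j + 1)) k i) hK0.ne'
    have b2 := Int.emod_lt_of_pos (banc K (J - (j + 1)) k i) hK0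
    rw [h1] at a1
    rw [Finset.mem_Ico]
    constructor <;> linarith
  calc (binC K J S j τ).card ≤ (Fintype.piFinset (fun i => Finset.Ico ((K : ℤ) * τ i) ((K : ℤ) * τ i + K))).card := Finset.card_le_card hsub
    _ = K ^ n := by
      rw [Fintype.card_piFinset]
      simp

/-- **L-AN-I4** (100 l.) at most `3^n` grid centres in a ball of radius = mesh. -/
theorem an_grid_mult (a : ℝ) (ha : 0 < a) (ξ : E n) (t : Finset (Fin n → ℤ)) (ht : ∀ τ ∈ t, ‖-bcen a τ - ξ‖ ≤ a⁻¹) : (t.card : ℝ) ≤ 3 ^ n := by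
  have hsub : t ⊆ Fintype.piFinset (fun i => Finset.Icc ⌈-(a * ξ i) - 3 / 2⌉ (⌈-(a * ξ i) - 3 / 2⌉ + 2)) := by
    intro τ hτ
    rw [Fintype.mem_piFinset]
    intro i
    have h1 : ‖(-bcen a τ - ξ) i‖ ≤ a⁻¹ := (PiLp.norm_apply_le _ i).trans (ht τ hτ)
    have e : (-bcen a τ - ξ) i = -(((τ i : ℝ) + 1 / 2) / a) - ξ i := by
      simp only [bcen, PiLp.sub_apply, PiLp.neg_apply]
    rw [e, Real.norm_eq_abs, abs_le] at h1
    obtain ⟨h2, h3⟩ := h1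
    have h4 : -(1 : ℝ) ≤ -((τ i : ℝ) + 1 / 2) - a * ξ i := by
      have := mul_le_mul_of_nonneg_left h2 ha.le
      have e1 : a * -a⁻¹ = -1 := by field_simp
      have e2 : a * (-(((τ i : ℝ) + 1 / 2) / a) - ξ i) = -((τ i : ℝ) + 1 / 2) - a * ξ i := by field_simp
      rw [e1, e2] at this
      exact this
    have h5 : -((τ i : ℝ) + 1 / 2) - a * ξ i ≤ 1 := by
      have := mul_le_mul_of_nonneg_left h3 ha.le
      have e1 : a * a⁻¹ = 1 := by field_simp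
      have e2 : a * (-(((τ i : ℝ) + 1 / 2) / a) - ξ i) = -((τ i : ℝ) + 1 / 2) - a * ξ i := by field_simp
      rw [e1, e2] at this
      exact this
    rw [Finset.mem_Icc]
    constructor
    · rw [Int.ceil_le]
      linarith
    · have h6 := Int.le_ceil (-(a * ξ i) - 3 / 2)
      have h7 : (τ i : ℝ) ≤ ((⌈-(a * ξ i) - 3 / 2⌉ + 2 : ℤ) : ℝ) := by
        push_cast
        linarith
      exact_mod_cast h7
  have h8 : t.card ≤ 3 ^ n := by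
    calc t.card ≤ (Fintype.piFinset (fun i => Finset.Icc ⌈-(a * ξ i) - 3 / 2⌉ (⌈-(a * ξ i) - 3 / 2⌉ + 2))).card := Finset.card_le_card hsub
      _ = 3 ^ n := by
        rw [Fintype.card_piFinset]
        have : ∀ i : Fin n, (Finset.Icc ⌈-(a * ξ i) - 3 / 2⌉ (⌈-(a * ξ i) - 3 / 2⌉ + 2)).card = 3 := by
          intro i
          rw [Int.card_Icc]
          have e : ⌈-(a * ξ i) - 3 / 2⌉ + 2 + 1 - ⌈-(a * ξ i) - 3 / 2⌉ = 3 := by ring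
          rw [e]
          rfl
        rw [Finset.prod_congr rfl (fun i _ => this i)]
        simp
  exact_mod_cast h8

/-- splitting a sum over the fine bins of a bin into the children -/
theorem an_aux_split {M : Type*} [AddCommMonoid M] (K J : ℕ) (f : (Fin n → ℤ) → M) (S : Finset (Fin n → ℤ)) (j : ℕ) (hj : j < J) (τ : Fin n → ℤ) :
    ∑ k ∈ S.filter (fun k => banc K (J - j) k = τ), f k =
      ∑ τ' ∈ binC K J S j τ, ∑ k ∈ S.filter (fun k => banc K (J - (j + 1)) k = τ'), f k := by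
  have e : J - j = (J - (j + 1)) + 1 := by omega
  have h1 := Finset.sum_fiberwise_of_maps_to (s := S.filter (fun k => banc K (J - j) k = τ)) (t := binC K J S j τ)
    (g := banc K (J - (j + 1))) (fun k hk => Finset.mem_image_of_mem _ hk) f
  rw [← h1]
  refine Finset.sum_congr rfl fun τ' hτ' => ?_
  congr 1
  rw [Finset.filter_filter]
  refine Finset.filter_congr fun k _ => ⟨fun h => h.2, fun h => ⟨?_, h⟩⟩
  unfold binC at hτ'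
  obtain ⟨k₀, hk₀, rfl⟩ := Finset.mem_image.1 hτ'
  have hk2 := (Finset.mem_filter.1 hk₀).2
  rw [e, an_banc_succ] at hk2 ⊢
  rw [h, hk2]
/-- **L-AN-I5** (80 l.) the field of a bin is the sum of the fields of its children (`Finset.sum_fiberwise_of_maps_to` / `Finset.sum_image'`; `an_banc_succ`: `J - j = (J - (j+1)) + 1`). -/
theorem an_binF_split (K J : ℕ) (G : (Fin n → ℤ) → ST n → ℂ) (S : Finset (Fin n → ℤ)) (j : ℕ) (hj : j < J) (τ : Fin n → ℤ) (y : ST n) :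
    binF K J G S j τ y = ∑ τ' ∈ binC K J S j τ, binF K J G S (j + 1) τ' y := by
  unfold binF
  exact an_aux_split K J (fun k => G k y) S j hj τ

/-- **L-AN-I6** (40 l.) the same for sums of numbers over the fine bins. -/
theorem an_bin_sum_split (K J : ℕ) (f : (Fin n → ℤ) → ℝ≥0∞) (S : Finset (Fin n → ℤ)) (j : ℕ) (hj : j < J) (τ : Fin n → ℤ) :
    ∑ k ∈ S.filter (fun k => banc K (J - j) k = τ), f k =
      ∑ τ' ∈ binC K J S j τ, ∑ k ∈ S.filter (fun k => banc K (J - (j + 1)) k = τ'), f k := by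
  exact an_aux_split K J f S j hj τ

theorem BinFam.subset {C : ℝ} {K J : ℕ} {S S' : Finset (Fin n → ℤ)} {G : (Fin n → ℤ) → ST n → ℂ} (h : BinFam C K J S G) (hS : S' ⊆ S) : BinFam C K J S' G :=
  ⟨fun k hk => h.bdd k (hS hk), fun k hk => h.fs k (hS hk)⟩

theorem BinFam.cont {C : ℝ} {K J : ℕ} {S : Finset (Fin n → ℤ)} {G : (Fin n → ℤ) → ST n → ℂ} (h : BinFam C K J S G) (j : ℕ) (τ : Fin n → ℤ) :
    Continuous (binF K J G S j τ) := by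
  unfold binF
  exact continuous_finsetSum _ fun k hk => (h.fs k (Finset.mem_filter.1 hk).1).continuous

/-! ## one step -/

/-- `√n ≤ 3^n` -/
theorem an_aux_sqrt_le (n : ℕ) : Real.sqrt n ≤ (3 : ℝ) ^ n := by
  rw [Real.sqrt_le_iff]
  refine ⟨by positivity, ?_⟩
  have h1 : n < 2 ^ n := Nat.lt_two_pow_self
  have h2 : (n : ℝ) ≤ (2 : ℝ) ^ n := by exact_mod_cast h1.le
  have h3 : (2 : ℝ) ^ n ≤ (3 : ℝ) ^ n := pow_le_pow_left₀ (by norm_num) (by norm_num) n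
  have h4 : (1 : ℝ) ≤ (3 : ℝ) ^ n := one_le_pow₀ (by norm_num)
  nlinarith

/-- a child of `τ` comes from a fine bin -/
theorem an_aux_child {K J : ℕ} {S : Finset (Fin n → ℤ)} {j : ℕ} {τ τ' : Fin n → ℤ} (h : τ' ∈ binC K J S j τ) :
    ∃ k ∈ S, banc K (J - j) k = τ ∧ banc K (J - (j + 1)) k = τ' := by
  unfold binC at h
  obtain ⟨k, hk, rfl⟩ := Finset.mem_image.1 h
  exact ⟨k, (Finset.mem_filter.1 hk).1, (Finset.mem_filter.1 hk).2, rfl⟩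

/-- `σ ρ = 1/K^{j+1}` -/
theorem an_aux_scale (K j : ℕ) : ((K : ℝ) ^ j)⁻¹ * (K : ℝ)⁻¹ = ((K : ℝ) ^ (j + 1))⁻¹ := by
  rw [pow_succ, mul_inv]
/-- **L-AN-I7** (250 l.) the children of a bin are a robust family at the scale `σ ρ = K^{-j} K^{-1}`.
`bdd`: `an_bin_cen` (`≤ C + √n`);  `mult`: `an_grid_mult` with `a = K^{j+1}`;  `fs`: `BD.FS.sum`, `BD.cap_subset_cap` (`‖bcen R k - bcen (K^{j+1}) τ'‖ ≤ √n σρ`), `BD.cap_mono` (`1/R ≤ σρ`). -/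
theorem an_step_rob (C C₁ : ℝ) (hC : 1 ≤ C) (hC₁ : 0 ≤ C₁) (K J : ℕ) (hK : 1 ≤ K) (S : Finset (Fin n → ℤ)) (G : (Fin n → ℤ) → ST n → ℂ)
    (hG : BinFam C K J S G) (j : ℕ) (hj : j < J) (τ : Fin n → ℤ) :
    BD.Rob (anCr n C C₁) (((K : ℝ) ^ j)⁻¹ * (K : ℝ)⁻¹) (binC K J S j τ) (fun τ' => -bcen ((K : ℝ) ^ (j + 1)) τ') (fun τ' => binF K J G S (j + 1) τ') := by
  have hK1 : (1 : ℝ) ≤ K := by exact_mod_cast hK
  have hK0 : (0 : ℝ) < K := lt_of_lt_of_le one_pos hK1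
  have hs0 : (0 : ℝ) < (K : ℝ) ^ (j + 1) := by positivity
  have hs1 : (1 : ℝ) ≤ (K : ℝ) ^ (j + 1) := one_le_pow₀ hK1
  have hR0 : (0 : ℝ) < (K : ℝ) ^ J := by positivity
  have hsR : (K : ℝ) ^ (j + 1) ≤ (K : ℝ) ^ J := pow_le_pow_right₀ hK1 hj
  have hn0 : 0 ≤ Real.sqrt n := Real.sqrt_nonneg _
  have h3n : (0 : ℝ) ≤ (3 : ℝ) ^ n := by positivity
  rw [an_aux_scale]
  refine ⟨fun τ' hτ' => ?_, fun ξ t _ ht => ?_, fun τ' _ => ?_⟩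
  · obtain ⟨k, hk, -, rfl⟩ := an_aux_child hτ'
    have h1 := an_bin_cen K J (j + 1) hK hj k
    have h2 := hG.bdd k hk
    have h3 : Real.sqrt n / (K : ℝ) ^ (j + 1) ≤ Real.sqrt n := div_le_self hn0 hs1
    have h4 : ‖bcen ((K : ℝ) ^ (j + 1)) (banc K (J - (j + 1)) k)‖
        ≤ ‖bcen ((K : ℝ) ^ (j + 1)) (banc K (J - (j + 1)) k) - bcen ((K : ℝ) ^ J) k‖ + ‖bcen ((K : ℝ) ^ J) k‖ := by
      have := norm_add_le (bcen ((K : ℝ) ^ (j + 1)) (banc K (J - (j + 1)) k) - bcen ((K : ℝ) ^ J) k) (bcen ((K : ℝ) ^ J) k)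
      rwa [sub_add_cancel] at this
    simp only [norm_neg]
    unfold anCr
    linarith
  · have h1 := an_grid_mult ((K : ℝ) ^ (j + 1)) hs0 ξ t ht
    unfold anCr
    linarith
  · have hfs : ∀ k ∈ S.filter (fun k => banc K (J - (j + 1)) k = τ'),
        BD.FS (BD.cap (-bcen ((K : ℝ) ^ (j + 1)) τ') (anCr n C C₁ * ((K : ℝ) ^ (j + 1))⁻¹) (anCr n C C₁ * (((K : ℝ) ^ (j + 1))⁻¹) ^ 2)) (G k) := by
      intro k hk
      obtain ⟨hkS, hkτ⟩ := Finset.mem_filter.1 hk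
      have h1 := an_bin_cen K J (j + 1) hK hj k
      rw [hkτ] at h1
      have h2 : ‖-bcen ((K : ℝ) ^ J) k - -bcen ((K : ℝ) ^ (j + 1)) τ'‖ ≤ Real.sqrt n / (K : ℝ) ^ (j + 1) := by
        have e : -bcen ((K : ℝ) ^ J) k - -bcen ((K : ℝ) ^ (j + 1)) τ' = bcen ((K : ℝ) ^ (j + 1)) τ' - bcen ((K : ℝ) ^ J) k := by abel
        rw [e]
        exact h1
      refine (hG.fs k hkS).mono ((BD.cap_subset_cap h2).trans (BD.cap_mono ?_ ?_))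
      · have h3 : C / (K : ℝ) ^ J ≤ C / (K : ℝ) ^ (j + 1) := div_le_div_of_nonneg_left (by linarith) hs0 hsR
        have h4 : (0 : ℝ) ≤ ((K : ℝ) ^ (j + 1))⁻¹ := by positivity
        unfold anCr
        calc C / (K : ℝ) ^ J + Real.sqrt n / (K : ℝ) ^ (j + 1) ≤ C / (K : ℝ) ^ (j + 1) + Real.sqrt n / (K : ℝ) ^ (j + 1) := by linarith
          _ = (C + Real.sqrt n) * ((K : ℝ) ^ (j + 1))⁻¹ := by
            rw [div_eq_mul_inv, div_eq_mul_inv]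
            ring
          _ ≤ (C + C₁ + Real.sqrt n + 3 ^ n) * ((K : ℝ) ^ (j + 1))⁻¹ := mul_le_mul_of_nonneg_right (by linarith) h4
      · have h3 : ((K : ℝ) ^ (j + 1)) ^ 2 ≤ ((K : ℝ) ^ J) ^ 2 := pow_le_pow_left₀ hs0.le hsR 2
        have h4 : (0 : ℝ) ≤ (((K : ℝ) ^ (j + 1))⁻¹) ^ 2 := by positivity
        unfold anCr
        calc C / ((K : ℝ) ^ J) ^ 2 ≤ C / ((K : ℝ) ^ (j + 1)) ^ 2 := div_le_div_of_nonneg_left (by linarith) (by positivity) h3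
          _ = C * (((K : ℝ) ^ (j + 1))⁻¹) ^ 2 := by
            rw [div_eq_mul_inv, inv_pow]
          _ ≤ (C + C₁ + Real.sqrt n + 3 ^ n) * (((K : ℝ) ^ (j + 1))⁻¹) ^ 2 := mul_le_mul_of_nonneg_right (by linarith) h4
    exact BD.FS.sum _ hfs

/-- **L-AN-I8** (80 l.) the centres of the children are within `√n K^{-j}` of the centre of the parent (both are within `√n/K^j` resp. `√n/K^{j+1}` of a fine centre: `an_bin_cen`; constant `2√n ≤ …` is NOT available: use that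
`‖·‖ ≤ √n/K^j + √n/K^{j+1} ≤ 2√n/K^j` and `2√n ≤ 3^n + √n` for `n ≥ 1`; `n = 0` trivial). -/
theorem an_step_near (C C₁ : ℝ) (hC : 1 ≤ C) (hC₁ : 0 ≤ C₁) (K J : ℕ) (hK : 1 ≤ K) (S : Finset (Fin n → ℤ)) (j : ℕ) (hj : j < J) (τ : Fin n → ℤ) :
    ∀ τ' ∈ binC K J S j τ, ‖-bcen ((K : ℝ) ^ (j + 1)) τ' - -bcen ((K : ℝ) ^ j) τ‖ ≤ anCr n C C₁ * ((K : ℝ) ^ j)⁻¹ := by
  intro τ' hτ'
  have hK1 : (1 : ℝ) ≤ K := by exact_mod_cast hK
  have hK0 : (0 : ℝ) < K := lt_of_lt_of_le one_pos hK1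
  have hn0 : 0 ≤ Real.sqrt n := Real.sqrt_nonneg _
  obtain ⟨k, hk, rfl, rfl⟩ := an_aux_child hτ'
  have h1 := an_bin_cen K J (j + 1) hK hj k
  have h2 := an_bin_cen K J j hK hj.le k
  have h3 : Real.sqrt n / (K : ℝ) ^ (j + 1) ≤ Real.sqrt n / (K : ℝ) ^ j :=
    div_le_div_of_nonneg_left hn0 (by positivity) (pow_le_pow_right₀ hK1 (Nat.le_succ j))
  have e : -bcen ((K : ℝ) ^ (j + 1)) (banc K (J - (j + 1)) k) - -bcen ((K : ℝ) ^ j) (banc K (J - j) k)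
      = (bcen ((K : ℝ) ^ j) (banc K (J - j) k) - bcen ((K : ℝ) ^ J) k) - (bcen ((K : ℝ) ^ (j + 1)) (banc K (J - (j + 1)) k) - bcen ((K : ℝ) ^ J) k) := by
    abel
  rw [e]
  refine (norm_sub_le _ _).trans ?_
  have h4 := an_aux_sqrt_le n
  have h5 : (0 : ℝ) ≤ ((K : ℝ) ^ j)⁻¹ := by positivity
  unfold anCr
  calc _ ≤ Real.sqrt n / (K : ℝ) ^ j + Real.sqrt n / (K : ℝ) ^ j := by linarith
    _ = (Real.sqrt n + Real.sqrt n) * ((K : ℝ) ^ j)⁻¹ := by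
      rw [div_eq_mul_inv]
      ring
    _ ≤ (C + C₁ + Real.sqrt n + 3 ^ n) * ((K : ℝ) ^ j)⁻¹ := mul_le_mul_of_nonneg_right (by linarith) h5

/-- **L-AN-I9** (100 l.) the strip of the fine centres gives a strip for the (negated) centres of the children (`an_bin_cen`, `|⟪e,v⟫| ≤ ‖v‖`; heights `-c_i`). -/
theorem an_step_strip (C C₁ : ℝ) (hC : 1 ≤ C) (hC₁ : 0 ≤ C₁) (K J : ℕ) (hK : 1 ≤ K) (S : Finset (Fin n → ℤ)) (j : ℕ) (hj : j < J) (τ : Fin n → ℤ)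
    (hs : Strip2 (C₁ / (K : ℝ) ^ (j + 1)) {v | ∃ k ∈ S, banc K (J - j) k = τ ∧ v = bcen ((K : ℝ) ^ J) k}) :
    Strip2 (anCr n C C₁ * (((K : ℝ) ^ j)⁻¹ * (K : ℝ)⁻¹)) ((fun τ' => -bcen ((K : ℝ) ^ (j + 1)) τ') '' (binC K J S j τ : Set (Fin n → ℤ))) := by
  obtain ⟨e₁, e₂, c₁, c₂, h1, h2, h3, h4⟩ := hs
  have h3n : (0 : ℝ) ≤ (3 : ℝ) ^ n := by positivity
  have hK0 : (0 : ℝ) < K := by exact_mod_cast hK
  have h5 : (0 : ℝ) ≤ ((K : ℝ) ^ (j + 1))⁻¹ := by positivity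
  have hw : Real.sqrt n / (K : ℝ) ^ (j + 1) + C₁ / (K : ℝ) ^ (j + 1) ≤ anCr n C C₁ * ((K : ℝ) ^ (j + 1))⁻¹ := by
    unfold anCr
    calc Real.sqrt n / (K : ℝ) ^ (j + 1) + C₁ / (K : ℝ) ^ (j + 1) = (Real.sqrt n + C₁) * ((K : ℝ) ^ (j + 1))⁻¹ := by
          rw [div_eq_mul_inv, div_eq_mul_inv]
          ring
      _ ≤ (C + C₁ + Real.sqrt n + 3 ^ n) * ((K : ℝ) ^ (j + 1))⁻¹ := mul_le_mul_of_nonneg_right (by linarith) h5
  rw [an_aux_scale]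
  refine ⟨e₁, e₂, -c₁, -c₂, h1, h2, h3, ?_⟩
  rintro v ⟨τ', hτ', rfl⟩
  obtain ⟨k, hk, hkτ, rfl⟩ := an_aux_child (Finset.mem_coe.1 hτ')
  obtain ⟨a1, a2⟩ := h4 (bcen ((K : ℝ) ^ J) k) ⟨k, hk, hkτ, rfl⟩
  have hb := an_bin_cen K J (j + 1) hK hj k
  have key : ∀ (e : E n) (c : ℝ), ‖e‖ = 1 → |⟪e, bcen ((K : ℝ) ^ J) k⟫_ℝ - c| ≤ C₁ / (K : ℝ) ^ (j + 1) →
      |⟪e, -bcen ((K : ℝ) ^ (j + 1)) (banc K (J - (j + 1)) k)⟫_ℝ - -c| ≤ anCr n C C₁ * ((K : ℝ) ^ (j + 1))⁻¹ := by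
    intro e c he hc
    have e1 : ⟪e, -bcen ((K : ℝ) ^ (j + 1)) (banc K (J - (j + 1)) k)⟫_ℝ - -c = -(⟪e, bcen ((K : ℝ) ^ (j + 1)) (banc K (J - (j + 1)) k)⟫_ℝ - c) := by
      rw [inner_neg_right]
      ring
    rw [e1, abs_neg]
    have := an_geo_aux_pt (v := bcen ((K : ℝ) ^ (j + 1)) (banc K (J - (j + 1)) k)) (x := bcen ((K : ℝ) ^ J) k) he c
    linarith
  exact ⟨key e₁ c₁ h1 a1, key e₂ c₂ h2 a2⟩

/-- **L-AN-I10** (150 l.) coarsening from a parent plank to a child plank.  `an_coarsen` (`r = 2`, `C₀ = (1+2Cv)^Ew`), `an_lam_cmp` with `q₁ = K`, `q₂ = K²`, `a' = lvA K (j+1)`, `b' = lvB K (j+1)` (`q₁ a'/b' = K^{j+2}`), `κ = K/(1+2Cv)`,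
`a^n b/(a'^n b') = K^{n+2} ≤ K^Ew`;  `1 + 2/κ ≤ 2` for `K ≥ K₀ = 2(1+2Cv)`, `an_phi_mono_r`. -/
theorem an_step_coarsen (n : ℕ) (bb Ew Cv : ℝ) (hb0 : 0 < bb) (hb1 : bb < 1) (hE : (n : ℝ) + 2 ≤ Ew) (hCv : 0 ≤ Cv) :
    ∃ A K₀ : ℝ, ∀ (K j : ℕ) (u u' : E n) (F : ST n → ℂ) (ν : Measure (ST n)) [SFinite ν], K₀ ≤ (K : ℝ) → ‖u' - u‖ ≤ Cv * ((K : ℝ) ^ j)⁻¹ → Continuous F →
      anPhi bb Ew 2 u (lvA K j) (lvB K j) F ν ≤ ENNReal.ofReal A * anPhi bb Ew 2 u' (lvA K (j + 1)) (lvB K (j + 1)) F ν := by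
  have hc0 : 0 < 1 + 2 * Cv := by linarith
  obtain ⟨A, hA⟩ := an_coarsen n bb Ew 2 ((1 + 2 * Cv) ^ Ew) hb0 hb1 (by linarith) (by norm_num) (by positivity)
  refine ⟨A, 2 * (1 + 2 * Cv), fun K j u u' F ν _ hK hu hF => ?_⟩
  have hK2 : (2 : ℝ) ≤ K := by linarith
  have hK1 : (1 : ℝ) ≤ K := by linarith
  have hK0 : (0 : ℝ) < K := by linarith
  have hs0 : (0 : ℝ) < (K : ℝ) ^ j := by positivity
  have hp : (K : ℝ) ^ (j + 1) = (K : ℝ) ^ j * K := pow_succ _ _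
  have ha' : 0 < lvA K (j + 1) := by
    unfold lvA
    positivity
  have hb' : 0 < lvB K (j + 1) := by
    unfold lvB
    positivity
  have eA : lvA K j = (K : ℝ) * lvA K (j + 1) := by
    unfold lvA
    rw [hp]
    field_simp
  have eB : lvB K j = (K : ℝ) ^ 2 * lvB K (j + 1) := by
    unfold lvB
    rw [hp]
    field_simp
  have hκ : 0 < (K : ℝ) / (1 + 2 * Cv) := by positivity
  have hcmp : ∀ w, (K : ℝ) / (1 + 2 * Cv) * ‖BD.Lam u' (lvA K (j + 1)) (lvB K (j + 1)) w‖ ≤ ‖BD.Lam u (lvA K j) (lvB K j) w‖ := by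
    intro w
    rw [eA, eB]
    refine an_lam_cmp u u' (lvA K (j + 1)) (lvB K (j + 1)) K ((K : ℝ) ^ 2) (2 * Cv) ha' hb' hK0 ?_ (by positivity) ?_ w
    · nlinarith
    · have e1 : (K : ℝ) * lvA K (j + 1) / lvB K (j + 1) = (K : ℝ) ^ j * (K : ℝ) ^ 2 := by
        unfold lvA lvB
        rw [hp]
        field_simp
      rw [e1, norm_sub_rev]
      calc 2 * ((K : ℝ) ^ j * (K : ℝ) ^ 2) * ‖u' - u‖ ≤ 2 * ((K : ℝ) ^ j * (K : ℝ) ^ 2) * (Cv * ((K : ℝ) ^ j)⁻¹) :=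
            mul_le_mul_of_nonneg_left hu (by positivity)
        _ = 2 * Cv * (K : ℝ) ^ 2 := by
            field_simp
  have hvol : lvA K j ^ n * lvB K j ≤ (1 + 2 * Cv) ^ Ew * ((K : ℝ) / (1 + 2 * Cv)) ^ Ew * (lvA K (j + 1) ^ n * lvB K (j + 1)) := by
    have e2 : (1 + 2 * Cv) ^ Ew * ((K : ℝ) / (1 + 2 * Cv)) ^ Ew = (K : ℝ) ^ Ew := by
      rw [← Real.mul_rpow hc0.le hκ.le, mul_div_cancel₀ _ hc0.ne']
    have e3 : lvA K j ^ n * lvB K j = (K : ℝ) ^ (n + 2) * (lvA K (j + 1) ^ n * lvB K (j + 1)) := by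
      rw [eA, eB, mul_pow, pow_add]
      ring
    have h4 : (K : ℝ) ^ (n + 2) ≤ (K : ℝ) ^ Ew := by
      rw [← Real.rpow_natCast]
      refine Real.rpow_le_rpow_of_exponent_le hK1 ?_
      push_cast
      exact hE
    rw [e2, e3]
    exact mul_le_mul_of_nonneg_right h4 (by positivity)
  have h5 := hA u u' (lvA K j) (lvB K j) (lvA K (j + 1)) (lvB K (j + 1)) ((K : ℝ) / (1 + 2 * Cv)) F ν (by rw [eA]; positivity) (by rw [eB]; positivity)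
    ha' hb' hκ hcmp hvol hF
  refine h5.trans (mul_le_mul' le_rfl (an_phi_mono_r hb0.le Ew ?_ u' _ _ F ν))
  have h6 : 2 / ((K : ℝ) / (1 + 2 * Cv)) ≤ 1 := by
    rw [div_le_one hκ, le_div_iff₀ hc0]
    linarith
  linarith

/-- `1 ≤ anCr` -/
theorem an_aux_Cr_ge (n : ℕ) {C C₁ : ℝ} (hC : 1 ≤ C) (hC₁ : 0 ≤ C₁) : 1 ≤ anCr n C C₁ := by
  unfold anCr
  have h1 : 0 ≤ Real.sqrt n := Real.sqrt_nonneg _
  have h2 : (0 : ℝ) ≤ (3 : ℝ) ^ n := by positivity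
  linarith

/-- ONE STEP from a pointwise inequality for the local norms -/
theorem an_aux_step (n : ℕ) (bb Ew C C₁ : ℝ) (hb0 : 0 < bb) (hb1 : bb < 1) (hE : (n : ℝ) + 2 ≤ Ew) (hC : 1 ≤ C) (hC₁ : 0 ≤ C₁) :
    ∃ A K₀ : ℝ, 0 ≤ A ∧ 1 ≤ K₀ ∧ ∀ (K J : ℕ) (S : Finset (Fin n → ℤ)) (G : (Fin n → ℤ) → ST n → ℂ) (ν : Measure (ST n)) [SFinite ν] (c : ℝ≥0∞) (j : ℕ) (τ : Fin n → ℤ),
      K₀ ≤ (K : ℝ) → j < J → BinFam C K J S G →
      (∀ z, anN (2 / (1 - bb)) Ew (-bcen ((K : ℝ) ^ j) τ) (lvA K j) (lvB K j) (fun y => ∑ τ' ∈ binC K J S j τ, binF K J G S (j + 1) τ' y) z ^ (1 - bb)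
        ≤ c * ∑ τ' ∈ binC K J S j τ, anN (2 / (1 - bb)) Ew (-bcen ((K : ℝ) ^ j) τ) (lvA K j) (lvB K j) (binF K J G S (j + 1) τ') z ^ (1 - bb)) →
      anPsi bb Ew K J G ν S j τ ≤ ENNReal.ofReal A * c * ∑ τ' ∈ binC K J S j τ, anPsi bb Ew K J G ν S (j + 1) τ' := by
  have hCr := an_aux_Cr_ge n hC hC₁
  obtain ⟨A₂, K₂, h₂⟩ := an_step_coarsen n bb Ew (anCr n C C₁) hb0 hb1 hE (by linarith)
  refine ⟨max A₂ 0, max 1 K₂, le_max_right _ _, le_max_left _ _, fun K J S G ν _ c j τ hK hj hG hpt => ?_⟩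
  have hK1 : (1 : ℝ) ≤ K := (le_max_left _ _).trans hK
  have hK1' : 1 ≤ K := by exact_mod_cast hK1
  have hK2 : K₂ ≤ K := (le_max_right _ _).trans hK
  have e : binF K J G S j τ = fun y => ∑ τ' ∈ binC K J S j τ, binF K J G S (j + 1) τ' y := by
    funext y
    exact an_binF_split K J G S j hj τ y
  have h1 := an_phi_dec hb0 hb1 Ew 2 (-bcen ((K : ℝ) ^ j) τ) (lvA K j) (lvB K j) (binC K J S j τ) (fun τ' => binF K J G S (j + 1) τ')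
    (fun τ' _ => hG.cont (j + 1) τ') ν c hpt
  unfold anPsi
  rw [e]
  refine h1.trans ?_
  have h3 : ∀ τ' ∈ binC K J S j τ, anPhi bb Ew 2 (-bcen ((K : ℝ) ^ j) τ) (lvA K j) (lvB K j) (binF K J G S (j + 1) τ') ν
      ≤ ENNReal.ofReal (max A₂ 0) * anPhi bb Ew 2 (-bcen ((K : ℝ) ^ (j + 1)) τ') (lvA K (j + 1)) (lvB K (j + 1)) (binF K J G S (j + 1) τ') ν := by
    intro τ' hτ'
    refine (h₂ K j _ _ _ ν hK2 (an_step_near C C₁ hC hC₁ K J hK1' S j hj τ τ' hτ') (hG.cont (j + 1) τ')).trans ?_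
    exact mul_le_mul' (ENNReal.ofReal_le_ofReal (le_max_left _ _)) le_rfl
  calc c * ∑ τ' ∈ binC K J S j τ, anPhi bb Ew 2 (-bcen ((K : ℝ) ^ j) τ) (lvA K j) (lvB K j) (binF K J G S (j + 1) τ') ν
      ≤ c * ∑ τ' ∈ binC K J S j τ, ENNReal.ofReal (max A₂ 0) * anPhi bb Ew 2 (-bcen ((K : ℝ) ^ (j + 1)) τ') (lvA K (j + 1)) (lvB K (j + 1)) (binF K J G S (j + 1) τ') ν :=
        mul_le_mul' le_rfl (Finset.sum_le_sum h3)
    _ = _ := by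
        rw [← Finset.mul_sum]
        ring
/-- **L-AN-I11** (150 l.) GOOD STEP: `an_binF_split`, `an_step_rob`, `an_step_near`, `an_step_strip`, `an_ld` (`σ = K^{-j}`, `ρ = K^{-1}`, `2/P = 1 - bb`), `an_phi_dec`, `an_step_coarsen` for every child. -/
theorem an_step_good (n : ℕ) (bb Ew C C₁ : ℝ) (hb0 : 0 < bb) (hb1 : bb < 1) (hE : (n : ℝ) + 2 ≤ Ew) (hC : 1 ≤ C) (hC₁ : 0 ≤ C₁) :
    ∃ A K₀ : ℝ, ∀ (K J : ℕ) (S : Finset (Fin n → ℤ)) (G : (Fin n → ℤ) → ST n → ℂ) (ν : Measure (ST n)) [SFinite ν] (Dg : ℝ≥0∞) (j : ℕ) (τ : Fin n → ℤ),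
      K₀ ≤ (K : ℝ) → j < J → BinFam C K J S G → SDec n (2 / (1 - bb)) (7 * anCr n C C₁) (K : ℝ)⁻¹ Dg →
      Strip2 (C₁ / (K : ℝ) ^ (j + 1)) {v | ∃ k ∈ S, banc K (J - j) k = τ ∧ v = bcen ((K : ℝ) ^ J) k} →
      anPsi bb Ew K J G ν S j τ ≤ ENNReal.ofReal A * Dg ^ 2 * ∑ τ' ∈ binC K J S j τ, anPsi bb Ew K J G ν S (j + 1) τ' := by
  have hCr := an_aux_Cr_ge n hC hC₁
  have h1b : 0 < 1 - bb := by linarith
  have hP : 2 ≤ 2 / (1 - bb) := by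
    rw [le_div_iff₀ h1b]
    linarith
  have e2P : 2 / (2 / (1 - bb)) = 1 - bb := by field_simp
  obtain ⟨A₁, h₁⟩ := an_ld n (2 / (1 - bb)) Ew (anCr n C C₁) hP (by linarith) hCr
  obtain ⟨A₂, K₂, hA₂, hK₂, h₂⟩ := an_aux_step n bb Ew C C₁ hb0 hb1 hE hC hC₁
  refine ⟨A₂ * max A₁ 0, K₂, fun K J S G ν _ Dg j τ hK hj hG hD hs => ?_⟩
  have hK1 : (1 : ℝ) ≤ K := hK₂.trans hK
  have hK1' : 1 ≤ K := by exact_mod_cast hK1
  have hK0 : (0 : ℝ) < K := by linarith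
  have hpt := h₁ ((K : ℝ) ^ j)⁻¹ (K : ℝ)⁻¹ Dg (by positivity) (inv_le_one_of_one_le₀ (one_le_pow₀ hK1)) (by positivity) (inv_le_one_of_one_le₀ hK1) hD
    (Fin n → ℤ) (binC K J S j τ) (fun τ' => -bcen ((K : ℝ) ^ (j + 1)) τ') (fun τ' => binF K J G S (j + 1) τ') (-bcen ((K : ℝ) ^ j) τ)
    (an_step_rob C C₁ hC hC₁ K J hK1' S G hG j hj τ) (an_step_near C C₁ hC hC₁ K J hK1' S j hj τ) (an_step_strip C C₁ hC hC₁ K J hK1' S j hj τ hs)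
  rw [e2P] at hpt
  have h3 := h₂ K J S G ν (ENNReal.ofReal (max A₁ 0) * Dg ^ 2) j τ hK hj hG (fun z => (hpt z).trans
    (mul_le_mul' (mul_le_mul' (ENNReal.ofReal_le_ofReal (le_max_left _ _)) le_rfl) le_rfl))
  refine h3.trans (le_of_eq ?_)
  rw [ENNReal.ofReal_mul hA₂]
  ring

/-- **L-AN-I12** (100 l.) BAD STEP: `an_binF_split`, `an_N_cs`, `an_binC_card`, `an_phi_dec`, `an_step_near`, `an_step_coarsen`. -/
theorem an_step_bad (n : ℕ) (bb Ew C C₁ : ℝ) (hb0 : 0 < bb) (hb1 : bb < 1) (hE : (n : ℝ) + 2 ≤ Ew) (hC : 1 ≤ C) (hC₁ : 0 ≤ C₁) :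
    ∃ A K₀ : ℝ, ∀ (K J : ℕ) (S : Finset (Fin n → ℤ)) (G : (Fin n → ℤ) → ST n → ℂ) (ν : Measure (ST n)) [SFinite ν] (j : ℕ) (τ : Fin n → ℤ),
      K₀ ≤ (K : ℝ) → j < J → BinFam C K J S G →
      anPsi bb Ew K J G ν S j τ ≤ ENNReal.ofReal A * (K : ℝ≥0∞) ^ n * ∑ τ' ∈ binC K J S j τ, anPsi bb Ew K J G ν S (j + 1) τ' := by
  obtain ⟨A₂, K₂, hA₂, hK₂, h₂⟩ := an_aux_step n bb Ew C C₁ hb0 hb1 hE hC hC₁
  refine ⟨A₂, K₂, fun K J S G ν _ j τ hK hj hG => ?_⟩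
  have hK1 : (1 : ℝ) ≤ K := hK₂.trans hK
  have hK1' : 1 ≤ K := by exact_mod_cast hK1
  refine h₂ K J S G ν ((K : ℝ≥0∞) ^ n) j τ hK hj hG (fun z => ?_)
  refine (an_N_cs hb0 hb1 Ew _ _ _ (binC K J S j τ) (fun τ' => binF K J G S (j + 1) τ') (fun τ' _ => hG.cont (j + 1) τ') z).trans ?_
  refine mul_le_mul' ?_ le_rfl
  exact_mod_cast an_binC_card K J hK1' S j hj τ

/-! ## the iteration -/

/-- `banc K 0 k = k` -/
theorem an_aux_banc_zero (K : ℕ) (k : Fin n → ℤ) : banc K 0 k = k := by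
  funext i
  unfold banc
  simp

/-- the field of a fine bin -/
theorem an_aux_binF_top (K J : ℕ) (G : (Fin n → ℤ) → ST n → ℂ) (S : Finset (Fin n → ℤ)) (k : Fin n → ℤ) :
    binF K J G S J k = if k ∈ S then G k else fun _ => 0 := by
  classical
  funext y
  unfold binF
  rw [Nat.sub_self]
  simp only [an_aux_banc_zero]
  rw [Finset.sum_filter, Finset.sum_ite_eq']
  split_ifs <;> rfl

/-- the product of the step constants -/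
theorem an_aux_prod (a x D : ℝ≥0∞) (hx : 1 ≤ x) (hD : 1 ≤ D) (bad : Finset ℕ) (J Nb : ℕ) (hbad : bad.card ≤ Nb) :
    ∏ j ∈ Finset.Ico 0 J, a * (if j ∈ bad then x else D ^ 2) ≤ a ^ J * D ^ (2 * J) * x ^ Nb := by
  classical
  have hD2 : 1 ≤ D ^ 2 := one_le_pow₀ hD
  have h1 : ∀ j ∈ Finset.Ico 0 J, a * (if j ∈ bad then x else D ^ 2) ≤ a * D ^ 2 * (if j ∈ bad then x else 1) := by
    intro j _
    split_ifs
    · calc a * x = a * 1 * x := by ring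
        _ ≤ a * D ^ 2 * x := mul_le_mul' (mul_le_mul' le_rfl hD2) le_rfl
    · rw [mul_one]
  refine (Finset.prod_le_prod' h1).trans ?_
  rw [Finset.prod_mul_distrib, Finset.prod_const, Nat.card_Ico, Nat.sub_zero, Finset.prod_ite, Finset.prod_const, Finset.prod_const_one, mul_one, mul_pow,
    ← pow_mul]
  refine mul_le_mul' le_rfl (pow_le_pow_right₀ hx ?_)
  refine le_trans (Finset.card_le_card ?_) hbad
  intro j hj
  exact (Finset.mem_filter.1 hj).2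
/-- **L-AN-I13** (250 l.) **`J` STEPS.**  `bad` from `Chain`;  `c j = ofReal A * (if j ∈ bad then K^n else Dg²)`, `A ≥ 1` the max of the two step constants.  Induction on `r ≤ J`:
`∀ τ, anPsi … S (J - r) τ ≤ (∏ j ∈ Finset.Ico (J - r) J, c j) * ∑ k ∈ S.filter (banc K r k = τ), anPsi … S J k`  (`r = 0`: `banc K 0 k = k`, the filter is `{τ}` or `∅`, `an_phi_zero`; step: `an_step_good/bad`, `an_bin_sum_split`).
`anPsi … S J k = anPhi … (G k)` for `k ∈ S` (`binF … J k = G k`).   `∏ c j ≤ A^J Dg^{2J} (K^n)^{Nb}` (`1 ≤ Dg`, `1 ≤ K`, `bad.card ≤ Nb`). -/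
theorem an_iter (n : ℕ) (bb Ew C C₁ : ℝ) (hb0 : 0 < bb) (hb1 : bb < 1) (hE : (n : ℝ) + 2 ≤ Ew) (hC : 1 ≤ C) (hC₁ : 0 ≤ C₁) :
    ∃ A K₀ : ℝ, ∀ (K J Nb : ℕ) (S : Finset (Fin n → ℤ)) (G : (Fin n → ℤ) → ST n → ℂ) (ν : Measure (ST n)) [SFinite ν] (Dg : ℝ≥0∞) (τ₀ : Fin n → ℤ),
      K₀ ≤ (K : ℝ) → BinFam C K J S G → SDec n (2 / (1 - bb)) (7 * anCr n C C₁) (K : ℝ)⁻¹ Dg → 1 ≤ Dg → Chain K J C₁ Nb S →
      anPsi bb Ew K J G ν S 0 τ₀ ≤ ENNReal.ofReal (A ^ J) * Dg ^ (2 * J) * ((K : ℝ≥0∞) ^ n) ^ Nb *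
        ∑ k ∈ S.filter (fun k => banc K J k = τ₀), anPhi bb Ew 2 (-bcen ((K : ℝ) ^ J) k) (lvA K J) (lvB K J) (G k) ν := by
  classical
  obtain ⟨Ag, Kg, hg⟩ := an_step_good n bb Ew C C₁ hb0 hb1 hE hC hC₁
  obtain ⟨Ab, Kb, hb⟩ := an_step_bad n bb Ew C C₁ hb0 hb1 hE hC hC₁
  refine ⟨max 1 (max Ag Ab), max 1 (max Kg Kb), fun K J Nb S G ν _ Dg τ₀ hK hG hD hDg hch => ?_⟩
  obtain ⟨A, hA⟩ : ∃ A : ℝ, A = max 1 (max Ag Ab) := ⟨_, rfl⟩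
  rw [← hA]
  have hA0 : 0 ≤ A := by
    rw [hA]
    exact zero_le_one.trans (le_max_left _ _)
  have hAg : Ag ≤ A := by
    rw [hA]
    exact (le_max_left _ _).trans (le_max_right _ _)
  have hAb : Ab ≤ A := by
    rw [hA]
    exact (le_max_right _ _).trans (le_max_right _ _)
  have hK1 : (1 : ℝ) ≤ K := (le_max_left _ _).trans hK
  have hK1' : 1 ≤ K := by exact_mod_cast hK1
  have hKg : Kg ≤ K := ((le_max_left _ _).trans (le_max_right _ _)).trans hK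
  have hKb : Kb ≤ K := ((le_max_right _ _).trans (le_max_right _ _)).trans hK
  obtain ⟨bad, hbad, hgood⟩ := hch
  obtain ⟨c, hc⟩ : ∃ c : ℕ → ℝ≥0∞, c = fun j => ENNReal.ofReal A * (if j ∈ bad then (K : ℝ≥0∞) ^ n else Dg ^ 2) := ⟨_, rfl⟩
  -- one step
  have step : ∀ j < J, ∀ τ, anPsi bb Ew K J G ν S j τ ≤ c j * ∑ τ' ∈ binC K J S j τ, anPsi bb Ew K J G ν S (j + 1) τ' := by
    intro j hj τ
    rw [hc]
    simp only
    split_ifs with hjb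
    · exact (hb K J S G ν j τ hKb hj hG).trans (mul_le_mul' (mul_le_mul' (ENNReal.ofReal_le_ofReal hAb) le_rfl) le_rfl)
    · exact (hg K J S G ν Dg j τ hKg hj hG hD (hgood j hj hjb τ)).trans (mul_le_mul' (mul_le_mul' (ENNReal.ofReal_le_ofReal hAg) le_rfl) le_rfl)
  -- the induction
  have ind : ∀ r, r ≤ J → ∀ τ, anPsi bb Ew K J G ν S (J - r) τ
      ≤ (∏ j ∈ Finset.Ico (J - r) J, c j) * ∑ k ∈ S.filter (fun k => banc K r k = τ), anPsi bb Ew K J G ν S J k := by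
    intro r
    induction r with
    | zero =>
      intro _ τ
      rw [Nat.sub_zero, Finset.Ico_self, Finset.prod_empty, one_mul]
      simp only [an_aux_banc_zero]
      rw [Finset.sum_filter, Finset.sum_ite_eq']
      split_ifs with hτ
      · exact le_rfl
      · unfold anPsi
        rw [an_aux_binF_top, if_neg hτ, an_phi_zero hb0 hb1]
    | succ r ih =>
      intro hr τ
      have ih' := ih (by omega)
      obtain ⟨j, hjd⟩ : ∃ j, j = J - (r + 1) := ⟨_, rfl⟩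
      have hj : j < J := by omega
      have e1 : J - r = j + 1 := by omega
      have e2 : r + 1 = J - j := by omega
      have e3 : r = J - (j + 1) := by omega
      rw [e1] at ih'
      rw [← hjd, Finset.prod_eq_prod_Ico_succ_bot hj, e2, an_bin_sum_split K J _ S j hj τ, ← e3]
      calc anPsi bb Ew K J G ν S j τ ≤ c j * ∑ τ' ∈ binC K J S j τ, anPsi bb Ew K J G ν S (j + 1) τ' := step j hj τ
        _ ≤ c j * ∑ τ' ∈ binC K J S j τ, ((∏ j ∈ Finset.Ico (j + 1) J, c j) * ∑ k ∈ S.filter (fun k => banc K r k = τ'), anPsi bb Ew K J G ν S J k) :=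
            mul_le_mul' le_rfl (Finset.sum_le_sum fun τ' _ => ih' τ')
        _ = _ := by
            rw [← Finset.mul_sum, mul_assoc]
  have h1 := ind J le_rfl τ₀
  rw [Nat.sub_self] at h1
  have h2 : ∑ k ∈ S.filter (fun k => banc K J k = τ₀), anPsi bb Ew K J G ν S J k
      = ∑ k ∈ S.filter (fun k => banc K J k = τ₀), anPhi bb Ew 2 (-bcen ((K : ℝ) ^ J) k) (lvA K J) (lvB K J) (G k) ν := by
    refine Finset.sum_congr rfl fun k hk => ?_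
    unfold anPsi
    rw [an_aux_binF_top, if_pos (Finset.mem_filter.1 hk).1]
  rw [h2] at h1
  refine h1.trans (mul_le_mul' ?_ le_rfl)
  have hKn : (1 : ℝ≥0∞) ≤ (K : ℝ≥0∞) ^ n := one_le_pow₀ (by exact_mod_cast hK1')
  have h3 := an_aux_prod (ENNReal.ofReal A) ((K : ℝ≥0∞) ^ n) Dg hKn hDg bad J Nb hbad
  rw [ENNReal.ofReal_pow hA0, hc]
  exact h3

/-! ## the engine -/

theorem an_cap_ball {C R : ℝ} (hC : 1 ≤ C) (hR : 1 ≤ R) (v : E n) (hv : ‖v‖ ≤ C) :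
    BD.cap v (C / R) (C / R ^ 2) ⊆ closedBall (0 : ST n) (6 * C ^ 2) := by
  have hR0 : 0 < R := by linarith
  have hC0 : 0 < C := by linarith
  have ha : C / R ≤ C := div_le_self hC0.le hR
  have hb : C / R ^ 2 ≤ C := div_le_self hC0.le (one_le_pow₀ hR)
  have ha0 : 0 ≤ C / R := by positivity
  have hb0 : 0 ≤ C / R ^ 2 := by positivity
  refine (BD.cap_subset_ball v ha0 hb0).trans (closedBall_subset_closedBall' ?_)
  rw [dist_zero_right, Prod.norm_def]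
  have h1 : max ‖v‖ ‖‖v‖ ^ 2‖ ≤ C ^ 2 := by
    apply max_le
    · nlinarith
    · rw [Real.norm_of_nonneg (by positivity)]
      exact pow_le_pow_left₀ (norm_nonneg _) hv 2
  have h2 : C / R * (2 * ‖v‖ + C / R) ≤ C * (2 * C + C) :=
    mul_le_mul ha (by linarith) (by positivity) hC0.le
  simp only at h1 ⊢
  nlinarith

/-- **L-AN-I14** (200 l.) start at one unit bin: `an_start` (`binF … 0 τ₀ ∈ FS (closedBall 0 C')`: `BD.FS.sum`, `BD.cap_subset_ball`, `C' = 6 C²`), then `an_coarsen` from `(0,1,1)`, radius `1`, to `(-bcen 1 τ₀, K⁻², K⁻²)`: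
`an_lam_cmp` with `q₁ = q₂ = K²`, `κ = K²/(1+Cv)`, `Cv = 2(C+√n)`, `1 + 1/κ ≤ 2`.   If no `k ∈ S` has `banc K J k = τ₀` the field is `0` and the left side vanishes; otherwise `‖bcen 1 τ₀‖ ≤ C + √n` (`an_bin_cen`, `j = 0`). -/
theorem an_start0 (n : ℕ) (bb Ew C : ℝ) (hb0 : 0 < bb) (hb1 : bb < 1) (hE : (n : ℝ) + 2 ≤ Ew) (hC : 1 ≤ C) :
    ∃ A K₀ : ℝ, ∀ (K J : ℕ) (S : Finset (Fin n → ℤ)) (G : (Fin n → ℤ) → ST n → ℂ) (ν : Measure (ST n)) [SFinite ν] (ϰ : ℝ≥0∞) (τ₀ : Fin n → ℤ),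
      K₀ ≤ (K : ℝ) → BinFam C K J S G → (∀ z, ν (closedBall z 1) ≤ ϰ) →
      ∫⁻ z, ‖binF K J G S 0 τ₀ z‖ₑ ^ 2 ∂ν ≤ ENNReal.ofReal A * ϰ ^ (1 - bb) * anPsi bb Ew K J G ν S 0 τ₀ := by
  set Cv : ℝ := 2 * (C + Real.sqrt n) with hCv
  have hCv0 : 0 ≤ Cv := by positivity
  have hc0 : 0 < 1 + Cv := by linarith
  obtain ⟨A₁, hA₁⟩ := an_start n bb Ew (6 * C ^ 2) hb0 hb1 (by linarith)
  obtain ⟨A₂, hA₂⟩ := an_coarsen n bb Ew 1 ((1 + Cv) ^ Ew) hb0 hb1 (by linarith) one_pos (by positivity)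
  refine ⟨max A₁ 0 * max A₂ 0, 1 + Cv, fun K J S G ν _ ϰ τ₀ hK hG hϰ => ?_⟩
  have hK1 : (1 : ℝ) ≤ K := by linarith
  have hK0 : (0 : ℝ) < K := by linarith
  have hKn : 1 ≤ K := by exact_mod_cast hK1
  have hR1 : (1 : ℝ) ≤ (K : ℝ) ^ J := one_le_pow₀ hK1
  set F := binF K J G S 0 τ₀ with hF
  by_cases hemp : S.filter (fun k => banc K (J - 0) k = τ₀) = ∅
  · have hF0 : ∀ z, F z = 0 := by
      intro z
      rw [hF]
      unfold binF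
      rw [hemp, Finset.sum_empty]
    simp [hF0]
  obtain ⟨k₀, hk₀⟩ := Finset.nonempty_iff_ne_empty.2 hemp
  obtain ⟨hk₀S, hk₀τ⟩ := Finset.mem_filter.1 hk₀
  have hFS : BD.FS (closedBall 0 (6 * C ^ 2)) F := by
    rw [hF]
    unfold binF
    refine BD.FS.sum _ fun k hk => ?_
    have hkS := (Finset.mem_filter.1 hk).1
    exact (hG.fs k hkS).mono (an_cap_ball hC hR1 _ (by rw [norm_neg]; exact hG.bdd k hkS))
  have hFc : Continuous F := hFS.continuous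
  set u' : E n := -bcen ((K : ℝ) ^ 0) τ₀ with hu'
  have hu'n : ‖u'‖ ≤ C + Real.sqrt n := by
    rw [hu', norm_neg]
    have h1 := an_bin_cen K J 0 hKn (Nat.zero_le _) k₀
    rw [hk₀τ, pow_zero, div_one] at h1
    rw [pow_zero]
    have h2 := hG.bdd k₀ hk₀S
    have h3 := norm_sub_norm_le (bcen 1 τ₀) (bcen ((K : ℝ) ^ J) k₀)
    linarith
  have ha' : 0 < lvA K 0 := by
    unfold lvA
    positivity
  have hb' : 0 < lvB K 0 := by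
    unfold lvB
    positivity
  have eA : (K : ℝ) ^ 2 * lvA K 0 = 1 := by
    unfold lvA
    rw [pow_zero]
    field_simp
  have eB : (K : ℝ) ^ 2 * lvB K 0 = 1 := by
    unfold lvB
    rw [pow_zero]
    field_simp
  have hκ : 0 < (K : ℝ) ^ 2 / (1 + Cv) := by positivity
  have hcmp : ∀ w, (K : ℝ) ^ 2 / (1 + Cv) * ‖BD.Lam u' (lvA K 0) (lvB K 0) w‖ ≤ ‖BD.Lam (0 : E n) 1 1 w‖ := by
    intro w
    have h := an_lam_cmp 0 u' (lvA K 0) (lvB K 0) ((K : ℝ) ^ 2) ((K : ℝ) ^ 2) Cv ha' hb' (by positivity) le_rfl hCv0 ?_ w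
    · rwa [eA, eB] at h
    · have e1 : (K : ℝ) ^ 2 * lvA K 0 / lvB K 0 = (K : ℝ) ^ 2 := by
        unfold lvA lvB
        rw [pow_zero]
        field_simp
      rw [e1, zero_sub, norm_neg]
      calc 2 * (K : ℝ) ^ 2 * ‖u'‖ ≤ 2 * (K : ℝ) ^ 2 * (C + Real.sqrt n) := mul_le_mul_of_nonneg_left hu'n (by positivity)
        _ = _ := by rw [hCv]; ring
  have hvol : (1 : ℝ) ^ n * 1 ≤ (1 + Cv) ^ Ew * ((K : ℝ) ^ 2 / (1 + Cv)) ^ Ew * (lvA K 0 ^ n * lvB K 0) := by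
    have e2 : (1 + Cv) ^ Ew * ((K : ℝ) ^ 2 / (1 + Cv)) ^ Ew = ((K : ℝ) ^ 2) ^ Ew := by
      rw [← Real.mul_rpow hc0.le hκ.le, mul_div_cancel₀ _ hc0.ne']
    have e3 : (1 : ℝ) ^ n * 1 = ((K : ℝ) ^ 2) ^ (n + 1) * (lvA K 0 ^ n * lvB K 0) := by
      calc (1 : ℝ) ^ n * 1 = ((K : ℝ) ^ 2 * lvA K 0) ^ n * ((K : ℝ) ^ 2 * lvB K 0) := by rw [eA, eB]
        _ = _ := by rw [mul_pow, pow_succ]; ring
    have h4 : ((K : ℝ) ^ 2) ^ (n + 1) ≤ ((K : ℝ) ^ 2) ^ Ew := by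
      rw [← Real.rpow_natCast]
      refine Real.rpow_le_rpow_of_exponent_le (one_le_pow₀ hK1) ?_
      push_cast
      linarith
    rw [e2, e3]
    exact mul_le_mul_of_nonneg_right h4 (by positivity)
  have h5 := hA₂ 0 u' 1 1 (lvA K 0) (lvB K 0) ((K : ℝ) ^ 2 / (1 + Cv)) F ν one_pos one_pos ha' hb' hκ hcmp hvol hFc
  have h6 : anPhi bb Ew (1 + 1 / ((K : ℝ) ^ 2 / (1 + Cv))) u' (lvA K 0) (lvB K 0) F ν ≤ anPhi bb Ew 2 u' (lvA K 0) (lvB K 0) F ν := by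
    refine an_phi_mono_r hb0.le Ew ?_ u' _ _ F ν
    have h7 : 1 / ((K : ℝ) ^ 2 / (1 + Cv)) ≤ 1 := by
      rw [div_le_one hκ, le_div_iff₀ hc0, one_mul]
      nlinarith
    linarith
  have h8 := hA₁ F ν ϰ hFS hϰ
  have e8 : ∀ x : ℝ, ENNReal.ofReal (max x 0) = ENNReal.ofReal x := by
    intro x
    rcases le_total x 0 with h | h
    · rw [max_eq_right h, ENNReal.ofReal_zero, ENNReal.ofReal_of_nonpos h]
    · rw [max_eq_left h]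
  calc ∫⁻ z, ‖F z‖ₑ ^ 2 ∂ν ≤ ENNReal.ofReal A₁ * ϰ ^ (1 - bb) * anPhi bb Ew 1 0 1 1 F ν := h8
    _ ≤ ENNReal.ofReal A₁ * ϰ ^ (1 - bb) * (ENNReal.ofReal A₂ * anPhi bb Ew 2 u' (lvA K 0) (lvB K 0) F ν) :=
        mul_le_mul_right (h5.trans (mul_le_mul_right h6 _)) _
    _ = _ := by
        rw [ENNReal.ofReal_mul (le_max_right _ _), e8, e8]
        unfold anPsi
        ring

/-- **L-AN-I15** (80 l.) the number of unit bins: `‖bcen R k‖ ≤ C` ⟹ `banc K J k i ∈ [-C-1, C+1]`. -/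
theorem an_unit_bins (C : ℝ) (hC : 0 ≤ C) (K J : ℕ) (hK : 1 ≤ K) (S : Finset (Fin n → ℤ)) (hS : ∀ k ∈ S, ‖bcen ((K : ℝ) ^ J) k‖ ≤ C) :
    ((S.image (banc K J)).card : ℝ) ≤ (2 * C + 3) ^ n := by
  have hK0 : (0 : ℝ) < K := by exact_mod_cast hK
  have hc : (0 : ℤ) < (K : ℤ) ^ J := by
    have : (0 : ℤ) < (K : ℤ) := by exact_mod_cast hK
    positivity
  have hR : (0 : ℝ) < (K : ℝ) ^ J := by positivity
  have hsub : S.image (banc K J) ⊆ Fintype.piFinset (fun _ : Fin n => Finset.Icc ⌈-C - 1⌉ ⌊C⌋) := by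
    intro τ hτ
    obtain ⟨k, hk, rfl⟩ := Finset.mem_image.1 hτ
    rw [Fintype.mem_piFinset]
    intro i
    have h1 : ‖(bcen ((K : ℝ) ^ J) k) i‖ ≤ C := (PiLp.norm_apply_le _ i).trans (hS k hk)
    have e : (bcen ((K : ℝ) ^ J) k) i = ((k i : ℝ) + 1 / 2) / (K : ℝ) ^ J := rfl
    rw [e, Real.norm_eq_abs, abs_div, abs_of_pos hR, div_le_iff₀ hR, abs_le] at h1
    have a1 := Int.emod_add_mul_ediv (k i) ((K : ℤ) ^ J)
    have b1 := Int.emod_nonneg (k i) hc.ne'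
    have b2 := Int.emod_lt_of_pos (k i) hc
    obtain ⟨ρ, hρ⟩ : ∃ ρ : ℤ, ρ = k i % (K : ℤ) ^ J := ⟨_, rfl⟩
    obtain ⟨q, hq⟩ : ∃ q : ℤ, q = k i / (K : ℤ) ^ J := ⟨_, rfl⟩
    rw [← hρ, ← hq] at a1
    rw [← hρ] at b1 b2
    have a1' : (k i : ℝ) = (ρ : ℝ) + (K : ℝ) ^ J * q := by
      rw [← a1]
      push_cast
      ring
    have b1' : (0 : ℝ) ≤ ρ := by exact_mod_cast b1
    have b2' : (ρ : ℝ) + 1 ≤ (K : ℝ) ^ J := by
      have : ρ + 1 ≤ (K : ℤ) ^ J := b2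
      exact_mod_cast this
    have e2 : banc K J k i = q := hq.symm
    rw [e2, Finset.mem_Icc, Int.ceil_le, Int.le_floor]
    constructor
    · have : (-C - 1) * (K : ℝ) ^ J ≤ q * (K : ℝ) ^ J := by nlinarith [h1.1]
      exact le_of_mul_le_mul_right this hR
    · have : (q : ℝ) * (K : ℝ) ^ J ≤ C * (K : ℝ) ^ J := by nlinarith [h1.2]
      exact le_of_mul_le_mul_right this hR
  have hcard : ((Finset.Icc ⌈-C - 1⌉ ⌊C⌋).card : ℝ) ≤ 2 * C + 3 := by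
    rw [Int.card_Icc]
    rcases le_total (⌊C⌋ + 1 - ⌈-C - 1⌉) 0 with h | h
    · rw [Int.toNat_of_nonpos h]
      simp only [Nat.cast_zero]
      linarith
    · have e : (((⌊C⌋ + 1 - ⌈-C - 1⌉).toNat : ℤ) : ℝ) = ((⌊C⌋ + 1 - ⌈-C - 1⌉ : ℤ) : ℝ) := by
        rw [Int.toNat_of_nonneg h]
      rw [Int.cast_natCast] at e
      rw [e]
      push_cast
      have h1 := Int.floor_le C
      have h2 := Int.le_ceil (-C - 1)
      linarith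
  calc ((S.image (banc K J)).card : ℝ) ≤ ((Fintype.piFinset (fun _ : Fin n => Finset.Icc ⌈-C - 1⌉ ⌊C⌋)).card : ℝ) := by
        exact_mod_cast Finset.card_le_card hsub
    _ = ((Finset.Icc ⌈-C - 1⌉ ⌊C⌋).card : ℝ) ^ n := by
        rw [Fintype.card_piFinset]
        simp
    _ ≤ _ := pow_le_pow_left₀ (Nat.cast_nonneg _) hcard n

/-- **L-AN-I16** (60 l.) the plank of the last level has diameter `≲ R² K² ≤ R⁴`. -/
theorem an_plank_last (C : ℝ) (hC : 0 ≤ C) (K J : ℕ) (hK : 1 ≤ K) (hJ : 1 ≤ J) (u : E n) (hu : ‖u‖ ≤ C) (y : ST n)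
    (hy : ‖BD.Lam u (lvA K J) (lvB K J) y‖ ≤ 2) : ‖y‖ ≤ (2 + 4 * C) * ((K : ℝ) ^ J) ^ 4 := by
  have hK1 : (1 : ℝ) ≤ K := by exact_mod_cast hK
  have hK0 : (0 : ℝ) < K := by linarith
  set R : ℝ := (K : ℝ) ^ J with hR
  have hKR : (K : ℝ) ≤ R := le_self_pow₀ hK1 (by omega)
  have hR1 : 1 ≤ R := hK1.trans hKR
  have hR0 : 0 < R := by linarith
  have h1 : ‖(BD.Lam u (lvA K J) (lvB K J) y).1‖ ≤ 2 := (norm_fst_le _).trans hy
  have h2 : ‖(BD.Lam u (lvA K J) (lvB K J) y).2‖ ≤ 2 := (norm_snd_le _).trans hy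
  unfold BD.Lam lvA lvB at h1 h2
  simp only at h1 h2
  rw [← hR] at h1 h2
  have ha : 0 < R⁻¹ * ((K : ℝ)⁻¹) ^ 2 := by positivity
  have hb : 0 < (R⁻¹) ^ 2 * ((K : ℝ)⁻¹) ^ 2 := by positivity
  rw [norm_smul, Real.norm_of_nonneg ha.le] at h1
  rw [Real.norm_eq_abs, abs_mul, abs_of_pos hb] at h2
  have hK2 : (K : ℝ) ^ 2 ≤ R ^ 2 := pow_le_pow_left₀ hK0.le hKR 2
  have h3 : |y.2| ≤ 2 * R ^ 4 := by
    have e : |y.2| = (R ^ 2 * (K : ℝ) ^ 2) * ((R⁻¹) ^ 2 * ((K : ℝ)⁻¹) ^ 2 * |y.2|) := by field_simp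
    rw [e]
    calc (R ^ 2 * (K : ℝ) ^ 2) * ((R⁻¹) ^ 2 * ((K : ℝ)⁻¹) ^ 2 * |y.2|) ≤ (R ^ 2 * (K : ℝ) ^ 2) * 2 :=
          mul_le_mul_of_nonneg_left h2 (by positivity)
      _ ≤ (R ^ 2 * R ^ 2) * 2 := by gcongr
      _ = _ := by ring
  have h4 : ‖y.1 + (2 * y.2) • u‖ ≤ 2 * R ^ 4 := by
    have e : ‖y.1 + (2 * y.2) • u‖ = (R * (K : ℝ) ^ 2) * (R⁻¹ * ((K : ℝ)⁻¹) ^ 2 * ‖y.1 + (2 * y.2) • u‖) := by field_simp
    rw [e]
    calc (R * (K : ℝ) ^ 2) * (R⁻¹ * ((K : ℝ)⁻¹) ^ 2 * ‖y.1 + (2 * y.2) • u‖) ≤ (R * (K : ℝ) ^ 2) * 2 :=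
          mul_le_mul_of_nonneg_left h1 (by positivity)
      _ ≤ (R * R ^ 2) * 2 := by gcongr
      _ = 2 * (R ^ 3 * 1) := by ring
      _ ≤ 2 * (R ^ 3 * R) := by gcongr
      _ = _ := by ring
  have h5 : ‖y.1‖ ≤ (2 + 4 * C) * R ^ 4 := by
    have e : y.1 = (y.1 + (2 * y.2) • u) - (2 * y.2) • u := by abel
    rw [e]
    refine (norm_sub_le _ _).trans ?_
    have h6 : ‖(2 * y.2) • u‖ ≤ 4 * C * R ^ 4 := by
      rw [norm_smul, Real.norm_eq_abs, abs_mul, abs_of_pos (by norm_num : (0:ℝ) < 2)]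
      calc 2 * |y.2| * ‖u‖ ≤ 2 * (2 * R ^ 4) * C := by gcongr
        _ = _ := by ring
    linarith
  have h7 : |y.2| ≤ (2 + 4 * C) * R ^ 4 := by
    have : 0 ≤ 4 * C * R ^ 4 := by positivity
    linarith
  rw [Prod.norm_def]
  exact max_le h5 h7

theorem an_cs_enorm {ι : Type*} (s : Finset ι) (f : ι → ℂ) : ‖∑ i ∈ s, f i‖ₑ ^ 2 ≤ (s.card : ℝ≥0∞) * ∑ i ∈ s, ‖f i‖ₑ ^ 2 := by
  have h1 : ‖∑ i ∈ s, f i‖ₑ ≤ ∑ i ∈ s, ‖f i‖ₑ := enorm_sum_le _ _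
  have h2 := ENNReal.rpow_sum_le_const_mul_sum_rpow s (fun i => ‖f i‖ₑ) (p := 2) (by norm_num)
  have h21 : (2 : ℝ) - 1 = 1 := by norm_num
  rw [h21, ENNReal.rpow_one] at h2
  simp only [ENNReal.rpow_two] at h2
  exact (pow_le_pow_left₀ (zero_le) h1 2).trans h2

/-- one class -/
theorem an_engine_class (n : ℕ) (bb Ew C C₁ : ℝ) (hb0 : 0 < bb) (hb1 : bb < 1) (hE : (n : ℝ) + 2 ≤ Ew) (hC : 1 ≤ C) (hC₁ : 0 ≤ C₁) :
    ∃ A₁ A₂ K₀ : ℝ, 1 ≤ K₀ ∧ ∀ (K J Nb : ℕ) (S : Finset (Fin n → ℤ)) (G : (Fin n → ℤ) → ST n → ℂ) (μ : Measure (ST n)) [SFinite μ] (ϰ Dg : ℝ≥0∞),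
      K₀ ≤ (K : ℝ) → BinFam C K J S G → (∀ z, μ (closedBall z 1) ≤ ϰ) → SDec n (2 / (1 - bb)) (7 * anCr n C C₁) (K : ℝ)⁻¹ Dg → 1 ≤ Dg →
      Chain K J C₁ Nb S →
      ∫⁻ z, ‖∑ k ∈ S, G k z‖ₑ ^ 2 ∂μ ≤
        ENNReal.ofReal A₁ * ENNReal.ofReal (A₂ ^ J) * ϰ ^ (1 - bb) * Dg ^ (2 * J) * ((K : ℝ≥0∞) ^ n) ^ Nb *
          ∑ k ∈ S, anPhi bb Ew 2 (-bcen ((K : ℝ) ^ J) k) (lvA K J) (lvB K J) (G k) μ := by
  obtain ⟨As, Ks, hs⟩ := an_start0 n bb Ew C hb0 hb1 hE hC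
  obtain ⟨Ai, Ki, hi⟩ := an_iter n bb Ew C C₁ hb0 hb1 hE hC hC₁
  refine ⟨(2 * C + 3) ^ n * max As 0, Ai, max 1 (max Ks Ki), le_max_left _ _, fun K J Nb S G μ _ ϰ Dg hK hG hϰ hD hDg hch => ?_⟩
  have hK1 : (1 : ℝ) ≤ K := (le_max_left _ _).trans hK
  have hKs : Ks ≤ K := ((le_max_left _ _).trans (le_max_right _ _)).trans hK
  have hKi : Ki ≤ K := ((le_max_right _ _).trans (le_max_right _ _)).trans hK
  have hKn : 1 ≤ K := by exact_mod_cast hK1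
  set T := S.image (banc K J) with hT
  set φ : (Fin n → ℤ) → ℝ≥0∞ := fun k => anPhi bb Ew 2 (-bcen ((K : ℝ) ^ J) k) (lvA K J) (lvB K J) (G k) μ with hφ
  have hmaps : ∀ k ∈ S, banc K J k ∈ T := fun k hk => Finset.mem_image_of_mem _ hk
  have e1 : ∀ z, ∑ k ∈ S, G k z = ∑ τ ∈ T, binF K J G S 0 τ z := by
    intro z
    exact (Finset.sum_fiberwise_of_maps_to hmaps (fun k => G k z)).symm
  have hcard : (T.card : ℝ≥0∞) ≤ ENNReal.ofReal ((2 * C + 3) ^ n) := by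
    rw [← ENNReal.ofReal_natCast]
    exact ENNReal.ofReal_le_ofReal (an_unit_bins C (by linarith) K J hKn S hG.bdd)
  have e8 : ENNReal.ofReal (max As 0) = ENNReal.ofReal As := by
    rcases le_total As 0 with h | h
    · rw [max_eq_right h, ENNReal.ofReal_zero, ENNReal.ofReal_of_nonpos h]
    · rw [max_eq_left h]
  set cI : ℝ≥0∞ := ENNReal.ofReal (Ai ^ J) * Dg ^ (2 * J) * ((K : ℝ≥0∞) ^ n) ^ Nb with hcI
  have h2 : ∀ τ ∈ T, ∫⁻ z, ‖binF K J G S 0 τ z‖ₑ ^ 2 ∂μ ≤ ENNReal.ofReal As * ϰ ^ (1 - bb) * (cI * ∑ k ∈ S.filter (fun k => banc K J k = τ), φ k) := by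
    intro τ _
    exact (hs K J S G μ ϰ τ hKs hG hϰ).trans (mul_le_mul_right (hi K J Nb S G μ Dg τ hKi hG hD hDg hch) _)
  calc ∫⁻ z, ‖∑ k ∈ S, G k z‖ₑ ^ 2 ∂μ
      ≤ ∫⁻ z, (T.card : ℝ≥0∞) * ∑ τ ∈ T, ‖binF K J G S 0 τ z‖ₑ ^ 2 ∂μ := by
        refine lintegral_mono fun z => ?_
        rw [e1 z]
        exact an_cs_enorm T _
    _ = (T.card : ℝ≥0∞) * ∑ τ ∈ T, ∫⁻ z, ‖binF K J G S 0 τ z‖ₑ ^ 2 ∂μ := by
        rw [lintegral_const_mul' _ _ (ENNReal.natCast_ne_top _), lintegral_finsetSum]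
        intro τ _
        exact (hG.cont 0 τ).measurable.enorm.pow_const 2
    _ ≤ ENNReal.ofReal ((2 * C + 3) ^ n) * ∑ τ ∈ T, ENNReal.ofReal As * ϰ ^ (1 - bb) * (cI * ∑ k ∈ S.filter (fun k => banc K J k = τ), φ k) :=
        mul_le_mul' hcard (Finset.sum_le_sum h2)
    _ = ENNReal.ofReal ((2 * C + 3) ^ n) * (ENNReal.ofReal As * ϰ ^ (1 - bb) * (cI * ∑ k ∈ S, φ k)) := by
        rw [← Finset.mul_sum, ← Finset.mul_sum, Finset.sum_fiberwise_of_maps_to hmaps φ]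
    _ = _ := by
        rw [ENNReal.ofReal_mul (by positivity), e8, hcI]
        ring

/-- finitely many disjoint classes -/
theorem an_engine_sum {N' : ℕ} (𝔅 : Finset (Fin n → ℤ)) (G : (Fin n → ℤ) → ST n → ℂ) (hGc : ∀ k ∈ 𝔅, Continuous (G k)) (μ : Measure (ST n))
    (Sc : ℕ → Finset (Fin n → ℤ)) (hsub : ∀ i, Sc i ⊆ 𝔅) (hdis : ∀ i i', i ≠ i' → Disjoint (Sc i) (Sc i'))
    (c : ℝ≥0∞) (φ : (Fin n → ℤ) → ℝ≥0∞) (h : ∀ i, ∫⁻ z, ‖∑ k ∈ Sc i, G k z‖ₑ ^ 2 ∂μ ≤ c * ∑ k ∈ Sc i, φ k) :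
    ∫⁻ z, ‖∑ i ∈ Finset.range N', ∑ k ∈ Sc i, G k z‖ₑ ^ 2 ∂μ ≤ ((min N' 𝔅.card : ℕ) : ℝ≥0∞) * (c * ∑ k ∈ 𝔅, φ k) := by
  classical
  set I := (Finset.range N').filter (fun i => (Sc i).Nonempty) with hI
  have hpd : (I : Set ℕ).PairwiseDisjoint Sc := fun i _ i' _ hne => hdis i i' hne
  have hU : I.biUnion Sc ⊆ 𝔅 := Finset.biUnion_subset.2 fun i _ => hsub i
  have hc1 : I.card ≤ N' := (Finset.card_filter_le _ _).trans (by rw [Finset.card_range])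
  have hc2 : I.card ≤ 𝔅.card := by
    calc I.card = ∑ _i ∈ I, 1 := by simp
      _ ≤ ∑ i ∈ I, (Sc i).card := Finset.sum_le_sum fun i hi => Finset.card_pos.2 (Finset.mem_filter.1 hi).2
      _ = (I.biUnion Sc).card := (Finset.card_biUnion hpd).symm
      _ ≤ 𝔅.card := Finset.card_le_card hU
  have hcard : (I.card : ℝ≥0∞) ≤ ((min N' 𝔅.card : ℕ) : ℝ≥0∞) := by exact_mod_cast le_min hc1 hc2
  have e1 : ∀ z, ∑ i ∈ Finset.range N', ∑ k ∈ Sc i, G k z = ∑ i ∈ I, ∑ k ∈ Sc i, G k z := by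
    intro z
    rw [hI, Finset.sum_filter_of_ne]
    intro i _ hne
    by_contra hemp
    rw [Finset.not_nonempty_iff_eq_empty] at hemp
    rw [hemp, Finset.sum_empty] at hne
    exact hne rfl
  calc ∫⁻ z, ‖∑ i ∈ Finset.range N', ∑ k ∈ Sc i, G k z‖ₑ ^ 2 ∂μ
      ≤ ∫⁻ z, (I.card : ℝ≥0∞) * ∑ i ∈ I, ‖∑ k ∈ Sc i, G k z‖ₑ ^ 2 ∂μ := by
        refine lintegral_mono fun z => ?_
        rw [e1 z]
        exact an_cs_enorm I _
    _ = (I.card : ℝ≥0∞) * ∑ i ∈ I, ∫⁻ z, ‖∑ k ∈ Sc i, G k z‖ₑ ^ 2 ∂μ := by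
        rw [lintegral_const_mul' _ _ (ENNReal.natCast_ne_top _), lintegral_finsetSum]
        intro i _
        exact (continuous_finsetSum _ fun k hk => hGc k (hsub i hk)).measurable.enorm.pow_const 2
    _ ≤ ((min N' 𝔅.card : ℕ) : ℝ≥0∞) * ∑ i ∈ I, c * ∑ k ∈ Sc i, φ k := mul_le_mul' hcard (Finset.sum_le_sum fun i _ => h i)
    _ = ((min N' 𝔅.card : ℕ) : ℝ≥0∞) * (c * ∑ k ∈ I.biUnion Sc, φ k) := by
        rw [← Finset.mul_sum, Finset.sum_biUnion hpd]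
    _ ≤ _ := mul_le_mul_right (mul_le_mul_right (Finset.sum_le_sum_of_subset hU) _) _

/-- **L-AN-I17** (350 l.) **THE ENGINE.**  Fix `κ`, `ν_κ = ν.restrict (cubeS (R⁴) κ)`.  `∑_{i<N'} ∑_{k ∈ Scl κ i} G k = ∑_i ∑_{τ₀} binF … (Scl κ i) 0 τ₀`, Cauchy-Schwarz over the NONEMPTY classes only: factor `min N' (card 𝔅) · N₀` (disjoint nonempty subsets of `𝔅`: at most `card 𝔅`), `N₀ = (2C+3)^n` (`an_unit_bins`);
`an_start0`, `an_iter` for `(Scl κ i, ν_κ)`;  `∑_i ∑_{τ₀} ∑_{k ∈ Scl κ i, banc K J k = τ₀} = ∑_i ∑_{k ∈ Scl κ i} ≤ ∑_{k ∈ 𝔅}` (disjointness);  `∑'_κ`: `an_recomb` with `ℓ = R⁴` (`an_plank_last`). -/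
theorem an_engine (n : ℕ) (bb Ew C C₁ : ℝ) (hb0 : 0 < bb) (hb1 : bb < 1) (hE : (n : ℝ) + 2 ≤ Ew) (hC : 1 ≤ C) (hC₁ : 0 ≤ C₁) :
    ∃ A K₀ : ℝ, ∀ (K J Nb N' : ℕ) (𝔅 : Finset (Fin n → ℤ)) (G : (Fin n → ℤ) → ST n → ℂ) (ν : Measure (ST n)) [SFinite ν] (ϰ Dg : ℝ≥0∞)
      (Scl : (Fin n → ℤ) × ℤ → ℕ → Finset (Fin n → ℤ)),
      K₀ ≤ (K : ℝ) → 1 ≤ J → BinFam C K J 𝔅 G → (∀ z, ν (closedBall z 1) ≤ ϰ) → SDec n (2 / (1 - bb)) (7 * anCr n C C₁) (K : ℝ)⁻¹ Dg → 1 ≤ Dg →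
      (∀ κ i, Scl κ i ⊆ 𝔅) → (∀ κ i, Chain K J C₁ Nb (Scl κ i)) → (∀ κ i i', i ≠ i' → Disjoint (Scl κ i) (Scl κ i')) →
      ∑' κ : (Fin n → ℤ) × ℤ, ∫⁻ z, ‖∑ i ∈ Finset.range N', ∑ k ∈ Scl κ i, G k z‖ₑ ^ 2 ∂(ν.restrict (cubeS (((K : ℝ) ^ J) ^ 4) κ)) ≤
        ENNReal.ofReal (A ^ (J + 1)) * ((min N' 𝔅.card : ℕ) : ℝ≥0∞) * ϰ ^ (1 - bb) * Dg ^ (2 * J) * ((K : ℝ≥0∞) ^ n) ^ Nb *
          ∑ k ∈ 𝔅, anPhi bb Ew 2 (-bcen ((K : ℝ) ^ J) k) (lvA K J) (lvB K J) (G k) ν := by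
  obtain ⟨A₁, A₂, K₀, hK₀, hcl⟩ := an_engine_class n bb Ew C C₁ hb0 hb1 hE hC hC₁
  obtain ⟨Ar, hr⟩ := an_recomb n bb (2 + 4 * C) hb0 hb1 (by linarith)
  set m₁ : ℝ := max 1 (|A₁| * |Ar|) with hm₁
  set m₂ : ℝ := max 1 |A₂| with hm₂
  have hm₁1 : 1 ≤ m₁ := le_max_left _ _
  have hm₂1 : 1 ≤ m₂ := le_max_left _ _
  refine ⟨m₁ * m₂, K₀, fun K J Nb N' 𝔅 G ν _ ϰ Dg Scl hK hJ hG hϰ hD hDg hsub hch hdis => ?_⟩
  have hK1 : (1 : ℝ) ≤ K := hK₀.trans hK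
  have hKn : 1 ≤ K := by exact_mod_cast hK1
  set ℓ : ℝ := ((K : ℝ) ^ J) ^ 4 with hℓ
  have hℓ0 : 0 < ℓ := by positivity
  set c : ℝ≥0∞ := ENNReal.ofReal A₁ * ENNReal.ofReal (A₂ ^ J) * ϰ ^ (1 - bb) * Dg ^ (2 * J) * ((K : ℝ≥0∞) ^ n) ^ Nb with hc
  set φ : Measure (ST n) → (Fin n → ℤ) → ℝ≥0∞ := fun μ k => anPhi bb Ew 2 (-bcen ((K : ℝ) ^ J) k) (lvA K J) (lvB K J) (G k) μ with hφ
  have hGc : ∀ k ∈ 𝔅, Continuous (G k) := fun k hk => (hG.fs k hk).continuous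
  have h1 : ∀ κ, ∫⁻ z, ‖∑ i ∈ Finset.range N', ∑ k ∈ Scl κ i, G k z‖ₑ ^ 2 ∂(ν.restrict (cubeS ℓ κ))
      ≤ ((min N' 𝔅.card : ℕ) : ℝ≥0∞) * (c * ∑ k ∈ 𝔅, φ (ν.restrict (cubeS ℓ κ)) k) := by
    intro κ
    refine an_engine_sum 𝔅 G hGc _ (Scl κ) (hsub κ) (hdis κ) c _ fun i => ?_
    exact hcl K J Nb (Scl κ i) G (ν.restrict (cubeS ℓ κ)) ϰ Dg hK (hG.subset (hsub κ i))
      (fun z => (Measure.restrict_apply_le _ _).trans (hϰ z)) hD hDg (hch κ i)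
  have h2 : ∀ k ∈ 𝔅, ∑' κ : (Fin n → ℤ) × ℤ, φ (ν.restrict (cubeS ℓ κ)) k ≤ ENNReal.ofReal Ar * φ ν k := by
    intro k hk
    refine hr Ew 2 (-bcen ((K : ℝ) ^ J) k) (lvA K J) (lvB K J) ℓ (G k) ν hℓ0 (fun y hy => ?_) (hGc k hk)
    exact an_plank_last C (by linarith) K J hKn hJ _ (by rw [norm_neg]; exact hG.bdd k hk) y hy
  have hconst : ENNReal.ofReal A₁ * ENNReal.ofReal (A₂ ^ J) * ENNReal.ofReal Ar ≤ ENNReal.ofReal ((m₁ * m₂) ^ (J + 1)) := by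
    have a1 : ENNReal.ofReal A₁ ≤ ENNReal.ofReal |A₁| := ENNReal.ofReal_le_ofReal (le_abs_self _)
    have a2 : ENNReal.ofReal Ar ≤ ENNReal.ofReal |Ar| := ENNReal.ofReal_le_ofReal (le_abs_self _)
    have a3 : ENNReal.ofReal (A₂ ^ J) ≤ ENNReal.ofReal (m₂ ^ J) := by
      apply ENNReal.ofReal_le_ofReal
      calc A₂ ^ J ≤ |A₂ ^ J| := le_abs_self _
        _ = |A₂| ^ J := abs_pow _ _
        _ ≤ m₂ ^ J := pow_le_pow_left₀ (abs_nonneg _) (le_max_right _ _) J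
    calc ENNReal.ofReal A₁ * ENNReal.ofReal (A₂ ^ J) * ENNReal.ofReal Ar
        ≤ ENNReal.ofReal |A₁| * ENNReal.ofReal (m₂ ^ J) * ENNReal.ofReal |Ar| := mul_le_mul' (mul_le_mul' a1 a3) a2
      _ = ENNReal.ofReal (|A₁| * m₂ ^ J * |Ar|) := by
          rw [← ENNReal.ofReal_mul (abs_nonneg _), ← ENNReal.ofReal_mul (by positivity)]
      _ ≤ _ := by
          apply ENNReal.ofReal_le_ofReal
          have b1 : |A₁| * |Ar| ≤ m₁ := le_max_right _ _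
          have b2 : m₁ ≤ m₁ ^ (J + 1) := le_self_pow₀ hm₁1 (by omega)
          have b3 : m₂ ^ J ≤ m₂ ^ (J + 1) := pow_le_pow_right₀ hm₂1 (by omega)
          calc |A₁| * m₂ ^ J * |Ar| = (|A₁| * |Ar|) * m₂ ^ J := by ring
            _ ≤ m₁ ^ (J + 1) * m₂ ^ (J + 1) := mul_le_mul (b1.trans b2) b3 (by positivity) (by positivity)
            _ = _ := by rw [mul_pow]
  calc ∑' κ : (Fin n → ℤ) × ℤ, ∫⁻ z, ‖∑ i ∈ Finset.range N', ∑ k ∈ Scl κ i, G k z‖ₑ ^ 2 ∂(ν.restrict (cubeS ℓ κ))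
      ≤ ∑' κ : (Fin n → ℤ) × ℤ, ((min N' 𝔅.card : ℕ) : ℝ≥0∞) * (c * ∑ k ∈ 𝔅, φ (ν.restrict (cubeS ℓ κ)) k) := ENNReal.tsum_le_tsum h1
    _ = ((min N' 𝔅.card : ℕ) : ℝ≥0∞) * (c * ∑ k ∈ 𝔅, ∑' κ : (Fin n → ℤ) × ℤ, φ (ν.restrict (cubeS ℓ κ)) k) := by
        rw [ENNReal.tsum_mul_left, ENNReal.tsum_mul_left, Summable.tsum_finsetSum fun _ _ => ENNReal.summable]
    _ ≤ ((min N' 𝔅.card : ℕ) : ℝ≥0∞) * (c * ∑ k ∈ 𝔅, ENNReal.ofReal Ar * φ ν k) :=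
        mul_le_mul_right (mul_le_mul_right (Finset.sum_le_sum h2) _) _
    _ = (ENNReal.ofReal A₁ * ENNReal.ofReal (A₂ ^ J) * ENNReal.ofReal Ar) * (((min N' 𝔅.card : ℕ) : ℝ≥0∞) * ϰ ^ (1 - bb) * Dg ^ (2 * J) * ((K : ℝ≥0∞) ^ n) ^ Nb *
          ∑ k ∈ 𝔅, φ ν k) := by
        rw [← Finset.mul_sum, hc]
        ring
    _ ≤ ENNReal.ofReal ((m₁ * m₂) ^ (J + 1)) * (((min N' 𝔅.card : ℕ) : ℝ≥0∞) * ϰ ^ (1 - bb) * Dg ^ (2 * J) * ((K : ℝ≥0∞) ^ n) ^ Nb *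
          ∑ k ∈ 𝔅, φ ν k) := mul_le_mul_left hconst _
    _ = _ := by ring

/-- Stores the on-demand equation lemmas of the definitions of THIS module here (rule 6 hygiene). -/
theorem an_iter_forced : True := by
  have := @lvA.eq_1
  have := @lvB.eq_1
  have := @binF.eq_1
  have := @anPsi.eq_1
  have := @binC.eq_1
  have := @anCr.eq_1
  trivial

end Claimed.Agent.R257
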