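import Claimed.Agent.R257.Ang.Resc

/-!
# R257 / Ang / Term : THE TERMINAL INDUCTION (H angular.tex l.162-195)      Mathlib + Infra/Defs + Weak/Defs + Ang/Resc.      (architect helper83)

`V = A'.fld s c`, array of scale `l` (the child array of one bin), `ν'` a measure with growth `m'`, total mass `≤ M₀`, masses of the cubes `Q_k = cubeS ρ₂ k` at most `m' dmax` (`ρ₂ = K²`), `h` an arbitrary lattice shift.   EXIT `an_term`:
 `∑_k ν'(Q_{k+h})^b sup_{Q_k} |V|² ≤ C ρ₂^n (C' Cind)^{2/p} m'^{b-1+2/p} l^{4n/p-2e} dmax^δ M₀^{1-2/p} E`,      `δ = b - 1 + 2a > 0`.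
PROOF.  `x_k ∈ Q_k` near maximiser.  Dyadic classes `m' d_i/2 < ν'(Q_{k+h}) ≤ m' d_i`, `d_i = 2^{-i} dmax`.  Moved measure `movM w x = ∑ w_k δ_{x_k}` of one class: growth `((√n+2)ρ₂)^n m'`, unit balls `≤ 2^{n+1} m' d_i`,
time range of the packets, tube moments with `D = 1` from growth (`an_tubeMom_of_grow`).  `WeakAt0` at all levels + layer cake (`an_layer`) ⟹ `an_term_class`.  Sum over the classes: `an_dyadic`.
-/

set_option autoImplicit false

namespace Claimed.Agent.R257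

open MeasureTheory Metric Set
open scoped ENNReal InnerProductSpace

variable {n : ℕ} {ι : Type}

/-! ## abstract lemmas -/

/-- the two explicit integrals of the layer cake. -/
theorem an_layer_int (p A M t₀ : ℝ) (hp : 2 < p) (hA : 0 ≤ A) (hM : 0 ≤ M) (ht : 0 < t₀) :
    (∫⁻ t in Ioc 0 t₀, ENNReal.ofReal (M * t)) = ENNReal.ofReal (M * t₀ ^ 2 / 2) ∧
    (∫⁻ t in Ioi t₀, ENNReal.ofReal (A * t ^ (1 - p))) = ENNReal.ofReal (A * t₀ ^ (2 - p) / (p - 2)) := by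
  constructor
  · rw [← ofReal_integral_eq_lintegral_ofReal]
    · congr 1
      rw [← intervalIntegral.integral_of_le ht.le, intervalIntegral.integral_const_mul, integral_id]
      ring
    · exact (continuous_const.mul continuous_id).integrableOn_Ioc
    · rw [Filter.EventuallyLE, ae_restrict_iff' measurableSet_Ioc]
      exact Filter.Eventually.of_forall fun t ht' => mul_nonneg hM ht'.1.le
  · rw [← ofReal_integral_eq_lintegral_ofReal]
    · congr 1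
      rw [integral_const_mul, integral_Ioi_rpow_of_lt (by linarith) ht]
      have e1 : 1 - p + 1 = 2 - p := by ring
      rw [e1]
      have h2 : (2 - p) ≠ 0 := by linarith
      have h3 : (p - 2) ≠ 0 := by linarith
      field_simp
      ring
    · exact (integrableOn_Ioi_rpow_of_lt (by linarith) ht).const_mul A
    · rw [Filter.EventuallyLE, ae_restrict_iff' measurableSet_Ioi]
      exact Filter.Eventually.of_forall fun t ht' => mul_nonneg hA (Real.rpow_nonneg (ht.trans ht').le _)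

/-- **L-AN-T1** (200 l.) weak `L^p` + mass ⟹ `L²` (H l.183-186).  `lintegral_rpow_eq_lintegral_meas_lt_mul` (or `..._le_mul`) with exponent `2`: `∫ f² = 2 ∫_0^∞ t ν{f > t} dt ≤ 2 ∫_0^{t₀} t M + 2 ∫_{t₀}^∞ A t^{1-p}`, `t₀ = (A/M)^{1/p}`.  Cases `A = 0`, `M = 0` by hand. -/
theorem an_layer {α : Type} [MeasurableSpace α] (ν : Measure α) (f : α → ℝ≥0∞) (hf : Measurable f) (p A M : ℝ) (hp : 2 < p) (hA : 0 ≤ A) (hM : 0 ≤ M)
    (hmass : ν univ ≤ ENNReal.ofReal M) (hw : ∀ t : ℝ, 0 < t → ν {x | ENNReal.ofReal t ≤ f x} ≤ ENNReal.ofReal (A * t ^ (-p))) :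
    ∫⁻ x, f x ^ 2 ∂ν ≤ ENNReal.ofReal (p / (p - 2) * A ^ (2 / p) * M ^ (1 - 2 / p)) := by
  -- `f < ∞` a.e.
  have htop : ν {x | f x = ∞} = 0 := by
    have h1 : Filter.Tendsto (fun t : ℝ => ENNReal.ofReal (A * t ^ (-p))) Filter.atTop (nhds 0) := by
      have := ((tendsto_rpow_neg_atTop (by linarith : 0 < p)).const_mul A)
      rw [mul_zero] at this
      simpa using ENNReal.tendsto_ofReal this
    have h2 : ν {x | f x = ∞} ≤ 0 := by
      refine ge_of_tendsto h1 ?_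
      filter_upwards [Filter.eventually_gt_atTop 0] with t ht
      refine (measure_mono ?_).trans (hw t ht)
      intro x hx
      rw [Set.mem_ofPred_eq] at hx ⊢
      rw [hx]
      exact le_top
    exact le_antisymm h2 zero_le
  set g : α → ℝ := fun x => (f x).toReal with hg
  have hgm : Measurable g := hf.ennreal_toReal
  have e1 : ∫⁻ x, f x ^ 2 ∂ν = ∫⁻ x, ENNReal.ofReal (g x ^ (2 : ℝ)) ∂ν := by
    refine lintegral_congr_ae ?_
    have : ∀ᵐ x ∂ν, f x ≠ ∞ := by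
      rw [ae_iff]
      simpa using htop
    filter_upwards [this] with x hx
    rw [Real.rpow_two, ENNReal.ofReal_pow ENNReal.toReal_nonneg, ENNReal.ofReal_toReal hx]
  rw [e1, lintegral_rpow_eq_lintegral_meas_lt_mul ν (Filter.Eventually.of_forall fun x => ENNReal.toReal_nonneg) hgm.aemeasurable
    (by norm_num : (0 : ℝ) < 2)]
  have hsub : ∀ t : ℝ, 0 < t → {a | t < g a} ⊆ {x | ENNReal.ofReal t ≤ f x} := by
    intro t ht x hx
    rw [Set.mem_ofPred_eq] at hx ⊢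
    by_cases hx' : f x = ∞
    · rw [hx']; exact le_top
    · exact ((ENNReal.ofReal_lt_iff_lt_toReal ht.le hx').2 hx).le
  have e21 : (2 : ℝ) - 1 = 1 := by norm_num
  have hb1 : ∀ t : ℝ, 0 < t → ν {a | t < g a} * ENNReal.ofReal (t ^ ((2 : ℝ) - 1)) ≤ ENNReal.ofReal (M * t) := by
    intro t ht
    rw [e21, Real.rpow_one, ENNReal.ofReal_mul hM]
    exact mul_le_mul_left ((measure_mono (subset_univ _)).trans hmass) _
  have hb2 : ∀ t : ℝ, 0 < t → ν {a | t < g a} * ENNReal.ofReal (t ^ ((2 : ℝ) - 1)) ≤ ENNReal.ofReal (A * t ^ (1 - p)) := by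
    intro t ht
    have : A * t ^ (1 - p) = A * t ^ (-p) * t := by
      rw [sub_eq_neg_add, Real.rpow_add ht, Real.rpow_one, mul_assoc]
    rw [e21, Real.rpow_one, this, ENNReal.ofReal_mul (mul_nonneg hA (Real.rpow_nonneg ht.le _))]
    exact mul_le_mul_left ((measure_mono (hsub t ht)).trans (hw t ht)) _
  rcases eq_or_lt_of_le hA with hA0 | hA0
  · -- `A = 0`
    have : ∫⁻ t in Ioi (0 : ℝ), ν {a | t < g a} * ENNReal.ofReal (t ^ ((2 : ℝ) - 1)) = 0 := by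
      rw [← nonpos_iff_eq_zero]
      calc _ ≤ ∫⁻ _t in Ioi (0 : ℝ), (0 : ℝ≥0∞) := by
            refine setLIntegral_mono' measurableSet_Ioi fun t ht => ?_
            refine (hb2 t ht).trans ?_
            rw [← hA0, zero_mul, ENNReal.ofReal_zero]
        _ = 0 := by simp
    rw [this, mul_zero]
    exact zero_le
  rcases eq_or_lt_of_le hM with hM0 | hM0
  · have : ∫⁻ t in Ioi (0 : ℝ), ν {a | t < g a} * ENNReal.ofReal (t ^ ((2 : ℝ) - 1)) = 0 := by
      rw [← nonpos_iff_eq_zero]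
      calc _ ≤ ∫⁻ _t in Ioi (0 : ℝ), (0 : ℝ≥0∞) := by
            refine setLIntegral_mono' measurableSet_Ioi fun t ht => ?_
            refine (hb1 t ht).trans ?_
            rw [← hM0, zero_mul, ENNReal.ofReal_zero]
        _ = 0 := by simp
    rw [this, mul_zero]
    exact zero_le
  set t₀ : ℝ := (A / M) ^ (1 / p) with ht₀
  have hAM : 0 < A / M := div_pos hA0 hM0
  have ht0 : 0 < t₀ := Real.rpow_pos_of_pos hAM _
  obtain ⟨i1, i2⟩ := an_layer_int p A M t₀ hp hA hM ht0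
  have hp0 : p ≠ 0 := by linarith
  set X : ℝ := A ^ (2 / p) * M ^ (1 - 2 / p) with hX
  have x1 : M * t₀ ^ 2 = X := by
    rw [ht₀, ← Real.rpow_natCast, ← Real.rpow_mul hAM.le, Real.div_rpow hA hM, hX, Real.rpow_sub hM0, Real.rpow_one]
    have : 1 / p * ((2 : ℕ) : ℝ) = 2 / p := by push_cast; ring
    rw [this]
    ring
  have x2 : A * t₀ ^ (2 - p) = X := by
    rw [ht₀, ← Real.rpow_mul hAM.le, Real.div_rpow hA hM, hX]
    have : 1 / p * (2 - p) = 2 / p - 1 := by field_simp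
    rw [this, Real.rpow_sub hA0, Real.rpow_one, Real.rpow_sub hM0, Real.rpow_sub hM0, Real.rpow_one]
    have hMp : M ^ (2 / p) ≠ 0 := (Real.rpow_pos_of_pos hM0 _).ne'
    field_simp
  have hX0 : 0 ≤ X := by positivity
  calc ENNReal.ofReal 2 * ∫⁻ t in Ioi (0 : ℝ), ν {a | t < g a} * ENNReal.ofReal (t ^ ((2 : ℝ) - 1))
      = ENNReal.ofReal 2 * ((∫⁻ t in Ioc 0 t₀, ν {a | t < g a} * ENNReal.ofReal (t ^ ((2 : ℝ) - 1))) +
          ∫⁻ t in Ioi t₀, ν {a | t < g a} * ENNReal.ofReal (t ^ ((2 : ℝ) - 1))) := by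
        rw [← lintegral_union measurableSet_Ioi (Ioc_disjoint_Ioi le_rfl), Ioc_union_Ioi_eq_Ioi ht0.le]
    _ ≤ ENNReal.ofReal 2 * ((∫⁻ t in Ioc 0 t₀, ENNReal.ofReal (M * t)) + ∫⁻ t in Ioi t₀, ENNReal.ofReal (A * t ^ (1 - p))) := by
        refine mul_le_mul_right (add_le_add ?_ ?_) _
        · exact setLIntegral_mono' measurableSet_Ioc fun t ht => hb1 t ht.1
        · exact setLIntegral_mono' measurableSet_Ioi fun t ht => hb2 t (ht0.trans ht)
    _ = ENNReal.ofReal (p / (p - 2) * A ^ (2 / p) * M ^ (1 - 2 / p)) := by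
        rw [i1, i2, x1, x2, ← ENNReal.ofReal_add (by positivity) (div_nonneg hX0 (by linarith)),
          ← ENNReal.ofReal_mul (by norm_num)]
        congr 1
        rw [mul_assoc, ← hX]
        have h3 : (p - 2) ≠ 0 := by linarith
        field_simp
        ring

/-- `2^{-i} = (1/2)^i`. -/
theorem an_two_neg (i : ℕ) : (2 : ℝ) ^ (-(i : ℝ)) = (1 / 2) ^ i := by
  rw [Real.rpow_neg (by norm_num), Real.rpow_natCast, one_div, inv_pow]

/-- `2^{-i-1} = (1/2)^{i+1}`. -/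
theorem an_two_neg' (i : ℕ) : (2 : ℝ) ^ (-(i : ℝ) - 1) = (1 / 2) ^ (i + 1) := by
  have : -(i : ℝ) - 1 = -((i + 1 : ℕ) : ℝ) := by push_cast; ring
  rw [this, an_two_neg]

/-- every `0 < y ≤ Mx` lies in a dyadic class. -/
theorem an_dyadic_class {y Mx : ℝ} (hy : 0 < y) (hMx : 0 < Mx) (hyM : y ≤ Mx) :
    ∃ i : ℕ, Mx * (2 : ℝ) ^ (-(i : ℝ) - 1) < y ∧ y ≤ Mx * (2 : ℝ) ^ (-(i : ℝ)) := by
  classical
  have hex : ∃ i : ℕ, Mx * (1 / 2 : ℝ) ^ (i + 1) < y := by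
    obtain ⟨i, hi⟩ := exists_pow_lt_of_lt_one (div_pos hy hMx) (by norm_num : (1 / 2 : ℝ) < 1)
    refine ⟨i, ?_⟩
    rw [lt_div_iff₀ hMx] at hi
    have : (1 / 2 : ℝ) ^ (i + 1) ≤ (1 / 2) ^ i := pow_le_pow_of_le_one (by norm_num) (by norm_num) (Nat.le_succ i)
    nlinarith
  refine ⟨Nat.find hex, ?_, ?_⟩
  · rw [an_two_neg']
    exact Nat.find_spec hex
  · rw [an_two_neg]
    rcases Nat.eq_zero_or_pos (Nat.find hex) with h0 | h0
    · rw [h0, pow_zero, mul_one]; exact hyM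
    · have := Nat.find_min hex (Nat.sub_lt h0 Nat.one_pos)
      rw [Nat.sub_add_cancel h0, not_lt] at this
      exact this

/-- **L-AN-T2** (200 l.) dyadic classes of the masses.  In the class `i`: `μ^bb = μ^{bb-1} μ ≤ (Mx 2^{-i-1})^{bb-1} μ`;  every `k` with `0 < μ k` lies in exactly one class;  geometric series of ratio `2^{-(bb-1+s)}`. -/
theorem an_dyadic {κ : Type} (μ f : κ → ℝ≥0∞) (bb s Mx B : ℝ) (hb0 : 0 < bb) (hb1 : bb < 1) (hδ : 0 < bb - 1 + s) (hMx : 0 < Mx) (hB : 0 ≤ B)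
    (hμ : ∀ k, μ k ≤ ENNReal.ofReal Mx)
    (h : ∀ i : ℕ, ∑' k, (if ENNReal.ofReal (Mx * (2 : ℝ) ^ (-(i : ℝ) - 1)) < μ k ∧ μ k ≤ ENNReal.ofReal (Mx * (2 : ℝ) ^ (-(i : ℝ))) then μ k * f k else 0) ≤
      ENNReal.ofReal (B * ((2 : ℝ) ^ (-(i : ℝ))) ^ s)) :
    ∑' k, μ k ^ bb * f k ≤ ENNReal.ofReal (2 * Mx ^ (bb - 1) * B / (1 - (2 : ℝ) ^ (-(bb - 1 + s)))) := by
  set T : ℕ → κ → ℝ≥0∞ := fun i k =>
    if ENNReal.ofReal (Mx * (2 : ℝ) ^ (-(i : ℝ) - 1)) < μ k ∧ μ k ≤ ENNReal.ofReal (Mx * (2 : ℝ) ^ (-(i : ℝ))) then μ k * f k else 0 with hT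
  set cc : ℕ → ℝ := fun i => (Mx * (2 : ℝ) ^ (-(i : ℝ) - 1)) ^ (bb - 1) with hcc
  set q : ℝ := (2 : ℝ) ^ (-(bb - 1 + s)) with hq
  have hq0 : 0 < q := Real.rpow_pos_of_pos (by norm_num) _
  have hq1 : q < 1 := Real.rpow_lt_one_of_one_lt_of_neg (by norm_num) (by linarith)
  have hpt : ∀ k, μ k ^ bb * f k ≤ ∑' i, ENNReal.ofReal (cc i) * T i k := by
    intro k
    rcases eq_or_ne (μ k) 0 with h0 | h0
    · rw [h0, ENNReal.zero_rpow_of_pos hb0, zero_mul]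
      exact zero_le
    · have hfin : μ k ≠ ∞ := ne_top_of_le_ne_top ENNReal.ofReal_ne_top (hμ k)
      have hy : 0 < (μ k).toReal := ENNReal.toReal_pos h0 hfin
      have hyM : (μ k).toReal ≤ Mx := ENNReal.toReal_le_of_le_ofReal hMx.le (hμ k)
      obtain ⟨i, hi1, hi2⟩ := an_dyadic_class hy hMx hyM
      have hpos : 0 < Mx * (2 : ℝ) ^ (-(i : ℝ) - 1) := mul_pos hMx (Real.rpow_pos_of_pos (by norm_num) _)
      have c1 : ENNReal.ofReal (Mx * (2 : ℝ) ^ (-(i : ℝ) - 1)) < μ k :=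
        (ENNReal.ofReal_lt_iff_lt_toReal hpos.le hfin).2 hi1
      have c2 : μ k ≤ ENNReal.ofReal (Mx * (2 : ℝ) ^ (-(i : ℝ))) := (ENNReal.le_ofReal_iff_toReal_le hfin
        (mul_pos hMx (Real.rpow_pos_of_pos (by norm_num) _)).le).2 hi2
      have hTi : T i k = μ k * f k := by
        rw [hT]
        exact if_pos ⟨c1, c2⟩
      refine le_trans ?_ (ENNReal.le_tsum i)
      rw [hTi, ← mul_assoc]
      refine mul_le_mul_left ?_ _
      have e : μ k ^ bb = μ k ^ (bb - 1) * μ k := by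
        conv_lhs => rw [show bb = (bb - 1) + 1 by ring]
        rw [ENNReal.rpow_add _ _ h0 hfin, ENNReal.rpow_one]
      rw [e]
      refine mul_le_mul_left ?_ _
      rw [hcc, ← ENNReal.ofReal_rpow_of_pos hpos]
      rw [show bb - 1 = -(1 - bb) by ring, ENNReal.rpow_neg, ENNReal.rpow_neg, ENNReal.inv_le_inv]
      exact ENNReal.rpow_le_rpow c1.le (by linarith)
  have hterm : ∀ i : ℕ, ENNReal.ofReal (cc i) * ∑' k, T i k ≤ ENNReal.ofReal (2 * Mx ^ (bb - 1) * B * q ^ i) := by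
    intro i
    have hcc0 : 0 ≤ cc i := Real.rpow_nonneg (mul_pos hMx (Real.rpow_pos_of_pos (by norm_num) _)).le _
    refine (mul_le_mul_right (h i) _).trans ?_
    rw [← ENNReal.ofReal_mul hcc0]
    refine ENNReal.ofReal_le_ofReal ?_
    have e1 : cc i = Mx ^ (bb - 1) * (2 : ℝ) ^ ((-(i : ℝ) - 1) * (bb - 1)) := by
      rw [hcc]
      simp only
      rw [Real.mul_rpow hMx.le (Real.rpow_pos_of_pos (by norm_num) _).le, ← Real.rpow_mul (by norm_num)]
    have e2 : ((2 : ℝ) ^ (-(i : ℝ))) ^ s = (2 : ℝ) ^ (-(i : ℝ) * s) := by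
      rw [← Real.rpow_mul (by norm_num)]
    have e3 : q ^ i = (2 : ℝ) ^ (-(bb - 1 + s) * (i : ℝ)) := by
      rw [hq, ← Real.rpow_natCast, ← Real.rpow_mul (by norm_num)]
    have e4 : (2 : ℝ) ^ ((-(i : ℝ) - 1) * (bb - 1)) * (2 : ℝ) ^ (-(i : ℝ) * s) = (2 : ℝ) ^ (1 - bb) * (2 : ℝ) ^ (-(bb - 1 + s) * (i : ℝ)) := by
      rw [← Real.rpow_add (by norm_num), ← Real.rpow_add (by norm_num)]
      congr 1
      ring
    have e5 : (2 : ℝ) ^ (1 - bb) ≤ 2 := by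
      calc (2 : ℝ) ^ (1 - bb) ≤ (2 : ℝ) ^ (1 : ℝ) := Real.rpow_le_rpow_of_exponent_le (by norm_num) (by linarith)
        _ = 2 := Real.rpow_one _
    have hMp : 0 ≤ Mx ^ (bb - 1) := Real.rpow_nonneg hMx.le _
    calc cc i * (B * ((2 : ℝ) ^ (-(i : ℝ))) ^ s)
        = Mx ^ (bb - 1) * B * ((2 : ℝ) ^ ((-(i : ℝ) - 1) * (bb - 1)) * (2 : ℝ) ^ (-(i : ℝ) * s)) := by rw [e1, e2]; ring
      _ = (2 : ℝ) ^ (1 - bb) * (Mx ^ (bb - 1) * B * q ^ i) := by rw [e4, e3]; ring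
      _ ≤ 2 * (Mx ^ (bb - 1) * B * q ^ i) := mul_le_mul_of_nonneg_right e5 (by positivity)
      _ = 2 * Mx ^ (bb - 1) * B * q ^ i := by ring
  calc ∑' k, μ k ^ bb * f k ≤ ∑' k, ∑' i, ENNReal.ofReal (cc i) * T i k := ENNReal.tsum_le_tsum hpt
    _ = ∑' i, ENNReal.ofReal (cc i) * ∑' k, T i k := by
        rw [ENNReal.tsum_comm]
        refine tsum_congr fun i => ?_
        rw [ENNReal.tsum_mul_left]
    _ ≤ ∑' i : ℕ, ENNReal.ofReal (2 * Mx ^ (bb - 1) * B * q ^ i) := ENNReal.tsum_le_tsum hterm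
    _ = ENNReal.ofReal (2 * Mx ^ (bb - 1) * B / (1 - q)) := by
        have hMp : 0 ≤ Mx ^ (bb - 1) := Real.rpow_nonneg hMx.le _
        rw [← ENNReal.ofReal_tsum_of_nonneg (fun i => by positivity)
          ((summable_geometric_of_lt_one hq0.le hq1).mul_left _), tsum_mul_left, tsum_geometric_of_lt_one hq0.le hq1,
          div_eq_mul_inv]

/-! ## the moved measure -/

/-- masses `w k` at the points `x k` -/
noncomputable def movM (w : (Fin n → ℤ) × ℤ → ℝ≥0∞) (x : (Fin n → ℤ) × ℤ → ST n) : Measure (ST n) :=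
  Measure.sum (fun k => w k • Measure.dirac (x k))

/-- **L-AN-T3** (40 l.) `lintegral_sum_measure`, `lintegral_smul_measure`, `lintegral_dirac'`. -/
theorem an_movM_lintegral (w : (Fin n → ℤ) × ℤ → ℝ≥0∞) (x : (Fin n → ℤ) × ℤ → ST n) (f : ST n → ℝ≥0∞) (hf : Measurable f) :
    ∫⁻ z, f z ∂(movM w x) = ∑' k, w k * f (x k) := by
  unfold movM
  rw [lintegral_sum_measure]
  refine tsum_congr fun k => ?_
  rw [lintegral_smul_measure, lintegral_dirac' _ hf, smul_eq_mul]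

/-- **L-AN-T4** (40 l.) -/
theorem an_movM_apply (w : (Fin n → ℤ) × ℤ → ℝ≥0∞) (x : (Fin n → ℤ) × ℤ → ST n) (S : Set (ST n)) (hS : MeasurableSet S) :
    movM w x S = ∑' k, S.indicator (fun _ => w k) (x k) := by
  unfold movM
  rw [Measure.sum_apply _ hS]
  refine tsum_congr fun k => ?_
  rw [Measure.smul_apply, Measure.dirac_apply' _ hS, smul_eq_mul]
  by_cases h : x k ∈ S <;> simp [h]

/-- **L-AN-T5** (100 l.) the cubes of side `a` are measurable, pairwise disjoint, and `cubeS a (k + h)` is the translate of `cubeS a k`. -/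
theorem an_cubeS_basic (a : ℝ) (ha : 0 < a) :
    (∀ k : (Fin n → ℤ) × ℤ, MeasurableSet (cubeS a k : Set (ST n))) ∧ (∀ k k' : (Fin n → ℤ) × ℤ, k ≠ k' → Disjoint (cubeS a k : Set (ST n)) (cubeS a k')) ∧
    (∀ (k h : (Fin n → ℤ) × ℤ) (z : ST n), z ∈ cubeS a (k + h) ↔ z - (WithLp.toLp 2 (fun i => a * (h.1 i : ℝ)), a * (h.2 : ℝ)) ∈ cubeS a k) ∧
    (∀ z : ST n, z ∈ cubeS a (bigc a z)) := by
  refine ⟨fun k => ?_, fun k k' hk => ?_, fun k h z => ?_, fun z => (an_mem_cubeS_iff ha z _).2 rfl⟩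
  · have hc : ∀ i : Fin n, Measurable fun z : ST n => z.1 i := fun i =>
      ((EuclideanSpace.proj i : E n →L[ℝ] ℝ).continuous.measurable).comp measurable_fst
    have e : (cubeS a k : Set (ST n)) = (⋂ i, ({z : ST n | a * (k.1 i : ℝ) ≤ z.1 i} ∩ {z : ST n | z.1 i < a * (k.1 i + 1)})) ∩
        ({z : ST n | a * (k.2 : ℝ) ≤ z.2} ∩ {z : ST n | z.2 < a * (k.2 + 1)}) := by
      ext z
      simp [cubeS]
    rw [e]
    refine MeasurableSet.inter (MeasurableSet.iInter fun i => ?_) ?_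
    · exact (measurableSet_le measurable_const (hc i)).inter (measurableSet_lt (hc i) measurable_const)
    · exact (measurableSet_le measurable_const measurable_snd).inter (measurableSet_lt measurable_snd measurable_const)
  · rw [Set.disjoint_left]
    intro z hz hz'
    exact hk (((an_mem_cubeS_iff ha z k).1 hz).symm.trans ((an_mem_cubeS_iff ha z k').1 hz'))
  · unfold cubeS
    simp only [Set.mem_ofPred_eq, Prod.fst_add, Prod.snd_add, Pi.add_apply, Int.cast_add, Prod.fst_sub, Prod.snd_sub,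
      PiLp.sub_apply]
    constructor
    · rintro ⟨h1, h2, h3⟩
      exact ⟨fun i => ⟨by linarith [(h1 i).1], by linarith [(h1 i).2]⟩, by linarith, by linarith⟩
    · rintro ⟨h1, h2, h3⟩
      exact ⟨fun i => ⟨by linarith [(h1 i).1], by linarith [(h1 i).2]⟩, by linarith, by linarith⟩

/-- **L-AN-T6** (200 l.) growth of the moved measure: the cubes `Q_k`, `x k ∈ closedBall z r`, lie in `closedBall z (r + (√n+1)ρ₂)` (`an_cubeS_subset`), their translates by `ρ₂ h` are disjoint;  `r + (√n+1)ρ₂ ≤ (√n+2) ρ₂ r`. -/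
theorem an_movM_grow (ν' : Measure (ST n)) (m' ρ₂ : ℝ) (hm : 0 ≤ m') (hρ : 1 ≤ ρ₂) (hν : Grow ν' m' n) (h : (Fin n → ℤ) × ℤ)
    (w : (Fin n → ℤ) × ℤ → ℝ≥0∞) (x : (Fin n → ℤ) × ℤ → ST n) (hw : ∀ k, w k ≤ ν' (cubeS ρ₂ (k + h))) (hx : ∀ k, w k ≠ 0 → x k ∈ cubeS ρ₂ k) :
    Grow (movM w x) (((Real.sqrt n + 2) * ρ₂) ^ n * m') n := by
  intro z r hr
  have hρ0 : 0 < ρ₂ := by linarith
  obtain ⟨hmeas, hd, htr, -⟩ := an_cubeS_basic (n := n) ρ₂ hρ0
  set v : ST n := (WithLp.toLp 2 (fun i => ρ₂ * (h.1 i : ℝ)), ρ₂ * (h.2 : ℝ)) with hv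
  set r' := r + (Real.sqrt n + 1) * ρ₂ with hr'
  have hsq : 0 ≤ Real.sqrt n := Real.sqrt_nonneg _
  rw [an_movM_apply w x _ isClosed_closedBall.measurableSet]
  have h1 : ∀ k, (closedBall z r).indicator (fun _ => w k) (x k) ≤ ν' (cubeS ρ₂ (k + h) ∩ closedBall (z + v) r') := by
    intro k
    by_cases hk : x k ∈ closedBall z r
    · rw [Set.indicator_of_mem hk]
      by_cases hw0 : w k = 0
      · rw [hw0]; exact zero_le
      · have hsub : cubeS ρ₂ (k + h) ⊆ closedBall (z + v) r' := by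
          intro y hy
          have hy' := (htr k h y).1 hy
          have := an_cubeS_subset ρ₂ hρ0 k (x k) (hx k hw0) hy'
          rw [mem_closedBall] at this hk ⊢
          calc dist y (z + v) = dist (y - v) z := by
                rw [dist_eq_norm, dist_eq_norm]; congr 1; abel
            _ ≤ dist (y - v) (x k) + dist (x k) z := dist_triangle _ _ _
            _ ≤ r' := by rw [hr']; linarith
        rw [Set.inter_eq_left.2 hsub]
        exact hw k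
    · rw [Set.indicator_of_notMem hk]; exact zero_le
  have hr1 : 1 ≤ r' := by rw [hr']; nlinarith
  have hr2 : r' ≤ (Real.sqrt n + 2) * ρ₂ * r := by
    rw [hr']
    have e1 : r ≤ ρ₂ * r := le_mul_of_one_le_left (by linarith) hρ
    have e2 : (Real.sqrt n + 1) * ρ₂ ≤ (Real.sqrt n + 1) * ρ₂ * r := le_mul_of_one_le_right (by positivity) hr
    nlinarith
  calc ∑' k, (closedBall z r).indicator (fun _ => w k) (x k)
      ≤ ∑' k, ν' (cubeS ρ₂ (k + h) ∩ closedBall (z + v) r') := ENNReal.tsum_le_tsum h1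
    _ = ν' (⋃ k, cubeS ρ₂ (k + h) ∩ closedBall (z + v) r') := by
        rw [measure_iUnion (fun k k' hk => ((hd _ _ (fun e => hk (add_right_cancel e))).mono inter_subset_left inter_subset_left))
          (fun k => (hmeas _).inter isClosed_closedBall.measurableSet)]
    _ ≤ ν' (closedBall (z + v) r') := measure_mono (iUnion_subset fun k => inter_subset_right)
    _ ≤ ENNReal.ofReal (m' * r' ^ (n : ℝ)) := hν _ _ hr1
    _ ≤ ENNReal.ofReal (((Real.sqrt n + 2) * ρ₂) ^ n * m' * r ^ (n : ℝ)) := by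
        refine ENNReal.ofReal_le_ofReal ?_
        rw [Real.rpow_natCast, Real.rpow_natCast]
        calc m' * r' ^ n ≤ m' * ((Real.sqrt n + 2) * ρ₂ * r) ^ n :=
              mul_le_mul_of_nonneg_left (pow_le_pow_left₀ (by linarith) hr2 n) hm
          _ = ((Real.sqrt n + 2) * ρ₂) ^ n * m' * r ^ n := by rw [mul_pow]; ring

/-- two neighbouring floors. -/
theorem an_floor_two {ρ t u : ℝ} (hρ : 2 ≤ ρ) (h : |u - t| ≤ 1) :
    ⌊u / ρ⌋ ∈ Finset.Icc ⌊(t - 1) / ρ⌋ (⌊(t - 1) / ρ⌋ + 1) := by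
  have hρ0 : 0 < ρ := by linarith
  rw [abs_le] at h
  rw [Finset.mem_Icc]
  constructor
  · exact Int.floor_le_floor (div_le_div_of_nonneg_right (by linarith [h.1]) hρ0.le)
  · rw [← Int.floor_add_one]
    refine Int.floor_le_floor ?_
    rw [div_add_one hρ0.ne']
    exact div_le_div_of_nonneg_right (by linarith [h.2]) hρ0.le

/-- **L-AN-T7** (150 l.) unit balls: a ball of radius `1` meets at most `2^{n+1}` cubes of side `ρ₂ ≥ 2`. -/
theorem an_movM_dens (ρ₂ : ℝ) (hρ : 2 ≤ ρ₂) (d₁ : ℝ≥0∞) (w : (Fin n → ℤ) × ℤ → ℝ≥0∞) (x : (Fin n → ℤ) × ℤ → ST n) (hw : ∀ k, w k ≤ d₁)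
    (hx : ∀ k, w k ≠ 0 → x k ∈ cubeS ρ₂ k) (z : ST n) : movM w x (closedBall z 1) ≤ 2 ^ (n + 1) * d₁ := by
  have hρ0 : 0 < ρ₂ := by linarith
  rw [an_movM_apply w x _ isClosed_closedBall.measurableSet]
  set F : Finset ((Fin n → ℤ) × ℤ) :=
    (Fintype.piFinset fun i => Finset.Icc ⌊(z.1 i - 1) / ρ₂⌋ (⌊(z.1 i - 1) / ρ₂⌋ + 1)) ×ˢ
      Finset.Icc ⌊(z.2 - 1) / ρ₂⌋ (⌊(z.2 - 1) / ρ₂⌋ + 1) with hF
  have hcard : F.card = 2 ^ (n + 1) := by
    rw [hF, Finset.card_product, Fintype.card_piFinset]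
    have e : ∀ j : ℤ, (Finset.Icc j (j + 1)).card = 2 := by
      intro j
      rw [Int.card_Icc]
      have : j + 1 + 1 - j = 2 := by ring
      rw [this]
      rfl
    simp only [e, Finset.prod_const, Finset.card_univ, Fintype.card_fin, pow_succ]
  have hsupp : ∀ k ∉ F, (closedBall z 1).indicator (fun _ => w k) (x k) = 0 := by
    intro k hk
    by_contra hne
    apply hk
    have hmem : x k ∈ closedBall z 1 := by
      by_contra hn
      exact hne (Set.indicator_of_notMem hn _)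
    rw [Set.indicator_of_mem hmem] at hne
    have hk' := (an_mem_cubeS_iff hρ0 (x k) k).1 (hx k hne)
    rw [mem_closedBall, dist_eq_norm] at hmem
    have h1 : ‖(x k).1 - z.1‖ ≤ 1 := (norm_fst_le (x k - z)).trans hmem
    have h2 : |(x k).2 - z.2| ≤ 1 := by
      rw [← Real.norm_eq_abs]
      exact (norm_snd_le (x k - z)).trans hmem
    rw [hF, Finset.mem_product, Fintype.mem_piFinset, ← hk']
    refine ⟨fun i => an_floor_two hρ ?_, an_floor_two hρ h2⟩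
    have := PiLp.norm_apply_le ((x k).1 - z.1) i
    rw [Real.norm_eq_abs] at this
    exact this.trans h1
  rw [tsum_eq_sum hsupp]
  calc ∑ k ∈ F, (closedBall z 1).indicator (fun _ => w k) (x k) ≤ ∑ _k ∈ F, d₁ := by
        refine Finset.sum_le_sum fun k _ => ?_
        exact (Set.indicator_le_self' (fun _ _ => zero_le) _).trans (hw k)
    _ = 2 ^ (n + 1) * d₁ := by
        rw [Finset.sum_const, hcard, nsmul_eq_mul]
        push_cast
        rfl

/-- **L-AN-T8** (80 l.) total mass. -/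
theorem an_movM_mass (ν' : Measure (ST n)) (ρ₂ : ℝ) (hρ : 0 < ρ₂) (h : (Fin n → ℤ) × ℤ) (w : (Fin n → ℤ) × ℤ → ℝ≥0∞) (x : (Fin n → ℤ) × ℤ → ST n)
    (hw : ∀ k, w k ≤ ν' (cubeS ρ₂ (k + h))) : movM w x univ ≤ ν' univ := by
  obtain ⟨hm, hd, -, -⟩ := an_cubeS_basic (n := n) ρ₂ hρ
  rw [an_movM_apply w x univ MeasurableSet.univ]
  calc ∑' k, (univ : Set (ST n)).indicator (fun _ => w k) (x k) = ∑' k, w k := by simp
    _ ≤ ∑' k, ν' (cubeS ρ₂ (k + h)) := ENNReal.tsum_le_tsum hw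
    _ = ν' (⋃ k, cubeS ρ₂ (k + h)) := by
        rw [measure_iUnion (fun k k' hk => hd _ _ (fun e => hk (add_right_cancel e))) (fun k => hm _)]
    _ ≤ ν' univ := measure_mono (subset_univ _)

/-- **L-AN-T9** (60 l.) time range. -/
theorem an_movM_slab (T : ℝ) (w : (Fin n → ℤ) × ℤ → ℝ≥0∞) (x : (Fin n → ℤ) × ℤ → ST n) (hx : ∀ k, w k ≠ 0 → |(x k).2| ≤ T) : Slab (movM w x) T := by
  unfold Slab
  have hS : MeasurableSet {z : ST n | T < |z.2|} :=
    measurableSet_lt measurable_const (continuous_abs.measurable.comp measurable_snd)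
  rw [an_movM_apply w x _ hS, ENNReal.tsum_eq_zero]
  intro k
  by_cases hk : x k ∈ {z : ST n | T < |z.2|}
  · rw [Set.indicator_of_mem hk]
    by_contra hne
    exact absurd (hx k hne) (not_le.mpr hk)
  · rw [Set.indicator_of_notMem hk]

/-- **L-AN-T10** (80 l.) the field vanishes outside the time range of the packets (`Prof.supp`, `chart`, `tc = 0`: `|t/L²| ≤ ‖chart‖ ≤ K.R`). -/
theorem an_fld_time (A : Arr n ι) (s : Finset ι) (K : Cls) (hA : A.In s K) (htc : ∀ α ∈ s, A.tc α = 0) (c : ι → ℂ) (z : ST n) (hz : A.fld s c z ≠ 0) :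
    |z.2| ≤ K.R * A.L ^ 2 := by
  unfold Arr.fld at hz
  obtain ⟨α, hα, hne⟩ := Finset.exists_ne_zero_of_sum_ne_zero hz
  have h1 : A.pf α (chart A.L (A.om α) (A.y α) (A.tc α) z) ≠ 0 := by
    intro h0
    apply hne
    rw [Arr.atom, h0, mul_zero, mul_zero]
  have h2 := (hA.prof α hα).supp _ h1
  have h3 : |z.2 / A.L ^ 2 - A.tc α| ≤ K.R := by
    refine le_trans ?_ h2
    rw [← Real.norm_eq_abs]
    exact norm_snd_le (chart A.L (A.om α) (A.y α) (A.tc α) z)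
  have hL : 0 < A.L ^ 2 := by have := hA.one_le; positivity
  rw [htc α hα, sub_zero, abs_div, abs_of_pos hL, div_le_iff₀ hL] at h3
  exact h3

/-- **L-AN-T11** (60 l.) fields are continuous. -/
theorem an_fld_cont (A : Arr n ι) (s : Finset ι) (K : Cls) (hA : A.In s K) (c : ι → ℂ) : Continuous (A.fld s c) := by
  unfold Arr.fld
  refine continuous_finsetSum _ fun α hα => continuous_const.mul ?_
  unfold Arr.atom
  have h1 : Continuous (A.pf α) := (hA.prof α hα).smooth.continuous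
  have h2 : Continuous (chart A.L (A.om α) (A.y α) (A.tc α)) := by
    unfold chart
    fun_prop
  have h3 : Continuous (car (A.om α)) := by
    unfold car
    fun_prop
  exact (continuous_const.mul h3).mul (h1.comp h2)

/-! ## one class, all classes -/

/-- sanity conditions on the conventions -/
structure WCon.Sane (W : WCon) (n : ℕ) : Prop where
  time : W.K.R ≤ W.T₀
  T0 : 0 ≤ W.T₀
  mom : n + 1 ≤ W.M
  freq : Real.sqrt n ≤ W.K.Rω
  Rp : 0 ≤ W.K.R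
  Bp : 0 ≤ W.K.B
  Cb : 0 ≤ W.Cb

/-- **L-AN-T12** (350 l.) **ONE CLASS.**  `ν'' = movM w x`;  `m₃ = C_T ((√n+2)ρ₂)^n m'` (`C_T` from `an_tubeMom_of_grow`);  `χ = min 1 (2^{n+1} m' d/m₃)`;  `Adm0 W A' s ν'' m₃ χ 1` (`an_movM_grow`, `an_movM_dens`, `an_movM_slab` + `an_fld_time`, `an_tubeMom_of_grow`);
for `t > 0` apply `WeakAt0` with `g = t l^e χ^{-a}` (`wlev = t`): `ν''{|V| ≥ t} ≤ A t^{-p}`, `A = C' Cind m₃ l^{2n-ep} χ^{ap} E^{p/2}`;  `an_layer`, `an_movM_lintegral`, `an_movM_mass`;  `χ ≤ 2^{n+1} d`, `ρ₂^{2n/p} ≤ ρ₂^n`. -/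
theorem an_term_class (n : ℕ) (W : WCon) (hW : W.Sane n) (p a : ℝ) (hp : 2 < p) (ha : 0 ≤ a) :
    ∃ C : ℝ, ∀ (σ' Cind C' : ℝ) (ι : Type) (A' : Arr n ι) (s : Finset ι) (c : ι → ℂ) (ν' : Measure (ST n)) (m' d M₀ ρ₂ : ℝ) (h : (Fin n → ℤ) × ℤ)
      (w : (Fin n → ℤ) × ℤ → ℝ≥0∞) (x : (Fin n → ℤ) × ℤ → ST n),
      0 ≤ Cind → 0 ≤ C' → A'.In s W.K → (∀ α ∈ s, A'.tc α = 0) → WeakAt0 n W ⟨p, σ', a, Cind⟩ C' A'.L 1 → 0 < m' → 0 < d → 0 ≤ M₀ → 2 ≤ ρ₂ →
      Grow ν' m' n → ν' univ ≤ ENNReal.ofReal M₀ → (∀ k, w k ≤ ν' (cubeS ρ₂ (k + h))) → (∀ k, w k ≤ ENNReal.ofReal (m' * d)) →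
      (∀ k, w k ≠ 0 → x k ∈ cubeS ρ₂ k ∧ A'.fld s c (x k) ≠ 0) →
      ∑' k, w k * ‖A'.fld s c (x k)‖ₑ ^ 2 ≤
        ENNReal.ofReal (C * ρ₂ ^ n * (C' * Cind) ^ (2 / p) * m' ^ (2 / p) * A'.L ^ (4 * (n : ℝ) / p - 2 * eex n) * d ^ (2 * a) * M₀ ^ (1 - 2 / p) * energy s c) := by
  obtain ⟨CT, hCT1, hCT⟩ := an_tubeMom_of_grow n W.M hW.mom W.T₀ W.K.Rω hW.T0 ((Real.sqrt_nonneg _).trans hW.freq)
  refine ⟨p / (p - 2) * (CT * (Real.sqrt n + 2) ^ n) ^ (2 / p) * ((2 : ℝ) ^ (n + 1)) ^ (2 * a), ?_⟩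
  intro σ' Cind C' ι A' s c ν' m' d M₀ ρ₂ h w x hCind hC' hA htc hWk hm' hd hM₀ hρ hgrow hmass hw1 hw2 hx
  have hsq : 0 ≤ Real.sqrt n := Real.sqrt_nonneg _
  have hp0 : 0 < p := by linarith
  have hρ0 : 0 < ρ₂ := by linarith
  have hρ1 : 1 ≤ ρ₂ := by linarith
  have hCT0 : 0 < CT := by linarith
  generalize hl : A'.L = l at *
  have hl1 : 1 ≤ l := hl ▸ hA.one_le
  have hl0 : 0 < l := by linarith
  obtain ⟨e, he⟩ : ∃ e, e = eex n := ⟨_, rfl⟩
  rw [← he]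
  generalize hEn' : energy s c = En at *
  have hEn : 0 ≤ En := by
    rw [← hEn']
    exact Finset.sum_nonneg fun α _ => by positivity
  have hVc : Continuous (A'.fld s c) := an_fld_cont A' s W.K hA c
  set m₂ : ℝ := ((Real.sqrt n + 2) * ρ₂) ^ n * m' with hm₂
  have hm₂0 : 0 < m₂ := by positivity
  set m₃ : ℝ := CT * m₂ with hm₃
  have hm₃0 : 0 < m₃ := by positivity
  have hg2 : Grow (movM w x) m₂ n := an_movM_grow ν' m' ρ₂ hm'.le hρ1 hgrow h w x hw1 (fun k hk => (hx k hk).1)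
  have hslab : Slab (movM w x) (W.T₀ * A'.L ^ 2) := an_movM_slab _ w x (fun k hk =>
    (an_fld_time A' s W.K hA htc c (x k) (hx k hk).2).trans (mul_le_mul_of_nonneg_right hW.time (by positivity)))
  have hmom : TubeMom (movM w x) A' s m₃ 1 W.M := hCT ι A' s (movM w x) m₂ (hl ▸ hl1) hm₂0.le hA.freq hg2 hslab
  have hg3 : Grow (movM w x) m₃ n := fun z r hr => (hg2 z r hr).trans (ENNReal.ofReal_le_ofReal (by
    have : 0 ≤ r ^ (n : ℝ) := Real.rpow_nonneg (by linarith) _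
    rw [hm₃]
    nlinarith [mul_nonneg hm₂0.le this]))
  set χ : ℝ := min 1 ((2 : ℝ) ^ (n + 1) * (m' * d) / m₃) with hχ
  have hχ0 : 0 < χ := lt_min one_pos (by positivity)
  have hχ1 : χ ≤ 1 := min_le_left _ _
  have hdens : Dens (movM w x) m₃ χ := by
    intro z
    rcases le_total 1 ((2 : ℝ) ^ (n + 1) * (m' * d) / m₃) with hc | hc
    · rw [hχ, min_eq_left hc]
      have := hg3 z 1 le_rfl
      rwa [Real.one_rpow] at this
    · rw [hχ, min_eq_right hc, mul_div_cancel₀ _ hm₃0.ne']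
      refine (an_movM_dens ρ₂ hρ _ w x hw2 (fun k hk => (hx k hk).1) z).trans (le_of_eq ?_)
      have : ENNReal.ofReal ((2 : ℝ) ^ (n + 1) * (m' * d)) = 2 ^ (n + 1) * ENNReal.ofReal (m' * d) := by
        rw [ENNReal.ofReal_mul (by positivity), ENNReal.ofReal_pow (by norm_num)]
        norm_num
      rw [this]
  have hadm : Adm0 W A' s (movM w x) m₃ χ 1 := ⟨hg3, hslab, hdens, hmom⟩
  set Aw : ℝ := C' * Cind * m₃ * l ^ (2 * (n : ℝ) - e * p) * χ ^ (a * p) * En ^ (p / 2) with hAw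
  have hAw0 : 0 ≤ Aw := by positivity
  have hweak : ∀ t : ℝ, 0 < t → movM w x {z | ENNReal.ofReal t ≤ ‖A'.fld s c z‖ₑ} ≤ ENNReal.ofReal (Aw * t ^ (-p)) := by
    intro t ht
    have key := hWk ι A' s c (movM w x) m₃ χ (t * l ^ e * χ ^ (-a)) hl hA htc hm₃0.le hχ0 hχ1 (by positivity) hadm
    have e1 : wlev n a χ (t * l ^ e * χ ^ (-a)) l = t := by
      unfold wlev
      rw [← he, Real.rpow_neg hχ0.le, Real.rpow_neg hl0.le]
      have h1 : χ ^ a ≠ 0 := (Real.rpow_pos_of_pos hχ0 _).ne'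
      have h2 : l ^ e ≠ 0 := (Real.rpow_pos_of_pos hl0 _).ne'
      field_simp
    have e2 : C' * wrhs n ⟨p, σ', a, Cind⟩ m₃ l (t * l ^ e * χ ^ (-a)) 1 En = Aw * t ^ (-p) := by
      unfold wrhs
      simp only
      have hg : (t * l ^ e * χ ^ (-a)) ^ (-p) = t ^ (-p) * l ^ (-(e * p)) * χ ^ (a * p) := by
        rw [Real.mul_rpow (by positivity) (by positivity), Real.mul_rpow ht.le (by positivity),
          ← Real.rpow_mul hl0.le, ← Real.rpow_mul hχ0.le]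
        congr 2
        · congr 1; ring
        · ring
      have hl2 : l ^ (2 * (n : ℝ) - e * p) = l ^ (2 * (n : ℝ)) * l ^ (-(e * p)) := by
        rw [sub_eq_add_neg, Real.rpow_add hl0]
      rw [Real.one_rpow, hg, hAw, hl2]
      ring
    have e3 : {z | ENNReal.ofReal t ≤ ‖A'.fld s c z‖ₑ} = wset A' s c t := by
      ext z
      rw [wset, Set.mem_ofPred_eq, Set.mem_ofPred_eq, ← ofReal_norm, ENNReal.ofReal_le_ofReal_iff (norm_nonneg _)]
    simp only at key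
    rw [e1, hEn', e2] at key
    rw [e3]
    exact key
  have hL := an_layer (movM w x) (fun z => ‖A'.fld s c z‖ₑ) hVc.enorm.measurable p Aw M₀ hp hAw0 hM₀
    ((an_movM_mass ν' ρ₂ hρ0 h w x hw1).trans hmass) hweak
  rw [an_movM_lintegral w x _ (hVc.enorm.measurable.pow_const 2)] at hL
  refine hL.trans (ENNReal.ofReal_le_ofReal ?_)
  have hp2 : 0 < 2 / p := by positivity
  have hp2' : 2 / p ≤ 1 := by rw [div_le_one hp0]; exact hp.le
  have f1 : m₃ ^ (2 / p) ≤ (CT * (Real.sqrt n + 2) ^ n) ^ (2 / p) * ρ₂ ^ n * m' ^ (2 / p) := by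
    have : m₃ = (CT * (Real.sqrt n + 2) ^ n) * ρ₂ ^ n * m' := by rw [hm₃, hm₂, mul_pow]; ring
    rw [this, Real.mul_rpow (by positivity) hm'.le, Real.mul_rpow (by positivity) (by positivity)]
    have h1 : (ρ₂ ^ n) ^ (2 / p) ≤ ρ₂ ^ n := by
      calc (ρ₂ ^ n) ^ (2 / p) ≤ (ρ₂ ^ n) ^ (1 : ℝ) := Real.rpow_le_rpow_of_exponent_le (one_le_pow₀ hρ1) hp2'
        _ = ρ₂ ^ n := Real.rpow_one _
    gcongr
  have f2 : χ ^ (2 * a) ≤ ((2 : ℝ) ^ (n + 1)) ^ (2 * a) * d ^ (2 * a) := by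
    rw [← Real.mul_rpow (by positivity) hd.le]
    refine Real.rpow_le_rpow hχ0.le ?_ (by positivity)
    refine (min_le_right _ _).trans ?_
    rw [div_le_iff₀ hm₃0]
    have h1 : m' ≤ m₃ := by
      have h2 : 1 ≤ ((Real.sqrt n + 2) * ρ₂) ^ n := one_le_pow₀ (by nlinarith)
      have h3 : m' ≤ m₂ := by rw [hm₂]; exact le_mul_of_one_le_left hm'.le h2
      rw [hm₃]
      nlinarith
    have h4 : (0 : ℝ) ≤ 2 ^ (n + 1) * d := by positivity
    nlinarith
  have f3 : Aw ^ (2 / p) = (C' * Cind) ^ (2 / p) * m₃ ^ (2 / p) * l ^ (4 * (n : ℝ) / p - 2 * e) * χ ^ (2 * a) * En := by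
    rw [hAw, Real.mul_rpow (by positivity) (by positivity), Real.mul_rpow (by positivity) (by positivity),
      Real.mul_rpow (by positivity) (by positivity), Real.mul_rpow (by positivity) (by positivity),
      ← Real.rpow_mul hl0.le, ← Real.rpow_mul hχ0.le, ← Real.rpow_mul hEn]
    have g1 : (2 * (n : ℝ) - e * p) * (2 / p) = 4 * (n : ℝ) / p - 2 * e := by field_simp; ring
    have g2 : a * p * (2 / p) = 2 * a := by field_simp
    have g3 : p / 2 * (2 / p) = 1 := by field_simp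
    rw [g1, g2, g3, Real.rpow_one]
  have hpp : 0 ≤ p / (p - 2) := div_nonneg hp0.le (by linarith)
  calc p / (p - 2) * Aw ^ (2 / p) * M₀ ^ (1 - 2 / p)
      = p / (p - 2) * ((C' * Cind) ^ (2 / p) * m₃ ^ (2 / p) * l ^ (4 * (n : ℝ) / p - 2 * e) * χ ^ (2 * a) * En) * M₀ ^ (1 - 2 / p) := by
        rw [f3]
    _ ≤ p / (p - 2) * ((C' * Cind) ^ (2 / p) * ((CT * (Real.sqrt n + 2) ^ n) ^ (2 / p) * ρ₂ ^ n * m' ^ (2 / p)) * l ^ (4 * (n : ℝ) / p - 2 * e) *
          (((2 : ℝ) ^ (n + 1)) ^ (2 * a) * d ^ (2 * a)) * En) * M₀ ^ (1 - 2 / p) := by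
        gcongr
    _ = _ := by ring

/-- fields are bounded. -/
theorem an_fld_bdd (A : Arr n ι) (s : Finset ι) (K : Cls) (hA : A.In s K) (c : ι → ℂ) : ∃ Bd : ℝ, ∀ z, ‖A.fld s c z‖ ≤ Bd := by
  refine ⟨∑ α ∈ s, ‖c α‖ * (|A.L ^ (-(n : ℝ) / 2)| * K.B), fun z => ?_⟩
  unfold Arr.fld
  refine (norm_sum_le _ _).trans (Finset.sum_le_sum fun α hα => ?_)
  rw [norm_mul]
  refine mul_le_mul_of_nonneg_left ?_ (norm_nonneg _)
  unfold Arr.atom
  rw [norm_mul, norm_mul, an_norm_car, mul_one, Complex.norm_real, Real.norm_eq_abs]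
  refine mul_le_mul_of_nonneg_left ?_ (abs_nonneg _)
  have := (hA.prof α hα).bound 0 (Nat.zero_le _) (chart A.L (A.om α) (A.y α) (A.tc α) z)
  rwa [norm_iteratedFDeriv_zero] at this

/-- **L-AN-T13** (300 l.) **EXIT: THE TERMINAL ESTIMATE.**  `μ k = ν'(Q_{k+h})`, `S k = ⨆_{Q_k} |V|` (finite: `V` is bounded on … use `S k = ∞` impossible because `V` is continuous with compact support, or avoid: if `S k > 0` pick `x k ∈ Q_k` with `S k² ≤ 2 |V (x k)|²` when `S k < ∞`;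
boundedness: `‖V z‖ ≤ ∑ ‖c α‖ L^{-n/2} K.B`).  `f k = |V (x k)|²` if `S k > 0`, else `0`.  `an_dyadic` with `s = 2a`, `Mx = m' dmax`; its hypothesis for the class `i` is `an_term_class` with `d = 2^{-i} dmax`, `w k = μ k` on the class where `S k > 0`, else `0`. -/
theorem an_term (n : ℕ) (W : WCon) (hW : W.Sane n) (p a bb : ℝ) (hp : 2 < p) (ha : 0 ≤ a) (hb0 : 0 < bb) (hb1 : bb < 1) (hδ : 0 < bb - 1 + 2 * a) :
    ∃ C : ℝ, ∀ (σ' Cind C' : ℝ) (ι : Type) (A' : Arr n ι) (s : Finset ι) (c : ι → ℂ) (ν' : Measure (ST n)) (m' dmax M₀ ρ₂ : ℝ) (h : (Fin n → ℤ) × ℤ),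
      0 ≤ Cind → 0 ≤ C' → A'.In s W.K → (∀ α ∈ s, A'.tc α = 0) → WeakAt0 n W ⟨p, σ', a, Cind⟩ C' A'.L 1 → 0 < m' → 0 < dmax → 0 ≤ M₀ → 2 ≤ ρ₂ →
      Grow ν' m' n → ν' univ ≤ ENNReal.ofReal M₀ → (∀ k, ν' (cubeS ρ₂ k) ≤ ENNReal.ofReal (m' * dmax)) →
      ∑' k : (Fin n → ℤ) × ℤ, ν' (cubeS ρ₂ (k + h)) ^ bb * (⨆ z ∈ cubeS ρ₂ k, ‖A'.fld s c z‖ₑ) ^ 2 ≤
        ENNReal.ofReal (C * ρ₂ ^ n * (C' * Cind) ^ (2 / p) * m' ^ (bb - 1 + 2 / p) * A'.L ^ (4 * (n : ℝ) / p - 2 * eex n) * dmax ^ (bb - 1 + 2 * a) *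
          M₀ ^ (1 - 2 / p) * energy s c) := by
  classical
  obtain ⟨C₁, hC₁⟩ := an_term_class n W hW p a hp ha
  set q : ℝ := (2 : ℝ) ^ (-(bb - 1 + 2 * a)) with hq
  have hq0 : 0 < q := Real.rpow_pos_of_pos (by norm_num) _
  have hq1 : q < 1 := Real.rpow_lt_one_of_one_lt_of_neg (by norm_num) (by linarith)
  refine ⟨4 * (2 * |C₁| / (1 - q)), ?_⟩
  intro σ' Cind C' ι A' s c ν' m' dmax M₀ ρ₂ h hCind hC' hA htc hWk hm' hd hM₀ hρ hgrow hmass hcub
  have hρ0 : 0 < ρ₂ := by linarith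
  have hl0 : 0 < A'.L := by linarith [hA.one_le]
  have hEn : 0 ≤ energy s c := Finset.sum_nonneg fun α _ => by positivity
  obtain ⟨Bd, hBd⟩ := an_fld_bdd A' s W.K hA c
  set μ : (Fin n → ℤ) × ℤ → ℝ≥0∞ := fun k => ν' (cubeS ρ₂ (k + h)) with hμ
  set S : (Fin n → ℤ) × ℤ → ℝ≥0∞ := fun k => ⨆ z ∈ cubeS ρ₂ k, ‖A'.fld s c z‖ₑ with hS
  have hSfin : ∀ k, S k ≠ ∞ := by
    intro k
    refine ne_top_of_le_ne_top (ENNReal.ofReal_ne_top (r := Bd)) ?_
    refine iSup₂_le fun z _ => ?_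
    rw [← ofReal_norm]
    exact ENNReal.ofReal_le_ofReal (hBd z)
  have hex : ∀ k, S k ≠ 0 → ∃ z, z ∈ cubeS ρ₂ k ∧ S k / 2 < ‖A'.fld s c z‖ₑ := by
    intro k hk
    have := ENNReal.half_lt_self hk (hSfin k)
    obtain ⟨z, hz, hlt⟩ := lt_biSup_iff.1 this
    exact ⟨z, hz, hlt⟩
  set x : (Fin n → ℤ) × ℤ → ST n := fun k => if hk : S k ≠ 0 then (hex k hk).choose else 0 with hx
  have hx1 : ∀ k, S k ≠ 0 → x k ∈ cubeS ρ₂ k ∧ S k / 2 < ‖A'.fld s c (x k)‖ₑ := by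
    intro k hk
    have : x k = (hex k hk).choose := by rw [hx]; exact dif_pos hk
    rw [this]
    exact (hex k hk).choose_spec
  set f : (Fin n → ℤ) × ℤ → ℝ≥0∞ := fun k => if S k ≠ 0 then ‖A'.fld s c (x k)‖ₑ ^ 2 else 0 with hf
  have hSf : ∀ k, S k ^ 2 ≤ 4 * f k := by
    intro k
    by_cases hk : S k ≠ 0
    · have h1 : S k ≤ 2 * ‖A'.fld s c (x k)‖ₑ := by
        have := (hx1 k hk).2.le
        rwa [ENNReal.div_le_iff (by norm_num) (by norm_num), mul_comm] at this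
      have h2 : f k = ‖A'.fld s c (x k)‖ₑ ^ 2 := by rw [hf]; exact if_pos hk
      rw [h2]
      calc S k ^ 2 ≤ (2 * ‖A'.fld s c (x k)‖ₑ) ^ 2 := pow_le_pow_left₀ zero_le h1 2
        _ = 4 * ‖A'.fld s c (x k)‖ₑ ^ 2 := by rw [mul_pow]; norm_num
    · rw [not_not] at hk
      rw [hk]
      simp
  set B : ℝ := |C₁| * ρ₂ ^ n * (C' * Cind) ^ (2 / p) * m' ^ (2 / p) * A'.L ^ (4 * (n : ℝ) / p - 2 * eex n) * dmax ^ (2 * a) * M₀ ^ (1 - 2 / p) * energy s c with hB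
  have hB0 : 0 ≤ B := by positivity
  have hcls : ∀ i : ℕ, ∑' k, (if ENNReal.ofReal (m' * dmax * (2 : ℝ) ^ (-(i : ℝ) - 1)) < μ k ∧ μ k ≤ ENNReal.ofReal (m' * dmax * (2 : ℝ) ^ (-(i : ℝ))) then μ k * f k else 0) ≤
      ENNReal.ofReal (B * ((2 : ℝ) ^ (-(i : ℝ))) ^ (2 * a)) := by
    intro i
    have h2i : 0 < (2 : ℝ) ^ (-(i : ℝ)) := Real.rpow_pos_of_pos (by norm_num) _
    set w : (Fin n → ℤ) × ℤ → ℝ≥0∞ := fun k =>
      if (ENNReal.ofReal (m' * dmax * (2 : ℝ) ^ (-(i : ℝ) - 1)) < μ k ∧ μ k ≤ ENNReal.ofReal (m' * dmax * (2 : ℝ) ^ (-(i : ℝ)))) ∧ S k ≠ 0 then μ k else 0 with hw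
    have key := hC₁ σ' Cind C' ι A' s c ν' m' (dmax * (2 : ℝ) ^ (-(i : ℝ))) M₀ ρ₂ h w x hCind hC' hA htc hWk hm' (by positivity) hM₀ hρ hgrow hmass
      (fun k => by
        rw [hw]
        simp only
        split_ifs
        · exact le_rfl
        · exact zero_le)
      (fun k => by
        rw [hw]
        simp only
        split_ifs with hc
        · rw [← mul_assoc]; exact hc.1.2
        · exact zero_le)
      (fun k hk => by
        have hk' : S k ≠ 0 := by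
          by_contra h0
          apply hk
          rw [hw]
          exact if_neg (fun hc => hc.2 h0)
        refine ⟨(hx1 k hk').1, ?_⟩
        intro h0
        have := (hx1 k hk').2
        rw [h0, enorm_zero] at this
        exact absurd this not_lt_zero)
    refine le_trans (le_of_eq (tsum_congr fun k => ?_)) (key.trans (ENNReal.ofReal_le_ofReal ?_))
    · rw [hw, hf]
      simp only
      by_cases hc : ENNReal.ofReal (m' * dmax * (2 : ℝ) ^ (-(i : ℝ) - 1)) < μ k ∧ μ k ≤ ENNReal.ofReal (m' * dmax * (2 : ℝ) ^ (-(i : ℝ)))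
      · by_cases hk : S k ≠ 0
        · rw [if_pos hc, if_pos hk, if_pos ⟨hc, hk⟩]
        · rw [if_pos hc, if_neg hk, if_neg (fun h' => hk h'.2), mul_zero, zero_mul]
      · rw [if_neg hc, if_neg (fun h' => hc h'.1), zero_mul]
    · rw [Real.mul_rpow hd.le h2i.le, hB]
      have h3 : C₁ ≤ |C₁| := le_abs_self _
      have h4 : 0 ≤ ρ₂ ^ n * (C' * Cind) ^ (2 / p) * m' ^ (2 / p) * A'.L ^ (4 * (n : ℝ) / p - 2 * eex n) * (dmax ^ (2 * a) * ((2 : ℝ) ^ (-(i : ℝ))) ^ (2 * a)) * M₀ ^ (1 - 2 / p) * energy s c := by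
        positivity
      nlinarith [mul_le_mul_of_nonneg_right h3 h4]
  have hdy := an_dyadic μ f bb (2 * a) (m' * dmax) B hb0 hb1 hδ (by positivity) hB0 (fun k => hcub _) hcls
  calc ∑' k, μ k ^ bb * S k ^ 2 ≤ ∑' k, 4 * (μ k ^ bb * f k) := by
        refine ENNReal.tsum_le_tsum fun k => ?_
        calc μ k ^ bb * S k ^ 2 ≤ μ k ^ bb * (4 * f k) := mul_le_mul_right (hSf k) _
          _ = 4 * (μ k ^ bb * f k) := by ring
    _ = 4 * ∑' k, μ k ^ bb * f k := ENNReal.tsum_mul_left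
    _ ≤ 4 * ENNReal.ofReal (2 * (m' * dmax) ^ (bb - 1) * B / (1 - q)) := mul_le_mul_right hdy _
    _ = ENNReal.ofReal (4 * (2 * (m' * dmax) ^ (bb - 1) * B / (1 - q))) := by
        rw [ENNReal.ofReal_mul (by norm_num)]
        norm_num
    _ = _ := by
        congr 1
        rw [hB, Real.mul_rpow hm'.le hd.le, Real.rpow_add hm', Real.rpow_add hd]
        ring

/-- Stores the on-demand equation lemmas of the definitions of THIS module here (rule 6 hygiene). -/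
theorem an_term_forced : True := by
  have := @movM.eq_1
  trivial

end Claimed.Agent.R257
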