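import Claimed.Agent.R257.Ang.Resc

/-!
# R257 / Ang / Trunc : BAND LIMITED APPROXIMATION OF COMPACT PACKETS (H angular.tex l.93-107), COUNT OF THE RELEVANT LABELS      Mathlib + Infra/Defs + Lib/BD.      (architect helper83)

SHARP truncation of the native space-time Fourier transform at the radius `ρ` (`ρ = L^{1/4}` in the application): only the SUP NORM of the error is used, no decay of the truncated profile is needed.
* `an_four_inv`  : `φ ∈ C_c^∞(ST n)` is `∫ ch (pr X w) g w dw`, `g w = (2π)^{-(n+1)} ∫ φ X ch (-pr X w) dX`, `g` integrable.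
* `an_four_decay`: `‖∫ φ X ch (-pr X w) dX‖ ≤ C B (1+‖w‖)^{-J}` from `J` derivative bounds.
* `an_trunc_prof`: `φ = φb + error`, `φb ∈ FS (closedBall 0 ρ)`, `‖error‖_∞ ≤ C B ρ^{-N}`, `J = N + n + 2`.
* `an_trunc_atom`: the CONJUGATE atom is, up to `C B L^{-n/2} ρ^{-N}`, in `FS (cap (-ω) (ρ/L) (2ρ²/L²))`   (conjugation: `τ = -|ξ|²` becomes `τ = |ξ|²`, the convention of Lib/BD).
* `an_count`, `an_far_zero` : at most `C m₀ L^{2n}` labels have a packet meeting the box of the measure.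
-/

set_option autoImplicit false

namespace Claimed.Agent.R257

open MeasureTheory Metric Set
open scoped ENNReal InnerProductSpace ContDiff

variable {n : ℕ} {ι : Type}

theorem an_u_haar : (volume : Measure (ST n)).IsAddHaarMeasure := by
  rw [Measure.volume_eq_prod]
  infer_instance

theorem an_u_finrank : Module.finrank ℝ (ST n) = n + 1 := by
  simp

theorem an_u_pr_smul (X w : ST n) (c : ℝ) : BD.pr X (c • w) = c * BD.pr X w := by
  unfold BD.pr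
  simp only [Prod.smul_fst, Prod.smul_snd, inner_smul_right, smul_eq_mul]
  ring

theorem an_u_pr_comm (X w : ST n) : BD.pr X w = BD.pr w X := by
  unfold BD.pr
  rw [real_inner_comm, mul_comm]

theorem an_u_inner (x y : WithLp 2 (ST n)) : ⟪x, y⟫_ℝ = BD.pr x.ofLp y.ofLp := by
  rw [WithLp.prod_inner_apply]
  unfold BD.pr
  simp [mul_comm]

theorem an_u_char (t : ℝ) : ((Real.fourierChar t : Circle) : ℂ) = BD.ch (2 * Real.pi * t) := by
  rw [BD.bdb_ch_eq]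
  congr 2
  have : (2 * Real.pi) ≠ 0 := by positivity
  field_simp

open scoped FourierTransform SchwartzMap in
/-- **L-AN-U1** (300 l.) Fourier inversion on `ST n` (sup norm, product volume).  Transport to the inner product space `H = WithLp 2 (E n × ℝ)` (`WithLp.volume_preserving_toLp`, inner product `= pr`); `φ ∘ ofLp` is smooth with compact support, hence Schwartz
(`HasCompactSupport.toSchwartzMap`); `𝓕` of a Schwartz function is Schwartz, hence integrable and continuous; inversion `Continuous.fourierInv_fourier_eq` / `SchwartzMap.fourierInv_fourier_eq`; substitute `w ↦ w/(2π)` (cf. `BD.bdb_ch_eq`, `BD.bdb_ker1` in Lib/BD/Ker.lean). -/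
theorem an_four_inv (φ : ST n → ℂ) (hφ : ContDiff ℝ ∞ φ) (hs : HasCompactSupport φ) :
    Integrable (fun w : ST n => ∫ X, φ X * BD.ch (-BD.pr X w)) ∧
      ∀ X, φ X = ∫ w, BD.ch (BD.pr X w) * (((2 * Real.pi) ^ (n + 1) : ℝ)⁻¹ * ∫ X', φ X' * BD.ch (-BD.pr X' w)) := by
  have := an_u_haar (n := n)
  have hpi : (0 : ℝ) < 2 * Real.pi := by positivity
  set L : WithLp 2 (ST n) ≃L[ℝ] ST n := WithLp.prodContinuousLinearEquiv 2 ℝ (E n) ℝ with hL
  have hLa : ∀ x, L x = x.ofLp := fun x => rfl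
  have hf1 : ContDiff ℝ ∞ (φ ∘ L) := hφ.comp L.contDiff
  have hf2 : HasCompactSupport (φ ∘ L) := hs.comp_homeomorph L.toHomeomorph
  set Ψ : 𝓢(WithLp 2 (ST n), ℂ) := hf2.toSchwartzMap hf1 with hΨ
  have hΨa : ∀ x, Ψ x = φ x.ofLp := fun x => rfl
  set G : ST n → ℂ := fun w => ∫ X, φ X * BD.ch (-BD.pr X w) with hG
  have mp : MeasurePreserving (WithLp.toLp 2 : ST n → WithLp 2 (ST n)) := WithLp.volume_preserving_toLp (E n) ℝ
  have me : MeasurableEmbedding (WithLp.toLp 2 : ST n → WithLp 2 (ST n)) := (MeasurableEquiv.toLp 2 (ST n)).measurableEmbedding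
  -- the transform of `Ψ`
  have e1 : ∀ w : ST n, (𝓕 Ψ) (WithLp.toLp 2 w) = G ((2 * Real.pi) • w) := by
    intro w
    rw [SchwartzMap.fourier_coe, Real.fourier_eq, ← mp.integral_comp me]
    refine integral_congr_ae (Filter.Eventually.of_forall fun X => ?_)
    simp only [hΨa, an_u_inner, Circle.smul_def, smul_eq_mul, an_u_char, an_u_pr_smul]
    rw [mul_comm]
    congr 2
    ring
  have hint : Integrable (fun w : ST n => (𝓕 Ψ) (WithLp.toLp 2 w)) := mp.integrable_comp_of_integrable (𝓕 Ψ).integrable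
  have hGs : Integrable (fun w : ST n => G ((2 * Real.pi) • w)) := hint.congr (Filter.Eventually.of_forall e1)
  have hGi : Integrable G := (integrable_comp_smul_iff volume G hpi.ne').1 hGs
  refine ⟨hGi, fun X => ?_⟩
  have h1 : 𝓕⁻ (𝓕 Ψ) = Ψ := FourierTransform.fourierInv_fourier_eq Ψ
  have h2 : φ X = (𝓕⁻ (𝓕 Ψ)) (WithLp.toLp 2 X) := by
    rw [h1]
    rfl
  rw [h2, SchwartzMap.fourierInv_coe, Real.fourierInv_eq, ← mp.integral_comp me]
  have e2 : ∀ w : ST n, (Real.fourierChar ⟪WithLp.toLp 2 w, WithLp.toLp 2 X⟫_ℝ) • (𝓕 Ψ) (WithLp.toLp 2 w)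
      = (fun w' : ST n => BD.ch (BD.pr X w') * G w') ((2 * Real.pi) • w) := by
    intro w
    simp only [e1, an_u_inner, Circle.smul_def, smul_eq_mul, an_u_char, an_u_pr_smul, an_u_pr_comm X w]
  simp only [e2]
  rw [Measure.integral_comp_smul volume (fun w' : ST n => BD.ch (BD.pr X w') * G w') (2 * Real.pi), an_u_finrank, abs_of_pos (by positivity),
    Complex.real_smul, ← integral_const_mul]
  refine integral_congr_ae (Filter.Eventually.of_forall fun w => ?_)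
  simp only
  ring

/-- the pairing `pr` as a continuous bilinear map -/
noncomputable def an_u_L (n : ℕ) : ST n →L[ℝ] ST n →L[ℝ] ℝ :=
  (isBoundedBilinearMap_inner (𝕜 := ℝ) (E := E n)).toContinuousLinearMap.bilinearComp (ContinuousLinearMap.fst ℝ (E n) ℝ) (ContinuousLinearMap.fst ℝ (E n) ℝ) +
    (ContinuousLinearMap.mul ℝ ℝ).bilinearComp (ContinuousLinearMap.snd ℝ (E n) ℝ) (ContinuousLinearMap.snd ℝ (E n) ℝ)

theorem an_u_L_apply (X w : ST n) : an_u_L n X w = BD.pr X w := by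
  simp [an_u_L, BD.pr]

/-- a norming direction for the sup norm -/
theorem an_u_dir (w : ST n) : ∃ e : ST n, ‖e‖ ≤ 1 ∧ BD.pr e w = ‖w‖ := by
  by_cases h : |w.2| ≤ ‖w.1‖
  · refine ⟨(‖w.1‖⁻¹ • w.1, 0), ?_, ?_⟩
    · rw [Prod.norm_def]
      simp only [norm_zero, norm_smul, norm_inv, norm_norm]
      refine max_le ?_ zero_le_one
      by_cases h0 : ‖w.1‖ = 0
      · simp [h0]
      · rw [inv_mul_cancel₀ h0]
    · unfold BD.pr
      simp only [zero_mul, add_zero, inner_smul_left, real_inner_self_eq_norm_sq, conj_trivial]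
      rw [Prod.norm_def, Real.norm_eq_abs, max_eq_left h]
      by_cases h0 : ‖w.1‖ = 0
      · simp [h0]
      · field_simp
  · have h' : ‖w.1‖ ≤ |w.2| := (not_le.1 h).le
    refine ⟨(0, SignType.sign w.2), ?_, ?_⟩
    · rw [Prod.norm_def]
      simp only [norm_zero, Real.norm_eq_abs]
      refine max_le zero_le_one ?_
      rcases lt_trichotomy w.2 0 with h1 | h1 | h1
      · simp [sign_neg h1]
      · simp [h1]
      · simp [sign_pos h1]
    · unfold BD.pr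
      simp only [inner_zero_left, zero_add]
      rw [Prod.norm_def, Real.norm_eq_abs, max_eq_right h', sign_mul_self]

theorem an_u_four (φ : ST n → ℂ) (w : ST n) :
    ∫ X, φ X * BD.ch (-BD.pr X w) = VectorFourier.fourierIntegral Real.fourierChar volume (an_u_L n).toLinearMap₁₂ φ ((2 * Real.pi)⁻¹ • w) := by
  rw [VectorFourier.fourierIntegral]
  refine integral_congr_ae (Filter.Eventually.of_forall fun X => ?_)
  simp only [ContinuousLinearMap.toLinearMap₁₂_apply_apply_apply, an_u_L_apply, Circle.smul_def, smul_eq_mul, an_u_char, an_u_pr_smul]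
  rw [mul_comm]
  congr 2
  have : (2 * Real.pi) ≠ 0 := by positivity
  field_simp

theorem an_u_deriv_bd {J : ℕ} {Rp B : ℝ} {φ : ST n → ℂ} (h : Prof J Rp B φ) (j : ℕ) (hj : j ≤ J) :
    Integrable (iteratedFDeriv ℝ j φ) ∧ ∫ X, ‖iteratedFDeriv ℝ j φ X‖ ≤ B * (volume (closedBall (0 : ST n) Rp)).toReal := by
  have hts : tsupport φ ⊆ closedBall (0 : ST n) Rp := by
    refine closure_minimal ?_ isClosed_closedBall
    intro z hz
    rw [mem_closedBall, dist_zero_right]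
    exact h.supp z hz
  have hcs : HasCompactSupport φ := HasCompactSupport.of_support_subset_isCompact (isCompact_closedBall (0 : ST n) Rp) (subset_trans subset_closure hts)
  have hc : Continuous (iteratedFDeriv ℝ j φ) := h.smooth.continuous_iteratedFDeriv (by exact_mod_cast le_top)
  have hi : Integrable (iteratedFDeriv ℝ j φ) := hc.integrable_of_hasCompactSupport (hcs.iteratedFDeriv j)
  refine ⟨hi, ?_⟩
  have hz : ∀ X, X ∉ closedBall (0 : ST n) Rp → ‖iteratedFDeriv ℝ j φ X‖ = 0 := by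
    intro X hX
    have : X ∉ Function.support (iteratedFDeriv ℝ j φ) := fun hh => hX (hts (support_iteratedFDeriv_subset j hh))
    rw [Function.notMem_support] at this
    rw [this, norm_zero]
  rw [← setIntegral_eq_integral_of_forall_compl_eq_zero hz]
  have hfin : volume (closedBall (0 : ST n) Rp) ≠ ⊤ := (isCompact_closedBall (0 : ST n) Rp).measure_lt_top.ne
  calc ∫ X in closedBall (0 : ST n) Rp, ‖iteratedFDeriv ℝ j φ X‖ ≤ ∫ X in closedBall (0 : ST n) Rp, B :=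
        setIntegral_mono hi.norm.integrableOn (integrableOn_const hfin) (fun X => h.bound j hj X)
    _ = B * (volume (closedBall (0 : ST n) Rp)).toReal := by
        rw [setIntegral_const, smul_eq_mul, mul_comm, Measure.real]

/-- **L-AN-U2** (300 l.) decay.  Direction `e`: `(w₁/‖w₁‖, 0)` if `|w₂| ≤ ‖w₁‖`, else `(0, sign w₂)`: `‖e‖ = 1`, `pr e w = ‖w‖`.  `ψ_j X = iteratedFDeriv ℝ j φ X (fun _ => e)`, `‖ψ_j‖ ≤ B`, `fderiv ψ_j · e = ψ_{j+1}`;
integration by parts along `e` (`integral_mul_fderiv_eq_neg_fderiv_mul_of_integrable`): `∫ ψ_j ch(-pr X w) = (i‖w‖)⁻¹ ∫ ψ_{j+1} ch(-pr X w)`;  `‖∫ ψ_J ch‖ ≤ B vol (closedBall 0 Rp)`;  `(1+t)^J ≤ 2^J max 1 t^J`.   (Alternative: `pk_nsp` of R255/Pk/NspMain.) -/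
theorem an_four_decay (n J : ℕ) (Rp : ℝ) (hRp : 0 ≤ Rp) : ∃ C : ℝ, ∀ (B : ℝ) (φ : ST n → ℂ), Prof J Rp B φ →
    ∀ w : ST n, ‖∫ X, φ X * BD.ch (-BD.pr X w)‖ ≤ C * B * (1 + ‖w‖) ^ (-(J : ℝ)) := by
  have := an_u_haar (n := n)
  set V : ℝ := (volume (closedBall (0 : ST n) Rp)).toReal with hV
  refine ⟨2 ^ J * V, fun B φ h w => ?_⟩
  have hpi : (2 * Real.pi) ≠ 0 := by positivity
  obtain ⟨e, he1, he2⟩ := an_u_dir w
  set G : ℂ := ∫ X, φ X * BD.ch (-BD.pr X w) with hG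
  -- the two bounds
  have key : ∀ j ≤ J, ‖w‖ ^ j * ‖G‖ ≤ B * V := by
    intro j hj
    have h1 := VectorFourier.fourierIntegral_iteratedFDeriv (an_u_L n) (μ := volume) (N := (J : ℕ∞)) (f := φ)
      (h.smooth.of_le (by exact_mod_cast le_top)) (fun m hm => (an_u_deriv_bd h m (by exact_mod_cast hm)).1) (n := j) (by exact_mod_cast hj)
    have h2 := congrFun h1 ((2 * Real.pi)⁻¹ • w)
    have h3 := congrArg (fun T => T (fun _ => e)) h2
    simp only [VectorFourier.fourierPowSMulRight_apply, ← an_u_four, ← hG] at h3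
    have h4 : ‖VectorFourier.fourierIntegral Real.fourierChar volume (an_u_L n).toLinearMap₁₂ (iteratedFDeriv ℝ j φ) ((2 * Real.pi)⁻¹ • w) (fun _ => e)‖ ≤ B * V := by
      refine (ContinuousMultilinearMap.le_opNorm _ _).trans ?_
      have h5 : ∏ i : Fin j, ‖e‖ ≤ 1 := Finset.prod_le_one (fun _ _ => norm_nonneg _) (fun _ _ => he1)
      refine (mul_le_of_le_one_right (norm_nonneg _) h5).trans ?_
      exact (VectorFourier.norm_fourierIntegral_le_integral_norm _ _ _ _ _).trans (an_u_deriv_bd h j hj).2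
    rw [h3] at h4
    refine le_trans (le_of_eq ?_) h4
    simp only [neg_apply, ContinuousLinearMap.flip_apply, an_u_L_apply, an_u_pr_smul, he2, Finset.prod_const, Finset.card_univ, Fintype.card_fin]
    rw [norm_smul, norm_smul, norm_pow, norm_pow, norm_neg, norm_neg]
    simp only [norm_mul, Complex.norm_I, Complex.norm_real, Real.norm_eq_abs, Complex.norm_ofNat, mul_one, abs_inv, abs_mul, abs_norm, Nat.abs_ofNat]
    rw [← mul_assoc, ← mul_pow]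
    congr 2
    rw [abs_of_pos Real.pi_pos]
    field_simp
  have k0 : ‖G‖ ≤ B * V := by simpa using key 0 (Nat.zero_le _)
  have kJ := key J le_rfl
  have hw : 0 ≤ ‖w‖ := norm_nonneg _
  have h1w : 0 < 1 + ‖w‖ := by positivity
  rw [Real.rpow_neg h1w.le, Real.rpow_natCast, ← div_eq_mul_inv, le_div_iff₀ (by positivity)]
  have hBV : 0 ≤ B * V := (norm_nonneg _).trans k0
  rcases le_total ‖w‖ 1 with h1 | h1
  · calc ‖G‖ * (1 + ‖w‖) ^ J ≤ ‖G‖ * 2 ^ J := by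
          gcongr
          linarith
      _ ≤ (B * V) * 2 ^ J := by gcongr
      _ = 2 ^ J * V * B := by ring
  · calc ‖G‖ * (1 + ‖w‖) ^ J ≤ ‖G‖ * (2 * ‖w‖) ^ J := by
          gcongr
          linarith
      _ = 2 ^ J * (‖w‖ ^ J * ‖G‖) := by rw [mul_pow]; ring
      _ ≤ 2 ^ J * (B * V) := by gcongr
      _ = 2 ^ J * V * B := by ring

/-- **L-AN-U3** (120 l.) tail integral in dimension `n + 1`:  `(1+‖w‖)^{-(N+n+2)} ≤ ρ^{-N} (1+‖w‖)^{-(n+2)}` for `‖w‖ > ρ`, `integrable_one_add_norm` (`finrank (ST n) = n + 1 < n + 2`). -/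
theorem an_tail (n N : ℕ) : ∃ C : ℝ, 0 ≤ C ∧ ∀ ρ : ℝ, 1 ≤ ρ →
    ∫⁻ w in {w : ST n | ρ < ‖w‖}, ENNReal.ofReal ((1 + ‖w‖) ^ (-((N + n + 2 : ℕ) : ℝ))) ≤ ENNReal.ofReal (C * ρ ^ (-(N : ℝ))) := by
  have := an_u_haar (n := n)
  have hi : Integrable (fun w : ST n => (1 + ‖w‖) ^ (-((n + 2 : ℕ) : ℝ))) := by
    refine integrable_one_add_norm ?_
    rw [an_u_finrank]
    push_cast
    linarith
  refine ⟨∫ w : ST n, (1 + ‖w‖) ^ (-((n + 2 : ℕ) : ℝ)), integral_nonneg fun w => by positivity, fun ρ hρ => ?_⟩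
  have hρ0 : 0 < ρ := by linarith
  have hm : MeasurableSet {w : ST n | ρ < ‖w‖} := measurableSet_lt measurable_const measurable_norm
  rw [mul_comm, ← integral_const_mul, ofReal_integral_eq_lintegral_ofReal (hi.const_mul _) (Filter.Eventually.of_forall fun w => by positivity)]
  refine le_trans (setLIntegral_mono' hm fun w hw => ?_) (setLIntegral_le_lintegral _ _)
  refine ENNReal.ofReal_le_ofReal ?_
  have hw : ρ < ‖w‖ := hw
  have h1 : 0 < 1 + ‖w‖ := by positivity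
  have e1 : (-((N + n + 2 : ℕ) : ℝ)) = -(N : ℝ) + -((n + 2 : ℕ) : ℝ) := by
    push_cast
    ring
  rw [e1, Real.rpow_add h1]
  refine mul_le_mul_of_nonneg_right ?_ (by positivity)
  rw [Real.rpow_neg h1.le, Real.rpow_neg hρ0.le, Real.rpow_natCast, Real.rpow_natCast]
  refine inv_anti₀ (by positivity) ?_
  gcongr
  linarith

theorem an_u4_cpt {J : ℕ} {Rp B : ℝ} {φ : ST n → ℂ} (h : Prof J Rp B φ) : HasCompactSupport φ :=
  HasCompactSupport.intro (isCompact_closedBall (0 : ST n) Rp) fun z hz => by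
    by_contra hne
    exact hz (by simpa using h.supp z hne)

theorem an_u4_B {J : ℕ} {Rp B : ℝ} {φ : ST n → ℂ} (h : Prof J Rp B φ) : 0 ≤ B :=
  (norm_nonneg _).trans (h.bound 0 (Nat.zero_le J) 0)

/-- **L-AN-U4** (200 l.) truncation of a profile: `g` from `an_four_inv`, `φb X = ∫ ch (pr X w) (1[‖w‖ ≤ ρ] g w) dw`;  `‖φ X - φb X‖ ≤ ∫_{‖w‖>ρ} ‖g‖` (`an_four_decay`, `an_tail`). -/
theorem an_trunc_prof (n N : ℕ) (Rp : ℝ) (hRp : 0 ≤ Rp) : ∃ C : ℝ, 0 ≤ C ∧ ∀ (B ρ : ℝ) (φ : ST n → ℂ), 1 ≤ ρ → Prof (N + n + 2) Rp B φ →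
    ∃ φb : ST n → ℂ, BD.FS (closedBall 0 ρ) φb ∧ ∀ X, ‖φ X - φb X‖ ≤ C * B * ρ ^ (-(N : ℝ)) := by
  obtain ⟨C₁, hC₁⟩ := an_four_decay n (N + n + 2) Rp hRp
  obtain ⟨C₂, hC₂0, hC₂⟩ := an_tail n N
  have hpi : (0 : ℝ) < (2 * Real.pi) ^ (n + 1) := by positivity
  refine ⟨((2 * Real.pi) ^ (n + 1))⁻¹ * max C₁ 0 * C₂, by positivity, fun B ρ φ hρ hP => ?_⟩
  have hB := an_u4_B hP
  obtain ⟨hGi, hinv⟩ := an_four_inv φ hP.smooth (an_u4_cpt hP)
  obtain ⟨g, hg⟩ : ∃ g : ST n → ℂ, g = fun w => (((2 * Real.pi) ^ (n + 1) : ℝ)⁻¹ : ℂ) * ∫ X', φ X' * BD.ch (-BD.pr X' w) :=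
    ⟨_, rfl⟩
  have hgi : Integrable g := by
    rw [hg]
    exact hGi.const_mul _
  have hgn : ∀ w, ‖g w‖ ≤ ((2 * Real.pi) ^ (n + 1))⁻¹ * max C₁ 0 * B * (1 + ‖w‖) ^ (-((N + n + 2 : ℕ) : ℝ)) := by
    intro w
    rw [hg]
    simp only [norm_mul]
    have e : ‖(((2 * Real.pi) ^ (n + 1) : ℝ)⁻¹ : ℂ)‖ = ((2 * Real.pi) ^ (n + 1))⁻¹ := by
      rw [norm_inv, Complex.norm_real, Real.norm_of_nonneg hpi.le]
    rw [e, mul_assoc, mul_assoc]
    refine mul_le_mul_of_nonneg_left ((hC₁ B φ hP w).trans ?_) (by positivity)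
    rw [mul_assoc]
    exact mul_le_mul_of_nonneg_right (le_max_left _ _) (by positivity)
  have hgbi : Integrable ((closedBall (0 : ST n) ρ).indicator g) := hgi.indicator measurableSet_closedBall
  refine ⟨fun X => ∫ w, BD.ch (BD.pr X w) * (closedBall (0 : ST n) ρ).indicator g w,
    ⟨_, hgbi, fun w hw => indicator_of_notMem hw _, fun z => rfl⟩, fun X => ?_⟩
  have e1 : φ X = ∫ w, BD.ch (BD.pr X w) * g w := by
    rw [hinv X, hg]
    push_cast
    rfl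
  rw [e1, ← integral_sub (BD.bdu_int_ch hgi X) (BD.bdu_int_ch hgbi X)]
  refine (norm_integral_le_lintegral_norm _).trans ?_
  obtain ⟨c', hc'⟩ : ∃ c' : ℝ, c' = ((2 * Real.pi) ^ (n + 1))⁻¹ * max C₁ 0 * B := ⟨_, rfl⟩
  have hc'0 : 0 ≤ c' := by rw [hc']; positivity
  have h1 : ∫⁻ w, ENNReal.ofReal ‖BD.ch (BD.pr X w) * g w - BD.ch (BD.pr X w) * (closedBall (0 : ST n) ρ).indicator g w‖
      ≤ ENNReal.ofReal c' * ∫⁻ w in {w : ST n | ρ < ‖w‖}, ENNReal.ofReal ((1 + ‖w‖) ^ (-((N + n + 2 : ℕ) : ℝ))) := by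
    have hm : MeasurableSet {w : ST n | ρ < ‖w‖} := measurableSet_lt measurable_const measurable_norm
    rw [← lintegral_const_mul' _ _ ENNReal.ofReal_ne_top, ← lintegral_indicator hm]
    refine lintegral_mono fun w => ?_
    by_cases hw : ρ < ‖w‖
    · have hw' : w ∉ closedBall (0 : ST n) ρ := by simpa using hw
      rw [indicator_of_mem (show w ∈ {w : ST n | ρ < ‖w‖} from hw), indicator_of_notMem hw', mul_zero, sub_zero, norm_mul,
        BD.norm_ch, one_mul, ← ENNReal.ofReal_mul hc'0]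
      refine ENNReal.ofReal_le_ofReal ?_
      rw [hc']
      exact hgn w
    · have hw' : w ∈ closedBall (0 : ST n) ρ := by simpa using hw
      rw [indicator_of_mem hw', sub_self, norm_zero, ENNReal.ofReal_zero]
      exact zero_le
  have h2 := h1.trans (mul_le_mul_right (hC₂ ρ hρ) (ENNReal.ofReal c'))
  rw [← ENNReal.ofReal_mul hc'0] at h2
  have h3 := ENNReal.toReal_mono ENNReal.ofReal_ne_top h2
  rw [ENNReal.toReal_ofReal (by positivity)] at h3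
  refine h3.trans (le_of_eq ?_)
  rw [hc']
  ring

theorem an_u5_car (w : E n) (z : ST n) : car w z = BD.ch (BD.pr z (w, -‖w‖ ^ 2)) := by
  unfold car BD.ch BD.pr
  congr 1
  rw [mul_comm]
  congr 2
  ring

theorem an_u5_chart (L : ℝ) (w y : E n) (z : ST n) :
    chart L w y 0 z = BD.Lam (-w) L⁻¹ (L ^ 2)⁻¹ (z + (-y, 0)) := by
  unfold chart BD.Lam
  ext1
  · simp only [Prod.fst_add, Prod.snd_add, add_zero, smul_neg]
    congr 1
  · simp only [Prod.snd_add, add_zero, sub_zero]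
    rw [div_eq_mul_inv, mul_comm]

theorem an_u5_cap (w : E n) {L ρ : ℝ} (hL : 1 ≤ L) (hρ : 1 ≤ ρ) :
    (fun p : ST n => -p) '' ((fun p : ST n => ((w, -‖w‖ ^ 2) : ST n) + p) ''
      (BD.LamT (-w) L⁻¹ (L ^ 2)⁻¹ '' closedBall (0 : ST n) ρ)) ⊆ BD.cap (-w) (ρ / L) (2 * ρ ^ 2 / L ^ 2) := by
  rintro _ ⟨_, ⟨_, ⟨q, hq, rfl⟩, rfl⟩, rfl⟩
  have hL0 : 0 < L := by linarith
  have hq' : ‖q‖ ≤ ρ := by simpa using hq
  have hq1 : ‖q.1‖ ≤ ρ := (norm_fst_le q).trans hq'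
  have hq2 : |q.2| ≤ ρ := (norm_snd_le q).trans hq'
  unfold BD.cap BD.LamT
  constructor
  · show ‖-(w + L⁻¹ • q.1) - -w‖ ≤ ρ / L
    have e : -(w + L⁻¹ • q.1) - -w = -(L⁻¹ • q.1) := by abel
    rw [e, norm_neg, norm_smul, norm_inv, Real.norm_of_nonneg hL0.le, div_eq_inv_mul]
    exact mul_le_mul_of_nonneg_left hq1 (by positivity)
  · show |-(-‖w‖ ^ 2 + (2 * L⁻¹ * ⟪-w, q.1⟫_ℝ + (L ^ 2)⁻¹ * q.2)) - ‖-(w + L⁻¹ • q.1)‖ ^ 2| ≤ 2 * ρ ^ 2 / L ^ 2
    rw [norm_neg, norm_add_sq_real, inner_neg_left, inner_smul_right, norm_smul, norm_inv, Real.norm_of_nonneg hL0.le]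
    have e : -(-‖w‖ ^ 2 + (2 * L⁻¹ * -⟪w, q.1⟫_ℝ + (L ^ 2)⁻¹ * q.2)) - (‖w‖ ^ 2 + 2 * (L⁻¹ * ⟪w, q.1⟫_ℝ) + (L⁻¹ * ‖q.1‖) ^ 2)
        = -((L ^ 2)⁻¹ * (q.2 + ‖q.1‖ ^ 2)) := by
      field_simp
      ring
    rw [e, abs_neg, abs_mul, abs_of_nonneg (by positivity : (0 : ℝ) ≤ (L ^ 2)⁻¹), div_eq_inv_mul]
    refine mul_le_mul_of_nonneg_left ?_ (by positivity)
    have h1 : |q.2 + ‖q.1‖ ^ 2| ≤ |q.2| + ‖q.1‖ ^ 2 := by
      have := abs_add_le q.2 (‖q.1‖ ^ 2)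
      rwa [abs_of_nonneg (sq_nonneg ‖q.1‖)] at this
    have h2 : ‖q.1‖ ^ 2 ≤ ρ ^ 2 := pow_le_pow_left₀ (norm_nonneg _) hq1 2
    nlinarith

/-- **L-AN-U5** (300 l.) truncation of an atom.  `chart L ω y 0 z = Lam (-ω) L⁻¹ L⁻² (z - (y,0))`;  `car ω z = ch (pr z (ω, -‖ω‖²))`;  `BD.FS.lin`, `BD.FS.shift`, `BD.FS.modulate`, `BD.FS.const_mul`, `BD.orthx_FS_conj`:
`Gα = conj (L^{-n/2} car ω z φb (chart z))` has Fourier support in the points `(ξ,τ) = (-ω - a w₁, ‖ω‖² + 2a⟪ω,w₁⟫ - b w₂)`, `a = 1/L`, `b = 1/L²`, `‖w₁‖, |w₂| ≤ ρ`:  `‖ξ + ω‖ ≤ ρ/L`, `τ - ‖ξ‖² = -b w₂ - a²‖w₁‖²`. -/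
theorem an_trunc_atom (n N : ℕ) (Rp : ℝ) (hRp : 0 ≤ Rp) : ∃ C : ℝ, 0 ≤ C ∧ ∀ (B ρ : ℝ) (ι : Type) (A : Arr n ι) (α : ι), 1 ≤ ρ → 1 ≤ A.L → A.tc α = 0 →
    Prof (N + n + 2) Rp B (A.pf α) →
    ∃ Gα : ST n → ℂ, BD.FS (BD.cap (-A.om α) (ρ / A.L) (2 * ρ ^ 2 / A.L ^ 2)) Gα ∧
      ∀ z, ‖(starRingEnd ℂ) (A.atom α z) - Gα z‖ ≤ C * B * A.L ^ (-(n : ℝ) / 2) * ρ ^ (-(N : ℝ)) := by
  obtain ⟨C, hC0, hC⟩ := an_trunc_prof n N Rp hRp
  refine ⟨C, hC0, fun B ρ ι A α hρ hL htc hP => ?_⟩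
  obtain ⟨φb, hFS, herr⟩ := hC B ρ (A.pf α) hρ hP
  have hL0 : 0 < A.L := by linarith
  have f1 := hFS.lin (-A.om α) (a := A.L⁻¹) (b := (A.L ^ 2)⁻¹) (by positivity) (by positivity)
  have f2 := f1.shift (-A.y α, 0)
  have f3 := f2.modulate (A.om α, -‖A.om α‖ ^ 2)
  have f4 := f3.const_mul ((A.L ^ (-(n : ℝ) / 2) : ℝ) : ℂ)
  have f5 := (BD.orthx_FS_conj f4).mono (an_u5_cap (A.om α) hL hρ)
  refine ⟨_, f5, fun z => ?_⟩
  rw [← map_sub, RCLike.norm_conj]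
  unfold Arr.atom
  rw [htc, an_u5_chart, an_u5_car, mul_assoc, ← mul_sub, ← mul_sub, norm_mul, norm_mul, BD.norm_ch, one_mul, Complex.norm_real,
    Real.norm_of_nonneg (by positivity)]
  calc A.L ^ (-(n : ℝ) / 2) * ‖A.pf α (BD.Lam (-A.om α) A.L⁻¹ (A.L ^ 2)⁻¹ (z + (-A.y α, 0)))
        - φb (BD.Lam (-A.om α) A.L⁻¹ (A.L ^ 2)⁻¹ (z + (-A.y α, 0)))‖
      ≤ A.L ^ (-(n : ℝ) / 2) * (C * B * ρ ^ (-(N : ℝ))) := mul_le_mul_of_nonneg_left (herr _) (by positivity)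
    _ = _ := by ring

/-- **L-AN-U6** (250 l.) count of the labels with intercept in a ball of radius `Cy L²`.  Labels `(Lω, y/L, 0)`; cover `closedBall 0 (L Rω)` and `closedBall (x₀/L) (Cy L)` of `E n` by unit balls (`BD.exists_sep_net`, `BD.card_le_of_sep`: `≤ (2r+1)^n`); `Arr.In.mult` on each product of balls. -/
theorem an_count (n : ℕ) (Rω Cy : ℝ) (hRω : 0 ≤ Rω) (hCy : 0 ≤ Cy) : ∃ C : ℝ, 0 ≤ C ∧ ∀ (ι : Type) (A : Arr n ι) (s : Finset ι) (K : Cls) (x₀ : E n), A.In s K → K.Rω ≤ Rω →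
    (∀ α ∈ s, A.tc α = 0) → (∀ α ∈ s, ‖A.y α - x₀‖ ≤ Cy * A.L ^ 2) → (s.card : ℝ) ≤ C * K.m₀ * A.L ^ (2 * n) := by
  classical
  refine ⟨(2 * Rω + 1) ^ n * (2 * Cy + 1) ^ n, by positivity, fun ι A s K x₀ hA hK htc hy => ?_⟩
  have hL : 1 ≤ A.L := hA.one_le
  have hL0 : 0 < A.L := by linarith
  obtain ⟨t₁, a1, b1, c1⟩ := BD.exists_sep_net (0 : E n) (A := A.L * Rω) (r := 1) (by positivity) one_pos
  obtain ⟨t₂, a2, b2, c2⟩ := BD.exists_sep_net (A.L⁻¹ • x₀ : E n) (A := Cy * A.L) (r := 1) (by positivity) one_pos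
  have k1 := BD.card_le_of_sep (by positivity) one_pos t₁ _ a1 b1
  have k2 := BD.card_le_of_sep (by positivity) one_pos t₂ _ a2 b2
  rw [finrank_euclideanSpace_fin] at k1 k2
  have hsub : s ⊆ (t₁ ×ˢ t₂).biUnion fun q => s.filter fun α => ‖A.L • A.om α - q.1‖ ≤ 1 ∧ ‖A.L⁻¹ • A.y α - q.2‖ ≤ 1 := by
    intro α hα
    have h1 : ‖A.L • A.om α - 0‖ ≤ A.L * Rω * 1 := by
      rw [sub_zero, norm_smul, Real.norm_of_nonneg hL0.le, mul_one]
      exact mul_le_mul_of_nonneg_left ((hA.freq α hα).trans hK) hL0.le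
    have h2 : ‖A.L⁻¹ • A.y α - A.L⁻¹ • x₀‖ ≤ Cy * A.L * 1 := by
      rw [← smul_sub, norm_smul, Real.norm_of_nonneg (inv_nonneg.2 hL0.le), mul_one, inv_mul_le_iff₀ hL0]
      calc ‖A.y α - x₀‖ ≤ Cy * A.L ^ 2 := hy α hα
        _ = A.L * (Cy * A.L) := by ring
    obtain ⟨q1, hq1, e1⟩ := c1 _ h1
    obtain ⟨q2, hq2, e2⟩ := c2 _ h2
    rw [Finset.mem_biUnion]
    exact ⟨(q1, q2), Finset.mk_mem_product hq1 hq2, Finset.mem_filter.2 ⟨hα, e1, e2⟩⟩
  have hcard : s.card ≤ (t₁ ×ˢ t₂).card * K.m₀ := by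
    refine (Finset.card_le_card hsub).trans (Finset.card_biUnion_le.trans ?_)
    rw [← smul_eq_mul]
    refine Finset.sum_le_card_nsmul _ _ _ fun q _ => ?_
    refine hA.mult q.1 q.2 0 _ (Finset.filter_subset _ _) fun α hα => ?_
    obtain ⟨hα1, e1, e2⟩ := Finset.mem_filter.1 hα
    refine ⟨e1, by rw [htc α hα1]; simp, ?_⟩
    simpa using e2
  have hcard' : (s.card : ℝ) ≤ (t₁.card : ℝ) * (t₂.card : ℝ) * K.m₀ := by
    have : ((s.card : ℕ) : ℝ) ≤ (((t₁ ×ˢ t₂).card * K.m₀ : ℕ) : ℝ) := by exact_mod_cast hcard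
    rw [Finset.card_product] at this
    push_cast at this
    exact this
  have g1 : (2 * (A.L * Rω) + 1) ^ n ≤ (2 * Rω + 1) ^ n * A.L ^ n := by
    rw [← mul_pow]
    exact pow_le_pow_left₀ (by positivity) (by nlinarith) n
  have g2 : (2 * (Cy * A.L) + 1) ^ n ≤ (2 * Cy + 1) ^ n * A.L ^ n := by
    rw [← mul_pow]
    exact pow_le_pow_left₀ (by positivity) (by nlinarith) n
  calc (s.card : ℝ) ≤ (t₁.card : ℝ) * (t₂.card : ℝ) * K.m₀ := hcard'
    _ ≤ ((2 * Rω + 1) ^ n * A.L ^ n) * ((2 * Cy + 1) ^ n * A.L ^ n) * K.m₀ := by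
        refine mul_le_mul_of_nonneg_right ?_ (Nat.cast_nonneg _)
        exact mul_le_mul (k1.trans g1) (k2.trans g2) (Nat.cast_nonneg _) (by positivity)
    _ = (2 * Rω + 1) ^ n * (2 * Cy + 1) ^ n * K.m₀ * A.L ^ (2 * n) := by
        rw [two_mul n, pow_add]; ring

/-- **L-AN-U7** (100 l.) far packets vanish on the box. -/
theorem an_far_zero (A : Arr n ι) (s : Finset ι) (K : Cls) (hA : A.In s K) (α : ι) (hα : α ∈ s) (htc : A.tc α = 0) (x₀ : E n) (Cb T₀ : ℝ) (z : ST n)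
    (hz1 : ‖z.1 - x₀‖ ≤ Cb * A.L ^ 2) (hz2 : |z.2| ≤ T₀ * A.L ^ 2) (hfar : (Cb + 2 * T₀ * K.Rω + K.R) * A.L ^ 2 < ‖A.y α - x₀‖) : A.atom α z = 0 := by
  by_contra hne
  have hL : 1 ≤ A.L := hA.one_le
  have hL0 : 0 < A.L := by linarith
  have hpf : A.pf α (chart A.L (A.om α) (A.y α) (A.tc α) z) ≠ 0 := by
    intro h
    apply hne
    unfold Arr.atom
    rw [h, mul_zero]
  have h1 := (hA.prof α hα).supp _ hpf
  have h2 : ‖A.L⁻¹ • (z.1 - A.y α - (2 * z.2) • A.om α)‖ ≤ K.R :=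
    le_trans (norm_fst_le (chart A.L (A.om α) (A.y α) (A.tc α) z)) h1
  have hR0 : 0 ≤ K.R := le_trans (norm_nonneg _) h2
  rw [norm_smul, Real.norm_of_nonneg (inv_nonneg.2 hL0.le), inv_mul_le_iff₀ hL0] at h2
  have h3 : ‖(2 * z.2) • A.om α‖ ≤ 2 * T₀ * K.Rω * A.L ^ 2 := by
    rw [norm_smul, Real.norm_eq_abs, abs_mul, abs_two]
    have := mul_le_mul hz2 (hA.freq α hα) (norm_nonneg _) (le_trans (abs_nonneg _) hz2)
    nlinarith
  have h4 : A.L * K.R ≤ K.R * A.L ^ 2 := by nlinarith [mul_nonneg hR0 (sub_nonneg.2 hL)]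
  have h5 : A.y α - x₀ = (z.1 - x₀) - (z.1 - A.y α - (2 * z.2) • A.om α) - (2 * z.2) • A.om α := by abel
  have h6 : ‖A.y α - x₀‖ ≤ ‖z.1 - x₀‖ + ‖z.1 - A.y α - (2 * z.2) • A.om α‖ + ‖(2 * z.2) • A.om α‖ := by
    rw [h5]
    exact (norm_sub_le _ _).trans (add_le_add_left (norm_sub_le _ _) _)
  nlinarith

/-- Stores the on-demand equation lemmas of the definitions of THIS module here (rule 6 hygiene). -/
theorem an_trunc_forced : True := by
  have := @an_u_L.eq_1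
  trivial

end Claimed.Agent.R257
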