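import Claimed.Agent.R257.Ang.Iter
import Claimed.Agent.R257.Ang.Term
import Claimed.Agent.R257.Ang.Trunc

/-!
# R257 / Ang / Main : ASSEMBLY OF `w:angular`      (architect helper83)

`an_main` : existence of the constants of `AngularWith` in the order of H weak.tex (w:choices):   `b, δ, pmax`  ⟶  `J₀`, `c₂ = γ/4`  ⟶  `J, p, σ, a, G`  ⟶  derivative order `Jd`  ⟶  `W`  ⟶  `K₀, Ca, CN`  ⟶  `Cind`.
`γ = b - β - δ - (1 - 2/pmax)(n-1) > 0`  (`-Γ(p,δ) ≥ γ`, H (w:eq-Gamma)).   INPUT: box BD in dimension `n - 2` at `P = 2/(1-b)`.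
`an_main` ⟸ `an_master` (the analytic chain, `Ang/Master.lean`… here as a contract) + `an_solve` + `an_num_main` + `an_num_err` (arithmetic of exponents, H l.205-233).
-/

set_option autoImplicit false

namespace Claimed.Agent.R257

open MeasureTheory Metric Set
open scoped ENNReal InnerProductSpace

variable {n : ℕ} {ι : Type}

-- `ACon.Ok` (sanity of the constants of an application) is now in `Ang/Defs.lean` (moved by helper244: `AngularStmt` of `Weak/Deep.lean` quantifies over `G.Ok`).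

/-- the hypotheses of `AngularWith` -/
structure AngHyp (n : ℕ) (W : WCon) (X : WExp) (G : ACon) (J : ℕ) (A : Arr n ι) (s : Finset ι) (c : ι → ℂ) (μ : Measure (ST n)) (m χ g : ℝ) (K Ncov : ℕ)
    (Sel : (Fin n → ℤ) × ℤ → Finset (Fin n → ℤ)) : Prop where
  RL : ((K : ℝ) ^ J) ^ 2 ≤ A.L
  inn : A.In s W.K
  tc : ∀ α ∈ s, A.tc α = 0
  en : energy s c ≤ 1
  m0 : 0 ≤ m
  χ0 : 0 < χ
  χ1 : χ ≤ 1
  g0 : 0 < g
  grow : Grow μ m n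
  slab : Slab μ (W.T₀ * A.L ^ 2)
  dens : Dens μ m χ
  box : ∃ x₀ : E n, InBall μ x₀ (W.Cb * A.L ^ 2)
  lam : A.L ^ (-G.Cl) ≤ wlev n X.a χ g A.L
  weak : WeakAt0 n W X G.C' (A.L / (K : ℝ) ^ J) 1
  cov : ∀ κ, AngCover G.Cw G.Cq G.cq ((K : ℝ) ^ J) Ncov (Sel κ)

/-- the product of the scale factors: start `(mχ)^{1-b}`, transport `R^{2-(n+2)b}`, terminal estimate with `m' = m R^{n+1}`, `l = L/R`, `d = Rχ` -/
noncomputable def anTB (n : ℕ) (p bb δ CC m χ R L : ℝ) : ℝ :=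
  (m * χ) ^ (1 - bb) * R ^ (2 - ((n : ℝ) + 2) * bb) * CC ^ (2 / p) * (m * R ^ ((n : ℝ) + 1)) ^ (bb - 1 + 2 / p) *
    (L / R) ^ (4 * (n : ℝ) / p - 2 * eex n) * (R * χ) ^ δ

/-- the tested set -/
def anY (G : ACon) (a : ℝ) (A : Arr n ι) (s : Finset ι) (c : ι → ℂ) (χ g : ℝ) (R : ℝ) (Sel : (Fin n → ℤ) × ℤ → Finset (Fin n → ℤ)) : Set (ST n) :=
  {z | G.c₀ * wlev n a χ g A.L ≤ ‖selF A s c R Sel z‖}

/-- **THE ANALYTIC CHAIN** (contract; proof in `Ang/Master.lean`).  `M₀ = μ(Y)`: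
`(c₀λ)² M₀ ≤ [start error] + [main term] M₀^{1-2/p} + [terminal error] M₀^b`. -/
def MasterWith (n : ℕ) (W : WCon) (G : ACon) (J N₁ : ℕ) (p a bb δ η CM K₀ : ℝ) : Prop :=
  ∀ (σ Cind : ℝ) (ι : Type) (A : Arr n ι) (s : Finset ι) (c : ι → ℂ) (μ : Measure (ST n)) (m χ g : ℝ) (K Ncov : ℕ)
    (Sel : (Fin n → ℤ) × ℤ → Finset (Fin n → ℤ)),
    0 ≤ Cind → K₀ ≤ (K : ℝ) → 0 < m → AngHyp n W ⟨p, σ, a, Cind⟩ G J A s c μ m χ g K Ncov Sel →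
    μ (anY G a A s c χ g ((K : ℝ) ^ J) Sel) ≠ ∞ ∧
    (G.c₀ * wlev n a χ g A.L) ^ 2 * (μ (anY G a A s c χ g ((K : ℝ) ^ J) Sel)).toReal ≤
      CM * A.L ^ ((n : ℝ) - N₁ / 2) * (μ (anY G a A s c χ g ((K : ℝ) ^ J) Sel)).toReal
      + CM * ((Ncov : ℝ) * (1 + Real.log ((K : ℝ) ^ J))) * ((K : ℝ) ^ J) ^ (2 * η) * (K : ℝ) ^ (10 * (n : ℝ) + 4) *
          anTB n p bb δ (G.C' * Cind) m χ ((K : ℝ) ^ J) A.L * energy s c * (μ (anY G a A s c χ g ((K : ℝ) ^ J) Sel)).toReal ^ (1 - 2 / p)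
      + CM * A.L ^ (6 * (n : ℝ) + 3 - N₁ / 2) * m ^ (1 - bb) * (μ (anY G a A s c χ g ((K : ℝ) ^ J) Sel)).toReal ^ bb

/-! ## arithmetic -/

theorem an_solve_aux {θ y A x : ℝ} (hθ : 0 < θ) (hx : 0 < x) (hy : 0 < y) (hA : 0 ≤ A) (h : y * x / 4 ≤ A * x ^ (1 - θ)) :
    x ≤ (4 * A / y) ^ (1 / θ) := by
  have ht : 0 < x ^ θ := Real.rpow_pos_of_pos hx θ
  rw [Real.rpow_sub hx, Real.rpow_one] at h
  have h1 : x ^ θ ≤ 4 * A / y := by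
    rw [le_div_iff₀ hy]
    have h2 : y * x / 4 * x ^ θ ≤ A * x := by
      have := mul_le_mul_of_nonneg_right h ht.le
      have e : A * (x / x ^ θ) * x ^ θ = A * x := by field_simp
      rwa [e] at this
    have h3 : (x ^ θ * y) * x ≤ (4 * A) * x := by nlinarith
    exact le_of_mul_le_mul_right h3 hx
  have h4 := Real.rpow_le_rpow ht.le h1 (show 0 ≤ 1 / θ by positivity)
  rwa [← Real.rpow_mul hx.le, mul_one_div_cancel hθ.ne', Real.rpow_one] at h4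

/-- **L-AN-N1** (120 l.) solving for the mass (H l.199-204, l.226).  `y x/2 ≤ a₁ x^{1-2/p} + a₂ x^b`: one of the two terms is `≥ y x/4`;  `x > 0`: divide by `x^{1-2/p}` resp. `x^b` (`Real.rpow_sub`), raise to the power `p/2` resp. `1/(1-b)`. -/
theorem an_solve (p bb y a₁ a₂ x : ℝ) (hp : 2 < p) (hb0 : 0 < bb) (hb1 : bb < 1) (hy : 0 < y) (ha₁ : 0 ≤ a₁) (ha₂ : 0 ≤ a₂) (hx : 0 ≤ x)
    (h : y * x ≤ y / 2 * x + a₁ * x ^ (1 - 2 / p) + a₂ * x ^ bb) :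
    x ≤ (4 * a₁ / y) ^ (p / 2) + (4 * a₂ / y) ^ (1 / (1 - bb)) := by
  have hp0 : 0 < p := by linarith
  have r1 : 0 ≤ (4 * a₁ / y) ^ (p / 2) := by positivity
  have r2 : 0 ≤ (4 * a₂ / y) ^ (1 / (1 - bb)) := by positivity
  rcases hx.eq_or_lt with rfl | hx'
  · linarith
  by_cases hc : y * x / 4 ≤ a₁ * x ^ (1 - 2 / p)
  · have := an_solve_aux (θ := 2 / p) (by positivity) hx' hy ha₁ hc
    have e : 1 / (2 / p) = p / 2 := by field_simp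
    rw [e] at this
    linarith
  · have hc2 : y * x / 4 ≤ a₂ * x ^ (1 - (1 - bb)) := by
      have e : 1 - (1 - bb) = bb := by ring
      rw [e]
      push Not at hc
      linarith
    have := an_solve_aux (θ := 1 - bb) (by linarith) hx' hy ha₂ hc2
    linarith

/-- **L-AN-N2** (200 l.) the exponent identity (H (w:eq-Gamma)).  Powers of `m`: `(1-b) + (b-1+2/p) = 2/p`;  of `χ`: `1 - b + δ - 2a = 0`;  of `L`: `4n/p - 2e + 2e`;  of `R`: `2-(n+2)b+(n+1)(b-1+2/p)-(4n/p-2e)+δ = β - b + δ + (1-2/p)(n-1)`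
(`e = n²/(n+1)`, `β = 2/(n+1)`).   Expand everything with `Real.mul_rpow`, `Real.div_rpow`, `← Real.rpow_mul`, `← Real.rpow_add`; or take logarithms. -/
theorem an_num_id (n : ℕ) (p bb δ a CC m χ R L g : ℝ) (hp : 0 < p) (h2a : 2 * a = 1 - bb + δ) (hCC : 0 ≤ CC) (hm : 0 < m) (hχ : 0 < χ) (hR : 0 < R) (hL : 0 < L) (hg : 0 < g) :
    (anTB n p bb δ CC m χ R L / (wlev n a χ g L) ^ 2) ^ (p / 2) =
      CC * m * R ^ ((bet n - bb + δ + (1 - 2 / p) * ((n : ℝ) - 1)) * (p / 2)) * L ^ (2 * (n : ℝ)) * g ^ (-p) := by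
  have ha : a = (1 - bb + δ) / 2 := by linarith
  obtain ⟨m', rfl⟩ : ∃ m', m = Real.exp m' := ⟨Real.log m, (Real.exp_log hm).symm⟩
  obtain ⟨χ', rfl⟩ : ∃ χ', χ = Real.exp χ' := ⟨Real.log χ, (Real.exp_log hχ).symm⟩
  obtain ⟨R', rfl⟩ : ∃ R', R = Real.exp R' := ⟨Real.log R, (Real.exp_log hR).symm⟩
  obtain ⟨L', rfl⟩ : ∃ L', L = Real.exp L' := ⟨Real.log L, (Real.exp_log hL).symm⟩
  obtain ⟨g', rfl⟩ : ∃ g', g = Real.exp g' := ⟨Real.log g, (Real.exp_log hg).symm⟩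
  have hn1 : (n : ℝ) + 1 ≠ 0 := by positivity
  have e1 : anTB n p bb δ CC (Real.exp m') (Real.exp χ') (Real.exp R') (Real.exp L') / (wlev n a (Real.exp χ') (Real.exp g') (Real.exp L')) ^ 2
      = CC ^ (2 / p) * Real.exp ((m' + χ') * (1 - bb) + R' * (2 - ((n : ℝ) + 2) * bb) + (m' + R' * ((n : ℝ) + 1)) * (bb - 1 + 2 / p)
          + (L' - R') * (4 * (n : ℝ) / p - 2 * eex n) + (R' + χ') * δ - 2 * (χ' * a + g' + L' * (-eex n))) := by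
    unfold anTB wlev
    simp only [← Real.exp_add, ← Real.exp_mul, ← Real.exp_sub, ← Real.exp_nat_mul]
    push_cast
    simp only [Real.exp_add, Real.exp_sub]
    ring
  rw [e1, Real.mul_rpow (by positivity) (Real.exp_pos _).le, ← Real.rpow_mul hCC, ← Real.exp_mul]
  have e2 : 2 / p * (p / 2) = 1 := by field_simp
  rw [e2, Real.rpow_one]
  simp only [← Real.exp_mul]
  rw [mul_assoc CC, mul_assoc CC, mul_assoc CC, ← Real.exp_add, ← Real.exp_add, ← Real.exp_add]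
  congr 2
  rw [ha]
  unfold bet eex
  field_simp
  ring

/-- **L-AN-N3** (300 l.) the gain (H l.205-233).  `γ > 0`.  `J₀ = ⌈4(10n+4)/γ⌉₊ + 1`.  With `R = K^J`: `K^{10n+4} = R^{(10n+4)/J} ≤ R^{γ/4}`;  `1 + log R ≤ (8/γ) R^{γ/8}`… any bound `≤ C R^{γ/4}`;  `an_num_id`;  `β - b + δ + (1-2/p)(n-1) ≤ -γ` (`p ≤ pmax`);
total exponent of `R`: `(p/2)(γ/4 + γ/4 + γ/4 - γ) = -(p/2) γ/4 ≤ -γ/4`;  `Ncov^{p/2} ≤ Ncov^p` (natural number);  `wrhs` with `D = 1`: `1^{-σ} = 1`. -/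
theorem an_num_main (n : ℕ) (bb δ pmax γ : ℝ) (hγ : 0 < γ) (hγ' : γ = bb - bet n - δ - (1 - 2 / pmax) * ((n : ℝ) - 1)) (hn : 1 ≤ n) :
    ∃ J₀ : ℕ, 1 ≤ J₀ ∧ ∀ J : ℕ, J₀ ≤ J → ∀ p : ℝ, 2 < p → p ≤ pmax → ∀ CM c₀ C' : ℝ, 0 ≤ CM → 0 < c₀ → 0 ≤ C' →
      ∃ Ca : ℝ, 0 ≤ Ca ∧ ∀ (a σ Cind m χ g L En : ℝ) (K Ncov : ℕ), 2 * a = 1 - bb + δ → 0 ≤ Cind → 0 < m → 0 < χ → 0 < g → 0 < L → 1 ≤ K → 0 ≤ En →
        (4 * (CM * ((Ncov : ℝ) * (1 + Real.log ((K : ℝ) ^ J))) * ((K : ℝ) ^ J) ^ (2 * (γ / 8)) * (K : ℝ) ^ (10 * (n : ℝ) + 4) *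
            anTB n p bb δ (C' * Cind) m χ ((K : ℝ) ^ J) L * En) / (c₀ * wlev n a χ g L) ^ 2) ^ (p / 2) ≤
          Ca * (Ncov : ℝ) ^ p * ((K : ℝ) ^ J) ^ (-(γ / 4)) * wrhs n ⟨p, σ, a, Cind⟩ m L g 1 En := by
  refine ⟨⌈4 * (10 * (n : ℝ) + 4) / γ⌉₊ + 1, by omega, fun J hJ p hp hpm CM c₀ C' hCM hc₀ hC' => ?_⟩
  have hp0 : 0 < p := by linarith
  have hp2 : 1 ≤ p / 2 := by linarith
  have hJr : 4 * (10 * (n : ℝ) + 4) / γ ≤ (J : ℝ) := by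
    have h1 : 4 * (10 * (n : ℝ) + 4) / γ ≤ (⌈4 * (10 * (n : ℝ) + 4) / γ⌉₊ : ℝ) := Nat.le_ceil _
    have h2 : ((⌈4 * (10 * (n : ℝ) + 4) / γ⌉₊ + 1 : ℕ) : ℝ) ≤ (J : ℝ) := by exact_mod_cast hJ
    push_cast at h2
    linarith
  have hJγ : 10 * (n : ℝ) + 4 ≤ (J : ℝ) * (γ / 4) := by
    rw [div_le_iff₀ hγ] at hJr
    linarith
  refine ⟨(4 * CM / c₀ ^ 2) ^ (p / 2) * (1 + 4 / γ) ^ (p / 2) * C', by positivity, ?_⟩
  intro a σ Cind m χ g L En K Ncov h2a hCind hm hχ hg hL hK hEn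
  have hK1 : (1 : ℝ) ≤ (K : ℝ) := by exact_mod_cast hK
  have hK0 : (0 : ℝ) ≤ (K : ℝ) := by linarith
  obtain ⟨R, hRdef⟩ : ∃ R : ℝ, R = (K : ℝ) ^ J := ⟨_, rfl⟩
  rw [← hRdef]
  have hR1 : 1 ≤ R := by rw [hRdef]; exact one_le_pow₀ hK1
  have hR0 : 0 < R := by linarith
  have hw : 0 < wlev n a χ g L := by unfold wlev; positivity
  have hT : 0 ≤ anTB n p bb δ (C' * Cind) m χ R L := by unfold anTB; positivity
  have hlog : 0 ≤ Real.log R := Real.log_nonneg hR1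
  -- the three gains
  have g1 : (K : ℝ) ^ (10 * (n : ℝ) + 4) ≤ R ^ (γ / 4) := by
    rw [hRdef, ← Real.rpow_natCast, ← Real.rpow_mul hK0]
    exact Real.rpow_le_rpow_of_exponent_le hK1 hJγ
  have g2 : 1 + Real.log R ≤ (1 + 4 / γ) * R ^ (γ / 4) := by
    have h1 := Real.log_le_rpow_div hR0.le (show 0 < γ / 4 by positivity)
    have h2 : 1 ≤ R ^ (γ / 4) := Real.one_le_rpow hR1 (by positivity)
    have h3 : R ^ (γ / 4) / (γ / 4) = 4 / γ * R ^ (γ / 4) := by field_simp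
    rw [h3] at h1
    linarith
  have hE : bet n - bb + δ + (1 - 2 / p) * ((n : ℝ) - 1) ≤ -γ := by
    have h1 : 2 / pmax ≤ 2 / p := div_le_div_of_nonneg_left (by norm_num) hp0 hpm
    have h2 : (0 : ℝ) ≤ (n : ℝ) - 1 := by
      have : (1 : ℝ) ≤ (n : ℝ) := by exact_mod_cast hn
      linarith
    have h3 : (1 - 2 / p) * ((n : ℝ) - 1) ≤ (1 - 2 / pmax) * ((n : ℝ) - 1) :=
      mul_le_mul_of_nonneg_right (by linarith) h2
    rw [hγ']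
    linarith
  obtain ⟨Ee, hEe⟩ : ∃ Ee : ℝ, Ee = bet n - bb + δ + (1 - 2 / p) * ((n : ℝ) - 1) := ⟨_, rfl⟩
  rw [← hEe] at hE
  obtain ⟨Y, hY⟩ : ∃ Y : ℝ, Y = (1 + Real.log R) * R ^ (2 * (γ / 8)) * (K : ℝ) ^ (10 * (n : ℝ) + 4) := ⟨_, rfl⟩
  have hY0 : 0 ≤ Y := by rw [hY]; positivity
  have hYle : Y ≤ (1 + 4 / γ) * R ^ (3 * (γ / 4)) := by
    have e : R ^ (3 * (γ / 4)) = R ^ (γ / 4) * R ^ (2 * (γ / 8)) * R ^ (γ / 4) := by
      rw [← Real.rpow_add hR0, ← Real.rpow_add hR0]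
      congr 1
      ring
    rw [hY, e]
    calc (1 + Real.log R) * R ^ (2 * (γ / 8)) * (K : ℝ) ^ (10 * (n : ℝ) + 4)
        ≤ ((1 + 4 / γ) * R ^ (γ / 4)) * R ^ (2 * (γ / 8)) * R ^ (γ / 4) := by gcongr
      _ = _ := by ring
  have hYp : Y ^ (p / 2) * R ^ (Ee * (p / 2)) ≤ (1 + 4 / γ) ^ (p / 2) * R ^ (-(γ / 4)) := by
    have h1 : Y ^ (p / 2) ≤ (1 + 4 / γ) ^ (p / 2) * R ^ (3 * (γ / 4) * (p / 2)) := by
      have := Real.rpow_le_rpow hY0 hYle (show 0 ≤ p / 2 by positivity)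
      rwa [Real.mul_rpow (by positivity) (by positivity), ← Real.rpow_mul hR0.le] at this
    have h2 : R ^ (3 * (γ / 4) * (p / 2)) * R ^ (Ee * (p / 2)) ≤ R ^ (-(γ / 4)) := by
      rw [← Real.rpow_add hR0]
      refine Real.rpow_le_rpow_of_exponent_le hR1 ?_
      have : (3 * (γ / 4) + Ee) * (p / 2) ≤ (-(γ / 4)) * (p / 2) :=
        mul_le_mul_of_nonneg_right (by linarith) (by positivity)
      have h3 : (-(γ / 4)) * (p / 2) ≤ -(γ / 4) := by nlinarith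
      linarith
    calc Y ^ (p / 2) * R ^ (Ee * (p / 2))
        ≤ ((1 + 4 / γ) ^ (p / 2) * R ^ (3 * (γ / 4) * (p / 2))) * R ^ (Ee * (p / 2)) := by gcongr
      _ = (1 + 4 / γ) ^ (p / 2) * (R ^ (3 * (γ / 4) * (p / 2)) * R ^ (Ee * (p / 2))) := by ring
      _ ≤ _ := by gcongr
  have hN : (Ncov : ℝ) ^ (p / 2) ≤ (Ncov : ℝ) ^ p := by
    rcases Nat.eq_zero_or_pos Ncov with h0 | h0
    · rw [h0, Nat.cast_zero, Real.zero_rpow (by positivity), Real.zero_rpow (by positivity)]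
    · exact Real.rpow_le_rpow_of_exponent_le (by exact_mod_cast h0) (by linarith)
  -- factorisation of the base
  have hbase : 4 * (CM * ((Ncov : ℝ) * (1 + Real.log R)) * R ^ (2 * (γ / 8)) * (K : ℝ) ^ (10 * (n : ℝ) + 4) *
      anTB n p bb δ (C' * Cind) m χ R L * En) / (c₀ * wlev n a χ g L) ^ 2
      = (4 * CM / c₀ ^ 2) * (Ncov : ℝ) * Y * (anTB n p bb δ (C' * Cind) m χ R L / (wlev n a χ g L) ^ 2) * En := by
    rw [hY]
    field_simp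
  have hq : 0 ≤ anTB n p bb δ (C' * Cind) m χ R L / (wlev n a χ g L) ^ 2 := by positivity
  rw [hbase, Real.mul_rpow (by positivity) hEn, Real.mul_rpow (by positivity) hq, Real.mul_rpow (by positivity) hY0,
    Real.mul_rpow (by positivity) (by positivity),
    an_num_id n p bb δ a (C' * Cind) m χ R L g hp0 h2a (by positivity) hm hχ hR0 hL hg, ← hEe]
  unfold wrhs
  simp only [Real.one_rpow, mul_one]
  have hP : 0 ≤ Cind * m * L ^ (2 * (n : ℝ)) * g ^ (-p) * En ^ (p / 2) := by positivity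
  calc (4 * CM / c₀ ^ 2) ^ (p / 2) * (Ncov : ℝ) ^ (p / 2) * Y ^ (p / 2) *
        (C' * Cind * m * R ^ (Ee * (p / 2)) * L ^ (2 * (n : ℝ)) * g ^ (-p)) * En ^ (p / 2)
      = ((4 * CM / c₀ ^ 2) ^ (p / 2) * C') * (Ncov : ℝ) ^ (p / 2) * (Y ^ (p / 2) * R ^ (Ee * (p / 2))) *
          (Cind * m * L ^ (2 * (n : ℝ)) * g ^ (-p) * En ^ (p / 2)) := by ring
    _ ≤ ((4 * CM / c₀ ^ 2) ^ (p / 2) * C') * (Ncov : ℝ) ^ p * ((1 + 4 / γ) ^ (p / 2) * R ^ (-(γ / 4))) *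
          (Cind * m * L ^ (2 * (n : ℝ)) * g ^ (-p) * En ^ (p / 2)) := by gcongr
    _ = _ := by ring

/-- **L-AN-N4** (200 l.) the absolute errors (H l.196-204).  `lam ≥ L^{-Cl}`;  `N₁/2 ≥ 6n+3+2Cl+N+1`:  (1) `CM L^{n-N₁/2} ≤ CM L^{-2Cl-1} ≤ c₀² L^{-2Cl}/2` for `L ≥ L₀ = 2CM/c₀² + 1`;
(2) `4 CM L^{6n+3-N₁/2} m^{1-b}/(c₀ lam)² ≤ (4CM/c₀²) L^{-N} m^{1-b}`, the power `1/(1-b) ≥ 1` of `L^{-N} ≤ 1` is `≤ L^{-N}`. -/
theorem an_num_err (n : ℕ) (bb CM c₀ Cl N : ℝ) (N₁ : ℕ) (hb0 : 0 < bb) (hb1 : bb < 1) (hCM : 0 ≤ CM) (hc₀ : 0 < c₀) (hCl : 0 ≤ Cl) (hN : 0 ≤ N)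
    (hN₁ : 2 * (6 * (n : ℝ) + 3 + 2 * Cl + N + 1) ≤ N₁) :
    ∃ CN L₀ : ℝ, 0 ≤ CN ∧ ∀ lam m L : ℝ, L₀ ≤ L → 1 ≤ L → 0 < m → L ^ (-Cl) ≤ lam →
      CM * L ^ ((n : ℝ) - N₁ / 2) ≤ (c₀ * lam) ^ 2 / 2 ∧
      (4 * (CM * L ^ (6 * (n : ℝ) + 3 - N₁ / 2) * m ^ (1 - bb)) / (c₀ * lam) ^ 2) ^ (1 / (1 - bb)) ≤ CN * m * L ^ (-N) := by
  refine ⟨(4 * CM / c₀ ^ 2) ^ (1 / (1 - bb)), 2 * CM / c₀ ^ 2 + 1, by positivity, ?_⟩
  intro lam m L hL₀ hL1 hm hlam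
  have hL0 : 0 < L := by linarith
  have hb : 0 < 1 - bb := by linarith
  have hn0 : (0 : ℝ) ≤ (n : ℝ) := Nat.cast_nonneg n
  have hl0 : 0 < L ^ (-Cl) := Real.rpow_pos_of_pos hL0 _
  have hlam0 : 0 < lam := lt_of_lt_of_le hl0 hlam
  have hlam2 : L ^ (-(2 * Cl)) ≤ lam ^ 2 := by
    have e : L ^ (-(2 * Cl)) = (L ^ (-Cl)) ^ 2 := by
      rw [← Real.rpow_natCast, ← Real.rpow_mul hL0.le]
      congr 1
      push_cast
      ring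
    rw [e]
    exact pow_le_pow_left₀ hl0.le hlam 2
  have hl2 : 0 < L ^ (-(2 * Cl)) := Real.rpow_pos_of_pos hL0 _
  constructor
  · have h1 : L ^ ((n : ℝ) - N₁ / 2) ≤ L ^ (-(2 * Cl) + -1) :=
      Real.rpow_le_rpow_of_exponent_le hL1 (by linarith)
    rw [Real.rpow_add hL0, Real.rpow_neg_one] at h1
    have h2 : CM * L⁻¹ ≤ c₀ ^ 2 / 2 := by
      have h3 : 2 * CM / c₀ ^ 2 ≤ L := by linarith
      rw [div_le_iff₀ (by positivity)] at h3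
      rw [← div_eq_mul_inv, div_le_iff₀ hL0]
      linarith
    calc CM * L ^ ((n : ℝ) - N₁ / 2) ≤ CM * (L ^ (-(2 * Cl)) * L⁻¹) := mul_le_mul_of_nonneg_left h1 hCM
      _ = (CM * L⁻¹) * L ^ (-(2 * Cl)) := by ring
      _ ≤ (c₀ ^ 2 / 2) * lam ^ 2 := mul_le_mul h2 hlam2 hl2.le (by positivity)
      _ = _ := by ring
  · have h1 : L ^ (6 * (n : ℝ) + 3 - N₁ / 2) ≤ L ^ (-(2 * Cl) + -N) :=
      Real.rpow_le_rpow_of_exponent_le hL1 (by linarith)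
    rw [Real.rpow_add hL0] at h1
    have hLN : 0 < L ^ (-N) := Real.rpow_pos_of_pos hL0 _
    have hmb : 0 < m ^ (1 - bb) := Real.rpow_pos_of_pos hm _
    have h2 : 4 * (CM * L ^ (6 * (n : ℝ) + 3 - N₁ / 2) * m ^ (1 - bb)) / (c₀ * lam) ^ 2
        ≤ (4 * CM / c₀ ^ 2) * L ^ (-N) * m ^ (1 - bb) := by
      rw [div_le_iff₀ (by positivity)]
      calc 4 * (CM * L ^ (6 * (n : ℝ) + 3 - N₁ / 2) * m ^ (1 - bb))
          ≤ 4 * (CM * (L ^ (-(2 * Cl)) * L ^ (-N)) * m ^ (1 - bb)) := by gcongr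
        _ ≤ 4 * (CM * (lam ^ 2 * L ^ (-N)) * m ^ (1 - bb)) := by gcongr
        _ = _ := by field_simp
    have h3 := Real.rpow_le_rpow (by positivity) h2 (show 0 ≤ 1 / (1 - bb) by positivity)
    refine h3.trans ?_
    rw [Real.mul_rpow (by positivity) hmb.le, Real.mul_rpow (by positivity) hLN.le, ← Real.rpow_mul hm.le,
      mul_one_div_cancel hb.ne', Real.rpow_one, ← Real.rpow_mul hL0.le]
    have h4 : L ^ (-N * (1 / (1 - bb))) ≤ L ^ (-N) := by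
      refine Real.rpow_le_rpow_of_exponent_le hL1 ?_
      have : 1 ≤ 1 / (1 - bb) := by
        rw [le_div_iff₀ hb]
        linarith
      nlinarith
    calc (4 * CM / c₀ ^ 2) ^ (1 / (1 - bb)) * L ^ (-N * (1 / (1 - bb))) * m
        ≤ (4 * CM / c₀ ^ 2) ^ (1 / (1 - bb)) * L ^ (-N) * m := by gcongr
      _ = _ := by ring

/-- **L-AN-N5** (60 l.) `m = 0`: the measure vanishes (`ST n` is a countable union of balls of radius `k`). -/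
theorem an_grow_zero (μ : Measure (ST n)) (h : Grow μ 0 n) : μ = 0 := by
  rw [← Measure.measure_univ_eq_zero]
  have hU : (univ : Set (ST n)) = ⋃ k : ℕ, closedBall (0 : ST n) ((k : ℝ) + 1) := by
    refine (eq_univ_of_forall fun z => ?_).symm
    obtain ⟨k, hk⟩ := exists_nat_ge ‖z‖
    exact mem_iUnion.2 ⟨k, by rw [mem_closedBall_zero_iff]; linarith⟩
  rw [hU]
  refine measure_iUnion_null fun k => ?_
  have h1 := h 0 ((k : ℝ) + 1) (by linarith [(Nat.cast_nonneg k : (0 : ℝ) ≤ k)])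
  simpa using h1

/-- **ASSEMBLY**: the contract `MasterWith` + arithmetic ⟹ `AngularWith` with the right order of the constants. -/
theorem an_main_of_master (n : ℕ) (hn : 2 ≤ n) (bb δ pmax : ℝ) (hb0 : 0 < bb) (hb1 : bb < 1)
    (hγ : 0 < bb - bet n - δ - (1 - 2 / pmax) * ((n : ℝ) - 1))
    (hM : ∀ J : ℕ, 1 ≤ J → ∀ p a η : ℝ, 2 < p → p ≤ pmax → 2 * a = 1 - bb + δ → 0 < η → ∀ G : ACon, G.Ok → ∀ N₁ : ℕ, ∀ W : WCon, W.Sane n → N₁ + n + 2 ≤ W.K.J →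
        ∃ CM K₀ : ℝ, 0 ≤ CM ∧ MasterWith n W G J N₁ p a bb δ η CM K₀) :
    ∃ J₀ : ℕ, ∀ J : ℕ, J₀ ≤ J → ∀ p σ a : ℝ, 2 < p → p ≤ pmax → 2 * a = 1 - bb + δ → ∀ G : ACon, G.Ok → ∃ Jd : ℕ, ∀ W : WCon, W.Sane n → Jd ≤ W.K.J →
      ∃ K₀ Ca CN : ℝ, ∀ Cind : ℝ, 0 ≤ Cind →
        AngularWith n W ⟨p, σ, a, Cind⟩ G J K₀ ((bb - bet n - δ - (1 - 2 / pmax) * ((n : ℝ) - 1)) / 4) Ca CN := by
  set γ := bb - bet n - δ - (1 - 2 / pmax) * ((n : ℝ) - 1) with hγdef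
  obtain ⟨J₀, hJ₀1, hnum⟩ := an_num_main n bb δ pmax γ hγ hγdef (by omega)
  refine ⟨J₀, fun J hJ p σ a hp hpm h2a G hG => ?_⟩
  set N₁ : ℕ := ⌈2 * (6 * (n : ℝ) + 3 + 2 * G.Cl + G.N + 1)⌉₊ with hN₁
  refine ⟨N₁ + n + 2, fun W hW hJd => ?_⟩
  have hJ1 : 1 ≤ J := hJ₀1.trans hJ
  obtain ⟨CM, K₁, hCM, hMas⟩ := hM J hJ1 p a (γ / 8) hp hpm h2a (by positivity) G hG N₁ W hW hJd
  obtain ⟨Ca, hCa, hmain⟩ := hnum J hJ p hp hpm CM G.c₀ G.C' hCM hG.c₀ hG.C'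
  obtain ⟨CN, L₀, hCN, herr⟩ := an_num_err n bb CM G.c₀ G.Cl G.N N₁ hb0 hb1 hCM hG.c₀ hG.Cl hG.N (Nat.le_ceil _)
  refine ⟨max K₁ (max L₀ 1), Ca, CN, fun Cind hCind => ?_⟩
  intro ι A s c μ m χ g K Ncov Sel hK hRL hin htc hen hm hχ hχ1 hg hgrow hslab hdens hbox hlam hweak hcov
  rcases hm.eq_or_lt with rfl | hm'
  · rw [an_grow_zero μ hgrow]
    simp
  have H : AngHyp n W ⟨p, σ, a, Cind⟩ G J A s c μ m χ g K Ncov Sel :=
    ⟨hRL, hin, htc, hen, hm, hχ, hχ1, hg, hgrow, hslab, hdens, hbox, hlam, hweak, hcov⟩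
  obtain ⟨hfin, hineq⟩ := hMas σ Cind ι A s c μ m χ g K Ncov Sel hCind ((le_max_left _ _).trans hK) hm' H
  have hK1 : (1 : ℝ) ≤ (K : ℝ) := ((le_max_right _ _).trans (le_max_right _ _)).trans hK
  have hKL₀ : L₀ ≤ (K : ℝ) := ((le_max_left _ _).trans (le_max_right _ _)).trans hK
  have hKn : 1 ≤ K := by exact_mod_cast hK1
  have hKJ : (K : ℝ) ≤ (K : ℝ) ^ J := by
    calc (K : ℝ) = (K : ℝ) ^ 1 := (pow_one _).symm
      _ ≤ (K : ℝ) ^ J := pow_le_pow_right₀ hK1 hJ1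
  have hR1 : (1 : ℝ) ≤ (K : ℝ) ^ J := hK1.trans hKJ
  have hRR : (K : ℝ) ^ J ≤ ((K : ℝ) ^ J) ^ 2 := by nlinarith
  have hKL : (K : ℝ) ≤ A.L := hKJ.trans (hRR.trans hRL)
  have hL1 : 1 ≤ A.L := hK1.trans hKL
  have hL0 : 0 < A.L := by linarith
  have hlam' : A.L ^ (-G.Cl) ≤ wlev n a χ g A.L := hlam
  have hlam0 : 0 < wlev n a χ g A.L := lt_of_lt_of_le (Real.rpow_pos_of_pos hL0 _) hlam'
  obtain ⟨e1, e2⟩ := herr (wlev n a χ g A.L) m A.L (hKL₀.trans hKL) hL1 hm' hlam'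
  set Y := anY G a A s c χ g ((K : ℝ) ^ J) Sel with hY
  set x := (μ Y).toReal with hx
  have hx0 : 0 ≤ x := ENNReal.toReal_nonneg
  have hE0 : 0 ≤ energy s c := Finset.sum_nonneg fun α _ => by positivity
  set y := (G.c₀ * wlev n a χ g A.L) ^ 2 with hy
  have hy0 : 0 < y := by have := hG.c₀; positivity
  set a₁ := CM * ((Ncov : ℝ) * (1 + Real.log ((K : ℝ) ^ J))) * ((K : ℝ) ^ J) ^ (2 * (γ / 8)) * (K : ℝ) ^ (10 * (n : ℝ) + 4) *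
          anTB n p bb δ (G.C' * Cind) m χ ((K : ℝ) ^ J) A.L * energy s c with ha₁
  set a₂ := CM * A.L ^ (6 * (n : ℝ) + 3 - N₁ / 2) * m ^ (1 - bb) with ha₂
  have hlog : 0 ≤ Real.log ((K : ℝ) ^ J) := Real.log_nonneg hR1
  have hTB : 0 ≤ anTB n p bb δ (G.C' * Cind) m χ ((K : ℝ) ^ J) A.L := by
    have := hG.C'
    unfold anTB
    positivity
  have ha₁0 : 0 ≤ a₁ := by rw [ha₁]; positivity
  have ha₂0 : 0 ≤ a₂ := by rw [ha₂]; positivity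
  have h1 : y * x ≤ y / 2 * x + a₁ * x ^ (1 - 2 / p) + a₂ * x ^ bb := by
    have h2 : CM * A.L ^ ((n : ℝ) - N₁ / 2) * x ≤ y / 2 * x := mul_le_mul_of_nonneg_right e1 hx0
    linarith
  have h3 := an_solve p bb y a₁ a₂ x hp hb0 hb1 hy0 ha₁0 ha₂0 hx0 h1
  have h4 := hmain a σ Cind m χ g A.L (energy s c) K Ncov h2a hCind hm' hχ hg hL0 hKn hE0
  have h5 : x ≤ Ca * (Ncov : ℝ) ^ p * ((K : ℝ) ^ J) ^ (-(γ / 4)) * wrhs n ⟨p, σ, a, Cind⟩ m A.L g 1 (energy s c) + CN * m * A.L ^ (-G.N) :=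
    h3.trans (add_le_add h4 e2)
  have h6 : μ Y = ENNReal.ofReal x := (ENNReal.ofReal_toReal hfin).symm
  show μ Y ≤ _
  rw [h6]
  exact ENNReal.ofReal_le_ofReal h5

/-- Stores the on-demand equation lemmas of the definitions of THIS module here (rule 6 hygiene). -/
theorem an_main_forced : True := by
  have := @anTB.eq_1
  have := @anY.eq_1
  have := @MasterWith.eq_1
  trivial

end Claimed.Agent.R257
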