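import Claimed.Agent.R257.Ang.Main

/-!
# R257 / Ang / Master : THE ANALYTIC CHAIN `MasterWith` AND THE FINAL THEOREM `an_main`      (architect helper83)

`Y = {|U_sel| ≥ c₀λ}`, `ν = μ|_Y`, `x = μ(Y)`, `R = K^J`, `L = A.L`.
1. `an_approx` : discard the packets which do not meet the box of `μ` (`s'`), bins `𝔅`, band limited approximations `G k` of the CONJUGATE bin fields, sup errors `ε k`, `∑ ε k ≤ Cε √E L^{n/2 - N₁/4}`   (`AnPack`).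
2. `an_classes`: on every big cube the selected bins split into `N' = Ncov ⌈Ccl (1 + log R)⌉` disjoint classes with the chain property.
3. `an_lhs`    : `(c₀λ)² x ≤ 2 ∑_κ ∫ |∑_i ∑_{k ∈ Scl κ i} G k|² dν_κ + 2 (∑ ε k)² x`.
4. `an_engine` : `≤ 𝒦 ∑_{k ∈ 𝔅} anPhi (G k) ν`.
5. `an_bin_bound` : `anPhi (G k) ν ≤ [terminal estimate] E_k x^{1-2/p} + [error] ε_k² x^b`.
6. `an_conv`, `an_K1`, `an_K2` : back to real numbers, collection of the constants.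
-/

set_option autoImplicit false

namespace Claimed.Agent.R257

open MeasureTheory Metric Set
open scoped ENNReal InnerProductSpace

variable {n : ℕ} {ι : Type}

/-- the approximation package -/
structure AnPack (C : ℝ) (A : Arr n ι) (s : Finset ι) (c : ι → ℂ) (K J : ℕ) (x₀ : E n) (Cb T₀ : ℝ)
    (𝔅 : Finset (Fin n → ℤ)) (s' : Finset ι) (G : (Fin n → ℤ) → ST n → ℂ) (ε : (Fin n → ℤ) → ℝ) : Prop where
  sub : s' ⊆ s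
  fam : BinFam C K J 𝔅 G
  bins : ∀ α ∈ s', fbin ((K : ℝ) ^ J) (A.om α) ∈ 𝔅
  same : ∀ z : ST n, ‖z.1 - x₀‖ ≤ Cb * A.L ^ 2 → |z.2| ≤ T₀ * A.L ^ 2 → ∀ T : Finset (Fin n → ℤ),
    A.fld (selS A s ((K : ℝ) ^ J) T) c z = A.fld (selS A s' ((K : ℝ) ^ J) T) c z
  err : ∀ k z, ‖(starRingEnd ℂ) (A.fld (selS A s' ((K : ℝ) ^ J) {k}) c z) - G k z‖ ≤ ε k
  pos : ∀ k, 0 ≤ ε k

/-- the scale factors without the start factor -/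
noncomputable def anTB0 (n : ℕ) (p bb δ CC m χ R L : ℝ) : ℝ :=
  R ^ (2 - ((n : ℝ) + 2) * bb) * CC ^ (2 / p) * (m * R ^ ((n : ℝ) + 1)) ^ (bb - 1 + 2 / p) * (L / R) ^ (4 * (n : ℝ) / p - 2 * eex n) * (R * χ) ^ δ

theorem an_TB_eq (n : ℕ) (p bb δ CC m χ R L : ℝ) : anTB n p bb δ CC m χ R L = (m * χ) ^ (1 - bb) * anTB0 n p bb δ CC m χ R L := by
  unfold anTB anTB0
  ring

theorem an_chain_empty (hn : 2 ≤ n) (K J : ℕ) (C₁ : ℝ) (Nb : ℕ) : Chain K J C₁ Nb (∅ : Finset (Fin n → ℤ)) := by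
  refine ⟨∅, by simp, fun j _ _ τ => ?_⟩
  refine (an_geo_aux_empty hn _).mono le_rfl ?_
  rintro v ⟨k, hk, -⟩
  simp at hk

/-- **L-AN-M1** (300 l.) classes.  `P : Fin Ncov → Set (E n)` the cover; `T_i` = the `k ∈ T` whose FIRST covering set is `P i`; `an_geo` for `(P i, T_i)`: `N_i ≤ Ncl := ⌈Ccl (1 + log R)⌉₊`, `cl_i`;
`Scl (i Ncl + j) = T_i.filter (cl_i = j)` for `i < Ncov`, `j < Ncl`, `∅` otherwise (use `idx / Ncl`, `idx % Ncl`).   The empty set has the chain property because `n ≥ 2` (an orthonormal pair exists: `EuclideanSpace.single`). -/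
theorem an_classes (hn : 2 ≤ n) (Cw Cq cq : ℝ) (hCw : 0 ≤ Cw) (hCq : 1 ≤ Cq) (hcq : 0 < cq) :
    ∃ C₁ K₀ Ccl : ℝ, 0 ≤ C₁ ∧ 0 ≤ Ccl ∧ ∀ (K J Ncov : ℕ), K₀ ≤ (K : ℝ) → 1 ≤ J → ∀ T : Finset (Fin n → ℤ), AngCover Cw Cq cq ((K : ℝ) ^ J) Ncov T →
      ∃ Scl : ℕ → Finset (Fin n → ℤ), (∀ i, Scl i ⊆ T) ∧ (∀ i, Chain K J C₁ 4 (Scl i)) ∧ (∀ i i', i ≠ i' → Disjoint (Scl i) (Scl i')) ∧
        ∀ k ∈ T, ∃ i < Ncov * ⌈Ccl * (1 + Real.log ((K : ℝ) ^ J))⌉₊, k ∈ Scl i := by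
  classical
  obtain ⟨C₁, K₀, Ccl, H⟩ := an_geo hn Cw Cq cq hCw hCq hcq
  refine ⟨max C₁ 0, max K₀ 1, max Ccl 0, le_max_right _ _, le_max_right _ _, fun K J Ncov hK hJ T hT => ?_⟩
  obtain ⟨P, hP, hcov⟩ := hT
  have hK0 : K₀ ≤ (K : ℝ) := (le_max_left _ _).trans hK
  have hK1 : (1 : ℝ) ≤ (K : ℝ) := (le_max_right _ _).trans hK
  have hR1 : (1 : ℝ) ≤ (K : ℝ) ^ J := one_le_pow₀ hK1
  have hlog : 0 ≤ Real.log ((K : ℝ) ^ J) := Real.log_nonneg hR1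
  set Ncl : ℕ := ⌈max Ccl 0 * (1 + Real.log ((K : ℝ) ^ J))⌉₊ with hNcl
  -- a covering index for every bin
  have hf : ∀ k : Fin n → ℤ, ∃ i : ℕ, k ∈ T → ∃ h : i < Ncov, bcen ((K : ℝ) ^ J) k ∈ P ⟨i, h⟩ := by
    intro k
    by_cases hk : k ∈ T
    · obtain ⟨i, hi⟩ := hcov k hk
      exact ⟨i.1, fun _ => ⟨i.2, hi⟩⟩
    · exact ⟨0, fun h => absurd h hk⟩
  choose f hf using hf
  -- the classes of every covering set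
  have hg : ∀ i : ℕ, ∃ (N : ℕ) (cl : (Fin n → ℤ) → ℕ), i < Ncov → (N ≤ Ncl ∧ (∀ k ∈ T.filter (fun k => f k = i), cl k < N) ∧
      ∀ j < N, Chain K J C₁ 4 ((T.filter (fun k => f k = i)).filter (fun k => cl k = j))) := by
    intro i
    by_cases hi : i < Ncov
    · obtain ⟨N, cl, h1, h2, h3⟩ := H K J hK0 hJ (P ⟨i, hi⟩) (hP _) (T.filter (fun k => f k = i)) (by
        intro k hk
        rw [Finset.mem_filter] at hk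
        obtain ⟨h, hh⟩ := hf k hk.1
        have : (⟨f k, h⟩ : Fin Ncov) = ⟨i, hi⟩ := by
          rw [Fin.mk.injEq]
          exact hk.2
        rw [← this]
        exact hh)
      refine ⟨N, cl, fun _ => ⟨?_, h2, h3⟩⟩
      have : (N : ℝ) ≤ max Ccl 0 * (1 + Real.log ((K : ℝ) ^ J)) :=
        h1.trans (mul_le_mul_of_nonneg_right (le_max_left _ _) (by linarith))
      exact Nat.cast_le.1 (this.trans (Nat.le_ceil _))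
    · exact ⟨0, fun _ => 0, fun h => absurd h hi⟩
  choose N cl hg using hg
  refine ⟨fun idx => if idx / Ncl < Ncov then (T.filter (fun k => f k = idx / Ncl)).filter (fun k => cl (idx / Ncl) k = idx % Ncl) else ∅, ?_, ?_, ?_, ?_⟩
  · intro idx
    simp only
    split_ifs with h
    · exact (Finset.filter_subset _ _).trans (Finset.filter_subset _ _)
    · exact Finset.empty_subset _
  · intro idx
    simp only
    split_ifs with h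
    · obtain ⟨h1, h2, h3⟩ := hg _ h
      by_cases hj : idx % Ncl < N (idx / Ncl)
      · exact (h3 _ hj).mono (le_max_left _ _) le_rfl
      · have : (T.filter (fun k => f k = idx / Ncl)).filter (fun k => cl (idx / Ncl) k = idx % Ncl) = ∅ := by
          rw [Finset.filter_eq_empty_iff]
          intro k hk hk2
          exact hj (hk2 ▸ h2 k hk)
        rw [this]
        exact an_chain_empty hn _ _ _ _
    · exact an_chain_empty hn _ _ _ _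
  · intro i i' hii
    simp only
    rw [Finset.disjoint_left]
    intro k hk hk'
    split_ifs at hk hk' with h h'
    · simp only [Finset.mem_filter] at hk hk'
      apply hii
      rw [← Nat.div_add_mod i Ncl, ← Nat.div_add_mod i' Ncl, ← hk.1.2, ← hk'.1.2, ← hk.2, ← hk'.2, hk.1.2, ← hk'.1.2, ← hk.1.2]
    all_goals simp at hk hk'
  · intro k hk
    obtain ⟨h, -⟩ := hf k hk
    obtain ⟨h1, h2, -⟩ := hg _ h
    have hk2 : k ∈ T.filter (fun k' => f k' = f k) := by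
      rw [Finset.mem_filter]
      exact ⟨hk, rfl⟩
    have h3 : cl (f k) k < Ncl := (h2 k hk2).trans_le h1
    have hpos : 0 < Ncl := by omega
    have e1 : (f k * Ncl + cl (f k) k) / Ncl = f k := by
      rw [mul_comm, Nat.mul_add_div hpos, Nat.div_eq_of_lt h3, add_zero]
    have e2 : (f k * Ncl + cl (f k) k) % Ncl = cl (f k) k := by
      rw [mul_comm, Nat.mul_add_mod, Nat.mod_eq_of_lt h3]
    refine ⟨f k * Ncl + cl (f k) k, ?_, ?_⟩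
    · calc f k * Ncl + cl (f k) k < f k * Ncl + Ncl := by omega
        _ = (f k + 1) * Ncl := by ring
        _ ≤ Ncov * Ncl := Nat.mul_le_mul_right _ h
    · simp only [e1, e2, if_pos h, Finset.mem_filter]
      simp [hk]

/-- numerics of the truncation radius `ρ = L^{1/4}` -/
theorem an_approx_num (L R : ℝ) (hR : 1 ≤ R) (hL : R ^ 2 ≤ L) :
    1 ≤ L ^ ((1 : ℝ) / 4) ∧ L ^ ((1 : ℝ) / 4) / L ≤ 1 / R ∧ 2 * (L ^ ((1 : ℝ) / 4)) ^ 2 / L ^ 2 ≤ 2 / R ^ 2 := by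
  have hR0 : 0 < R := by linarith
  have hL1 : 1 ≤ L := le_trans (one_le_pow₀ hR) hL
  have hL0 : 0 < L := by linarith
  set ρ : ℝ := L ^ ((1 : ℝ) / 4) with hρ
  have hρ1 : 1 ≤ ρ := Real.one_le_rpow hL1 (by norm_num)
  have hρ4 : ρ ^ 4 = L := by
    rw [hρ, ← Real.rpow_natCast, ← Real.rpow_mul hL0.le]
    norm_num
  have hρ0 : 0 < ρ := by linarith
  have hRρ : R ≤ ρ ^ 2 := by
    refine (sq_le_sq₀ hR0.le (by positivity)).1 ?_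
    calc R ^ 2 ≤ L := hL
      _ = (ρ ^ 2) ^ 2 := by rw [← hρ4]; ring
  refine ⟨hρ1, ?_, ?_⟩
  · rw [div_le_div_iff₀ hL0 hR0, ← hρ4]
    calc ρ * R ≤ ρ * ρ ^ 2 := by gcongr
      _ ≤ ρ * ρ ^ 2 * ρ := le_mul_of_one_le_right (by positivity) hρ1
      _ = 1 * ρ ^ 4 := by ring
  · rw [div_le_div_iff₀ (by positivity) (by positivity), ← hρ4]
    have h1 : R ^ 2 ≤ (ρ ^ 2) ^ 2 := by gcongr
    have h2 : (1 : ℝ) ≤ ρ ^ 2 := one_le_pow₀ hρ1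
    calc 2 * ρ ^ 2 * R ^ 2 ≤ 2 * ρ ^ 2 * (ρ ^ 2) ^ 2 := by gcongr
      _ ≤ 2 * ρ ^ 2 * (ρ ^ 2) ^ 2 * ρ ^ 2 := le_mul_of_one_le_right (by positivity) h2
      _ = 2 * (ρ ^ 4) ^ 2 := by ring

/-- **L-AN-M2** (400 l.) the approximation package.  `Cy = Cb + 2 T₀ Rω + Rp`;  `s' = s.filter (‖y α - x₀‖ ≤ Cy L²)` (`an_far_zero` ⟹ `same`);  `𝔅 = s'.image (fbin R ∘ om)`;  `ρ = L^{1/4}`;  `Gα` from `an_trunc_atom` (`Prof` is monotone in the order: `N₁+n+2 ≤ K.J`);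
`G k = ∑_{α ∈ s', fbin = k} conj (c α) Gα`;  `ε k = ∑_{α ∈ s', fbin = k} ‖c α‖ εa`, `εa = C B L^{-n/2} L^{-N₁/4}`;  `∑_k ε k = ∑_{s'} ‖c α‖ εa ≤ √(card s') √E εa` (Cauchy-Schwarz), `an_count`.
`BinFam`: `‖bcen R k‖ ≤ Rω + √n` (`an_fbin_near`);  `cap (-ω) (ρ/L) (2ρ²/L²) ⊆ cap (-bcen R k) (ρ/L + √n/R) (2ρ²/L²)` (`BD.cap_subset_cap`), `ρ/L = L^{-3/4} ≤ 1/R`, `ρ²/L² = L^{-3/2} ≤ 1/R²` because `R² ≤ L`. -/
theorem an_approx (n N₁ : ℕ) (W : WCon) (hW : W.Sane n) :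
    ∃ C Cε : ℝ, 1 ≤ C ∧ 0 ≤ Cε ∧ ∀ (ι : Type) (A : Arr n ι) (s : Finset ι) (c : ι → ℂ) (x₀ : E n) (K J : ℕ), 1 ≤ K → ((K : ℝ) ^ J) ^ 2 ≤ A.L → A.In s W.K →
      N₁ + n + 2 ≤ W.K.J → (∀ α ∈ s, A.tc α = 0) →
      ∃ (𝔅 : Finset (Fin n → ℤ)) (s' : Finset ι) (G : (Fin n → ℤ) → ST n → ℂ) (ε : (Fin n → ℤ) → ℝ),
        AnPack C A s c K J x₀ W.Cb W.T₀ 𝔅 s' G ε ∧ ∑ k ∈ 𝔅, ε k ≤ Cε * Real.sqrt (energy s c) * A.L ^ ((n : ℝ) / 2 - N₁ / 4) := by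
  classical
  have hsn : 0 ≤ Real.sqrt n := Real.sqrt_nonneg _
  have hRω : 0 ≤ W.K.Rω := hsn.trans hW.freq
  have hCy : 0 ≤ W.Cb + 2 * W.T₀ * W.K.Rω + W.K.R := by
    have := hW.Cb
    have := hW.Rp
    have := mul_nonneg hW.T0 hRω
    linarith
  obtain ⟨Ca, hCa, Ha⟩ := an_trunc_atom n N₁ W.K.R hW.Rp
  obtain ⟨Cc, hCc, Hc⟩ := an_count n W.K.Rω (W.Cb + 2 * W.T₀ * W.K.Rω + W.K.R) hRω hCy
  refine ⟨W.K.Rω + Real.sqrt n + 2, Ca * W.K.B * Real.sqrt (Cc * W.K.m₀), by linarith, by have := hW.Bp; positivity, ?_⟩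
  intro ι A s c x₀ K J hK hRL hA hJ htc
  set R : ℝ := (K : ℝ) ^ J with hR
  have hR1 : 1 ≤ R := one_le_pow₀ (by exact_mod_cast hK)
  have hR0 : 0 < R := by linarith
  have hL1 : 1 ≤ A.L := hA.one_le
  have hL0 : 0 < A.L := by linarith
  obtain ⟨hρ1, hρa, hρb⟩ := an_approx_num A.L R hR1 hRL
  set ρ : ℝ := A.L ^ ((1 : ℝ) / 4) with hρ
  set εa : ℝ := Ca * W.K.B * A.L ^ (-(n : ℝ) / 2) * ρ ^ (-(N₁ : ℝ)) with hεa
  have hεa0 : 0 ≤ εa := by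
    have := hW.Bp
    positivity
  -- the truncated atoms
  have hG : ∀ α : ι, ∃ Gα : ST n → ℂ, α ∈ s → (BD.FS (BD.cap (-A.om α) (ρ / A.L) (2 * ρ ^ 2 / A.L ^ 2)) Gα ∧
      ∀ z, ‖(starRingEnd ℂ) (A.atom α z) - Gα z‖ ≤ εa) := by
    intro α
    by_cases hα : α ∈ s
    · obtain ⟨Gα, h1, h2⟩ := Ha W.K.B ρ ι A α hρ1 hL1 (htc α hα)
        ⟨(hA.prof α hα).smooth, (hA.prof α hα).supp, fun j hj => (hA.prof α hα).bound j (hj.trans hJ)⟩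
      exact ⟨Gα, fun _ => ⟨h1, h2⟩⟩
    · exact ⟨0, fun h => absurd h hα⟩
  choose Ga hGa using hG
  set s' : Finset ι := s.filter (fun α => ‖A.y α - x₀‖ ≤ (W.Cb + 2 * W.T₀ * W.K.Rω + W.K.R) * A.L ^ 2) with hs'
  have hsub : s' ⊆ s := Finset.filter_subset _ _
  have hA' : A.In s' W.K := ⟨hA.one_le, fun α h => hA.prof α (hsub h), fun α h => hA.freq α (hsub h), fun ξ y τ t ht => hA.mult ξ y τ t (ht.trans hsub)⟩
  have hsel : ∀ k α, α ∈ selS A s' R {k} ↔ α ∈ s' ∧ fbin R (A.om α) = k := by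
    intro k α
    unfold selS
    rw [Finset.mem_filter, Finset.mem_singleton]
  refine ⟨s'.image (fun α => fbin R (A.om α)), s', fun k z => ∑ α ∈ selS A s' R {k}, (starRingEnd ℂ) (c α) * Ga α z,
    fun k => ∑ α ∈ selS A s' R {k}, ‖c α‖ * εa, ⟨hsub, ⟨?_, ?_⟩, ?_, ?_, ?_, ?_⟩, ?_⟩
  · -- bounded centres
    intro k hk
    rw [Finset.mem_image] at hk
    obtain ⟨α, hα, rfl⟩ := hk
    have h1 := an_fbin_near R hR0 (A.om α)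
    have h2 : ‖A.om α - bcen R (fbin R (A.om α))‖ ≤ Real.sqrt n := by
      refine le_trans ?_ h1
      exact le_mul_of_one_le_left (norm_nonneg _) hR1
    have h3 : ‖bcen R (fbin R (A.om α))‖ ≤ ‖A.om α‖ + ‖A.om α - bcen R (fbin R (A.om α))‖ := by
      have e : bcen R (fbin R (A.om α)) = A.om α - (A.om α - bcen R (fbin R (A.om α))) := by abel
      calc ‖bcen R (fbin R (A.om α))‖ = ‖A.om α - (A.om α - bcen R (fbin R (A.om α)))‖ := by rw [← e]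
        _ ≤ _ := norm_sub_le _ _
    have h4 := hA.freq α (hsub hα)
    linarith
  · -- Fourier supports
    intro k _
    refine BD.FS.sum _ fun α hα => ?_
    rw [hsel] at hα
    obtain ⟨hα, rfl⟩ := hα
    refine BD.FS.const_mul (BD.FS.mono (hGa α (hsub hα)).1 ?_) _
    have h1 := an_fbin_near R hR0 (A.om α)
    have h2 : ‖-A.om α - -bcen R (fbin R (A.om α))‖ ≤ Real.sqrt n / R := by
      rw [le_div_iff₀ hR0, mul_comm, ← neg_sub', norm_neg]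
      exact h1
    refine (BD.cap_subset_cap h2).trans (BD.cap_mono ?_ ?_)
    · calc ρ / A.L + Real.sqrt n / R ≤ 1 / R + Real.sqrt n / R := by gcongr
        _ = (1 + Real.sqrt n) / R := by ring
        _ ≤ (W.K.Rω + Real.sqrt n + 2) / R := div_le_div_of_nonneg_right (by linarith) hR0.le
    · exact hρb.trans (div_le_div_of_nonneg_right (by linarith) (by positivity))
  · intro α hα
    exact Finset.mem_image_of_mem _ hα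
  · -- far packets vanish on the box
    intro z hz1 hz2 T
    unfold Arr.fld
    symm
    refine Finset.sum_subset ?_ ?_
    · intro α hα
      unfold selS at hα ⊢
      rw [Finset.mem_filter] at hα ⊢
      exact ⟨hsub hα.1, hα.2⟩
    · intro α hα hα'
      unfold selS at hα hα'
      rw [Finset.mem_filter] at hα hα'
      have h1 : α ∉ s' := fun h => hα' ⟨h, hα.2⟩
      rw [hs', Finset.mem_filter, not_and, not_le] at h1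
      rw [an_far_zero A s W.K hA α hα.1 (htc α hα.1) x₀ W.Cb W.T₀ z hz1 hz2 (h1 hα.1), mul_zero]
  · -- the error
    intro k z
    unfold Arr.fld
    rw [map_sum, ← Finset.sum_sub_distrib]
    refine (norm_sum_le _ _).trans (Finset.sum_le_sum fun α hα => ?_)
    rw [hsel] at hα
    rw [map_mul, ← mul_sub, norm_mul, RCLike.norm_conj]
    exact mul_le_mul_of_nonneg_left ((hGa α (hsub hα.1)).2 z) (norm_nonneg _)
  · intro k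
    exact Finset.sum_nonneg fun α _ => mul_nonneg (norm_nonneg _) hεa0
  · -- the sum of the errors
    have e1 : ∑ k ∈ s'.image (fun α => fbin R (A.om α)), ∑ α ∈ selS A s' R {k}, ‖c α‖ * εa = ∑ α ∈ s', ‖c α‖ * εa := by
      rw [← Finset.sum_fiberwise_of_maps_to (s := s') (t := s'.image (fun α => fbin R (A.om α))) (g := fun α => fbin R (A.om α))
        (fun α hα => Finset.mem_image_of_mem _ hα)]
      refine Finset.sum_congr rfl fun k _ => Finset.sum_congr ?_ fun _ _ => rfl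
      ext α
      rw [hsel]
      constructor
      · intro h
        exact Finset.mem_filter.2 h
      · intro h
        exact Finset.mem_filter.1 h
    rw [e1, ← Finset.sum_mul]
    have hcard : (s'.card : ℝ) ≤ Cc * W.K.m₀ * A.L ^ (2 * n) := by
      refine Hc ι A s' W.K x₀ hA' le_rfl (fun α hα => htc α (hsub hα)) fun α hα => ?_
      rw [hs', Finset.mem_filter] at hα
      exact hα.2
    have hE : energy s' c ≤ energy s c := by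
      unfold energy
      exact Finset.sum_le_sum_of_subset_of_nonneg hsub fun _ _ _ => by positivity
    have hcs : ∑ α ∈ s', ‖c α‖ ≤ Real.sqrt (Cc * W.K.m₀) * A.L ^ n * Real.sqrt (energy s c) := by
      have h1 : (∑ α ∈ s', ‖c α‖) ^ 2 ≤ (s'.card : ℝ) * ∑ α ∈ s', ‖c α‖ ^ 2 := sq_sum_le_card_mul_sum_sq
      have h2 : ∑ α ∈ s', ‖c α‖ ≤ Real.sqrt ((s'.card : ℝ) * ∑ α ∈ s', ‖c α‖ ^ 2) := Real.le_sqrt_of_sq_le h1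
      refine h2.trans ?_
      have h3 : (s'.card : ℝ) * ∑ α ∈ s', ‖c α‖ ^ 2 ≤ (Cc * W.K.m₀ * (A.L ^ n) ^ 2) * energy s c := by
        have h0 : 0 ≤ ∑ α ∈ s', ‖c α‖ ^ 2 := Finset.sum_nonneg fun _ _ => by positivity
        calc (s'.card : ℝ) * ∑ α ∈ s', ‖c α‖ ^ 2 ≤ (Cc * W.K.m₀ * A.L ^ (2 * n)) * ∑ α ∈ s', ‖c α‖ ^ 2 := by gcongr
          _ ≤ (Cc * W.K.m₀ * A.L ^ (2 * n)) * energy s c := by
            refine mul_le_mul_of_nonneg_left hE (by positivity)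
          _ = _ := by rw [← pow_mul, mul_comm n 2]
      refine (Real.sqrt_le_sqrt h3).trans (le_of_eq ?_)
      rw [Real.sqrt_mul (by positivity), Real.sqrt_mul (by positivity), Real.sqrt_sq (by positivity)]
    calc (∑ α ∈ s', ‖c α‖) * εa ≤ (Real.sqrt (Cc * W.K.m₀) * A.L ^ n * Real.sqrt (energy s c)) * εa := by gcongr
      _ = Ca * W.K.B * Real.sqrt (Cc * W.K.m₀) * Real.sqrt (energy s c) * (A.L ^ n * A.L ^ (-(n : ℝ) / 2) * ρ ^ (-(N₁ : ℝ))) := by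
        rw [hεa]
        ring
      _ = Ca * W.K.B * Real.sqrt (Cc * W.K.m₀) * Real.sqrt (energy s c) * A.L ^ ((n : ℝ) / 2 - N₁ / 4) := by
        congr 1
        rw [hρ, ← Real.rpow_mul hL0.le, ← Real.rpow_natCast, ← Real.rpow_add hL0, ← Real.rpow_add hL0]
        congr 1
        ring

/-- **L-AN-M3** (120 l.) the box of the measure. -/
theorem an_box (μ : Measure (ST n)) (m Cb T₀ L : ℝ) (x₀ : E n) (hCb : 0 ≤ Cb) (hT : 0 ≤ T₀) (hL : 1 ≤ L) (hm : 0 ≤ m) (hg : Grow μ m n)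
    (hs : Slab μ (T₀ * L ^ 2)) (hb : InBall μ x₀ (Cb * L ^ 2)) :
    (∀ᵐ z ∂μ, ‖z.1 - x₀‖ ≤ Cb * L ^ 2 ∧ |z.2| ≤ T₀ * L ^ 2) ∧ μ {z | (Cb + T₀ + 1) * L ^ 2 < ‖z - (x₀, (0 : ℝ))‖} = 0 ∧
      μ univ ≤ ENNReal.ofReal (m * ((Cb + T₀ + 1) * L ^ 2) ^ (n : ℝ)) := by
  have hL2 : 1 ≤ L ^ 2 := one_le_pow₀ hL
  have h1 : ∀ᵐ z ∂μ, ‖z.1 - x₀‖ ≤ Cb * L ^ 2 := by
    rw [ae_iff]
    simpa [InBall] using hb
  have h2 : ∀ᵐ z ∂μ, |z.2| ≤ T₀ * L ^ 2 := by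
    rw [ae_iff]
    simpa [Slab] using hs
  have hae : ∀ᵐ z ∂μ, ‖z.1 - x₀‖ ≤ Cb * L ^ 2 ∧ |z.2| ≤ T₀ * L ^ 2 := by
    filter_upwards [h1, h2] with z a b using ⟨a, b⟩
  have hnull : μ {z | (Cb + T₀ + 1) * L ^ 2 < ‖z - (x₀, (0 : ℝ))‖} = 0 := by
    have h3 := hae
    rw [ae_iff] at h3
    refine measure_mono_null ?_ h3
    intro z hz
    rw [Set.mem_ofPred_eq] at hz ⊢
    intro hc
    have : ‖z - (x₀, (0 : ℝ))‖ ≤ (Cb + T₀ + 1) * L ^ 2 := by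
      rw [Prod.norm_def, max_le_iff]
      constructor
      · refine hc.1.trans ?_
        nlinarith
      · simp only [Prod.snd_sub, sub_zero, Real.norm_eq_abs]
        refine hc.2.trans ?_
        nlinarith
    exact absurd hz (not_lt.mpr this)
  refine ⟨hae, hnull, ?_⟩
  have hr : 1 ≤ (Cb + T₀ + 1) * L ^ 2 := by nlinarith
  calc μ univ ≤ μ (closedBall (x₀, (0 : ℝ)) ((Cb + T₀ + 1) * L ^ 2) ∪ {z | (Cb + T₀ + 1) * L ^ 2 < ‖z - (x₀, (0 : ℝ))‖}) := by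
        refine measure_mono fun z _ => ?_
        rcases le_or_gt ‖z - (x₀, (0 : ℝ))‖ ((Cb + T₀ + 1) * L ^ 2) with h | h
        · left
          rwa [mem_closedBall, dist_eq_norm]
        · right
          exact h
    _ ≤ μ (closedBall (x₀, (0 : ℝ)) ((Cb + T₀ + 1) * L ^ 2)) + μ {z | (Cb + T₀ + 1) * L ^ 2 < ‖z - (x₀, (0 : ℝ))‖} := measure_union_le _ _
    _ = μ (closedBall (x₀, (0 : ℝ)) ((Cb + T₀ + 1) * L ^ 2)) := by rw [hnull, add_zero]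
    _ ≤ _ := hg _ _ hr

/-- the class passes to subarrays. -/
theorem an_In_mono {A : Arr n ι} {s t : Finset ι} {K : Cls} (h : A.In s K) (ht : t ⊆ s) : A.In t K :=
  ⟨h.one_le, fun α hα => h.prof α (ht hα), fun α hα => h.freq α (ht hα), fun ξ y τ u hu => h.mult ξ y τ u (hu.trans ht)⟩

/-- the index of the big cube is measurable. -/
theorem an_bigc_meas (a : ℝ) : Measurable (bigc a : ST n → (Fin n → ℤ) × ℤ) := by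
  unfold bigc
  refine Measurable.prodMk (measurable_pi_lambda _ fun i => ?_) ?_
  · have hc : Measurable fun z : ST n => z.1 i :=
      ((EuclideanSpace.proj i : E n →L[ℝ] ℝ).continuous.measurable).comp measurable_fst
    exact Int.measurable_floor.comp (hc.div_const a)
  · exact Int.measurable_floor.comp (measurable_snd.div_const a)

/-- **L-AN-M4** (150 l.) the prescribed-bin field is measurable: `selF … z = ∑_{α ∈ s} 1[fbin R (om α) ∈ Sel (bigc (R⁴) z)] c α atom α z`; `bigc` is measurable into a countable discrete type (`Int.floor`), atoms are continuous (`an_fld_cont`). -/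
theorem an_selF_meas (A : Arr n ι) (s : Finset ι) (Kc : Cls) (hA : A.In s Kc) (c : ι → ℂ) (R : ℝ) (Sel : (Fin n → ℤ) × ℤ → Finset (Fin n → ℤ)) :
    Measurable (selF A s c R Sel) := by
  have hsub : ∀ T, selS A s R T ⊆ s := fun T => by
    unfold selS
    exact Finset.filter_subset _ _
  have h1 : Measurable (fun q : ST n × ((Fin n → ℤ) × ℤ) => A.fld (selS A s R (Sel q.2)) c q.1) := by
    refine measurable_from_prod_countable_left fun κ => ?_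
    have hc : Continuous (A.fld (selS A s R (Sel κ)) c) := an_fld_cont A _ Kc (an_In_mono hA (hsub _)) c
    exact hc.measurable
  have h2 : Measurable (fun z : ST n => (z, bigc (R ^ 4) z)) := measurable_id.prodMk (an_bigc_meas (R ^ 4))
  have h3 := h1.comp h2
  simp only [Function.comp_def] at h3
  exact h3

/-- a selected field is the sum of its bin fields. -/
theorem an_fld_split (A : Arr n ι) (s' : Finset ι) (c : ι → ℂ) (R : ℝ) (𝔅 T : Finset (Fin n → ℤ)) (hb : ∀ α ∈ s', fbin R (A.om α) ∈ 𝔅) (z : ST n) :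
    A.fld (selS A s' R T) c z = ∑ k ∈ T ∩ 𝔅, A.fld (selS A s' R {k}) c z := by
  unfold Arr.fld
  have h1 : ∀ α ∈ selS A s' R T, fbin R (A.om α) ∈ T ∩ 𝔅 := by
    intro α hα
    unfold selS at hα
    rw [Finset.mem_filter] at hα
    exact Finset.mem_inter.2 ⟨hα.2, hb α hα.1⟩
  rw [← Finset.sum_fiberwise_of_maps_to h1]
  refine Finset.sum_congr rfl fun k hk => ?_
  refine Finset.sum_congr ?_ fun _ _ => rfl
  ext α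
  unfold selS
  simp only [Finset.mem_filter, Finset.mem_singleton]
  constructor
  · rintro ⟨⟨h2, _⟩, h3⟩
    exact ⟨h2, h3⟩
  · rintro ⟨h2, h3⟩
    exact ⟨⟨h2, h3 ▸ (Finset.mem_inter.1 hk).1⟩, h3⟩

/-- a sum over a disjoint union of classes. -/
theorem an_sum_classes {κ' : Type} [DecidableEq κ'] (T : Finset κ') (N' : ℕ) (Scl : ℕ → Finset κ') (hsub : ∀ i, Scl i ⊆ T) (hdis : ∀ i i', i ≠ i' → Disjoint (Scl i) (Scl i'))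
    (hcov : ∀ k ∈ T, ∃ i < N', k ∈ Scl i) (g : κ' → ℂ) : ∑ k ∈ T, g k = ∑ i ∈ Finset.range N', ∑ k ∈ Scl i, g k := by
  rw [← Finset.sum_biUnion (fun i _ i' _ hne => hdis i i' hne)]
  refine Finset.sum_congr ?_ fun _ _ => rfl
  ext k
  rw [Finset.mem_biUnion]
  constructor
  · intro hk
    obtain ⟨i, hi, hki⟩ := hcov k hk
    exact ⟨i, Finset.mem_range.2 hi, hki⟩
  · rintro ⟨i, _, hki⟩
    exact hsub i hki

/-- the pointwise bound on one big cube. -/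
theorem an_lhs_pt {C : ℝ} {A : Arr n ι} {s : Finset ι} {c : ι → ℂ} {K J : ℕ} {x₀ : E n} {Cb T₀ : ℝ} {𝔅 : Finset (Fin n → ℤ)} {s' : Finset ι}
    {G : (Fin n → ℤ) → ST n → ℂ} {ε : (Fin n → ℤ) → ℝ} (pack : AnPack C A s c K J x₀ Cb T₀ 𝔅 s' G ε) (hK : 1 ≤ K)
    (Sel : (Fin n → ℤ) × ℤ → Finset (Fin n → ℤ))
    (N' : ℕ) (Scl : (Fin n → ℤ) × ℤ → ℕ → Finset (Fin n → ℤ)) (hsub : ∀ κ i, Scl κ i ⊆ Sel κ ∩ 𝔅) (hdis : ∀ κ i i', i ≠ i' → Disjoint (Scl κ i) (Scl κ i'))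
    (hcov : ∀ κ, ∀ k ∈ Sel κ ∩ 𝔅, ∃ i < N', k ∈ Scl κ i) (κ : (Fin n → ℤ) × ℤ) (z : ST n) (hz : z ∈ cubeS (((K : ℝ) ^ J) ^ 4) κ)
    (hb : ‖z.1 - x₀‖ ≤ Cb * A.L ^ 2 ∧ |z.2| ≤ T₀ * A.L ^ 2) :
    ‖selF A s c ((K : ℝ) ^ J) Sel z‖ₑ ^ 2 ≤ 2 * ‖∑ i ∈ Finset.range N', ∑ k ∈ Scl κ i, G k z‖ₑ ^ 2 + ENNReal.ofReal (2 * (∑ k ∈ 𝔅, ε k) ^ 2) := by
  have hK0 : (0 : ℝ) < (K : ℝ) := by exact_mod_cast hK
  have ha : (0 : ℝ) < ((K : ℝ) ^ J) ^ 4 := by positivity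
  have hκ : bigc (((K : ℝ) ^ J) ^ 4) z = κ := (an_mem_cubeS_iff ha z κ).1 hz
  have e1 : selF A s c ((K : ℝ) ^ J) Sel z = ∑ k ∈ Sel κ ∩ 𝔅, A.fld (selS A s' ((K : ℝ) ^ J) {k}) c z := by
    unfold selF
    rw [hκ, pack.same z hb.1 hb.2 (Sel κ), an_fld_split A s' c _ 𝔅 (Sel κ) pack.bins z]
  have e2 : ∑ k ∈ Sel κ ∩ 𝔅, G k z = ∑ i ∈ Finset.range N', ∑ k ∈ Scl κ i, G k z :=
    an_sum_classes (Sel κ ∩ 𝔅) N' (Scl κ) (hsub κ) (hdis κ) (hcov κ) (fun k => G k z)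
  set H : ℂ := ∑ i ∈ Finset.range N', ∑ k ∈ Scl κ i, G k z with hH
  set e : ℝ := ∑ k ∈ 𝔅, ε k with he
  have he0 : 0 ≤ e := Finset.sum_nonneg fun k _ => pack.pos k
  have h1 : ‖selF A s c ((K : ℝ) ^ J) Sel z‖ ≤ ‖H‖ + e := by
    rw [e1, ← RCLike.norm_conj, map_sum]
    calc ‖∑ k ∈ Sel κ ∩ 𝔅, (starRingEnd ℂ) (A.fld (selS A s' ((K : ℝ) ^ J) {k}) c z)‖
        = ‖H + ∑ k ∈ Sel κ ∩ 𝔅, ((starRingEnd ℂ) (A.fld (selS A s' ((K : ℝ) ^ J) {k}) c z) - G k z)‖ := by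
          rw [Finset.sum_sub_distrib, e2]
          congr 1
          ring
      _ ≤ ‖H‖ + ‖∑ k ∈ Sel κ ∩ 𝔅, ((starRingEnd ℂ) (A.fld (selS A s' ((K : ℝ) ^ J) {k}) c z) - G k z)‖ := norm_add_le _ _
      _ ≤ ‖H‖ + ∑ k ∈ Sel κ ∩ 𝔅, ε k := by
          refine add_le_add le_rfl ((norm_sum_le _ _).trans (Finset.sum_le_sum fun k _ => pack.err k z))
      _ ≤ ‖H‖ + e := by
          refine add_le_add le_rfl ?_
          exact Finset.sum_le_sum_of_subset_of_nonneg Finset.inter_subset_right fun k _ _ => pack.pos k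
  have h2 : ‖selF A s c ((K : ℝ) ^ J) Sel z‖ ^ 2 ≤ 2 * ‖H‖ ^ 2 + 2 * e ^ 2 := by
    have h3 : ‖selF A s c ((K : ℝ) ^ J) Sel z‖ ^ 2 ≤ (‖H‖ + e) ^ 2 := pow_le_pow_left₀ (norm_nonneg _) h1 2
    nlinarith [sq_nonneg (‖H‖ - e)]
  rw [← ofReal_norm, ← ofReal_norm, ← ENNReal.ofReal_pow (norm_nonneg _), ← ENNReal.ofReal_pow (norm_nonneg _)]
  have : (2 : ℝ≥0∞) = ENNReal.ofReal 2 := by norm_num
  rw [this, ← ENNReal.ofReal_mul (by norm_num), ← ENNReal.ofReal_add (by positivity) (by positivity)]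
  exact ENNReal.ofReal_le_ofReal h2

/-- **L-AN-M5** (400 l.) the left side.  `f = selF`, `Y = {t ≤ ‖f‖}` measurable (`an_selF_meas`), `ν = μ.restrict Y`:  `t² μ(Y) ≤ ∫ ‖f‖² dν = ∑'_κ ∫ ‖f‖² dν_κ` (cubes partition: `an_cubeS_basic`, `lintegral_iUnion` / `Measure.restrict_iUnion`).
For `ν_κ`-a.e. `z`: `z ∈ cubeS (R⁴) κ`, so `bigc (R⁴) z = κ`, and `z` is in the box: `f z = fld (selS A s R (Sel κ)) = fld (selS A s' R (Sel κ)) = ∑_{k ∈ Sel κ ∩ 𝔅} fld (selS A s' R {k})` (`AnPack.same`, `AnPack.bins`, `Finset.sum_fiberwise`);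
`‖∑ U_k‖ = ‖∑ conj U_k‖ ≤ ‖∑ G k‖ + ∑_𝔅 ε k`, `(a+b)² ≤ 2a² + 2b²`;  `∑_{k ∈ Sel κ ∩ 𝔅} G k = ∑_{i < N'} ∑_{k ∈ Scl κ i} G k` (disjoint union);  `∑'_κ ν_κ univ = μ Y`. -/
theorem an_lhs {C : ℝ} {A : Arr n ι} {s : Finset ι} {c : ι → ℂ} {K J : ℕ} {x₀ : E n} {Cb T₀ : ℝ} {𝔅 : Finset (Fin n → ℤ)} {s' : Finset ι}
    {G : (Fin n → ℤ) → ST n → ℂ} {ε : (Fin n → ℤ) → ℝ} (pack : AnPack C A s c K J x₀ Cb T₀ 𝔅 s' G ε) (Kc : Cls) (hA : A.In s Kc) (hK : 1 ≤ K)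
    (μ : Measure (ST n)) (hbox : ∀ᵐ z ∂μ, ‖z.1 - x₀‖ ≤ Cb * A.L ^ 2 ∧ |z.2| ≤ T₀ * A.L ^ 2) (Sel : (Fin n → ℤ) × ℤ → Finset (Fin n → ℤ)) (t : ℝ) (ht : 0 ≤ t)
    (N' : ℕ) (Scl : (Fin n → ℤ) × ℤ → ℕ → Finset (Fin n → ℤ)) (hsub : ∀ κ i, Scl κ i ⊆ Sel κ ∩ 𝔅) (hdis : ∀ κ i i', i ≠ i' → Disjoint (Scl κ i) (Scl κ i'))
    (hcov : ∀ κ, ∀ k ∈ Sel κ ∩ 𝔅, ∃ i < N', k ∈ Scl κ i) :
    ENNReal.ofReal (t ^ 2) * μ {z | t ≤ ‖selF A s c ((K : ℝ) ^ J) Sel z‖} ≤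
      2 * ∑' κ : (Fin n → ℤ) × ℤ, ∫⁻ z, ‖∑ i ∈ Finset.range N', ∑ k ∈ Scl κ i, G k z‖ₑ ^ 2
          ∂((μ.restrict {z | t ≤ ‖selF A s c ((K : ℝ) ^ J) Sel z‖}).restrict (cubeS (((K : ℝ) ^ J) ^ 4) κ))
        + ENNReal.ofReal (2 * (∑ k ∈ 𝔅, ε k) ^ 2) * μ {z | t ≤ ‖selF A s c ((K : ℝ) ^ J) Sel z‖} := by
  have hK0 : (0 : ℝ) < (K : ℝ) := by exact_mod_cast hK
  have ha : (0 : ℝ) < ((K : ℝ) ^ J) ^ 4 := by positivity
  obtain ⟨hQm, hQd, -, hQc⟩ := an_cubeS_basic (n := n) (((K : ℝ) ^ J) ^ 4) ha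
  have hfm : Measurable (selF A s c ((K : ℝ) ^ J) Sel) := an_selF_meas A s Kc hA c _ Sel
  set Y : Set (ST n) := {z | t ≤ ‖selF A s c ((K : ℝ) ^ J) Sel z‖} with hY
  have hYm : MeasurableSet Y := measurableSet_le measurable_const hfm.norm
  set ν : Measure (ST n) := μ.restrict Y with hν
  have hU : (⋃ κ : (Fin n → ℤ) × ℤ, cubeS (((K : ℝ) ^ J) ^ 4) κ) = (univ : Set (ST n)) :=
    eq_univ_of_forall fun z => mem_iUnion.2 ⟨_, hQc z⟩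
  have hpw : Pairwise (Function.onFun Disjoint fun κ : (Fin n → ℤ) × ℤ => (cubeS (((K : ℝ) ^ J) ^ 4) κ : Set (ST n))) :=
    fun κ κ' hne => hQd κ κ' hne
  have hsplit : ∀ g : ST n → ℝ≥0∞, ∫⁻ z, g z ∂ν = ∑' κ : (Fin n → ℤ) × ℤ, ∫⁻ z, g z ∂(ν.restrict (cubeS (((K : ℝ) ^ J) ^ 4) κ)) := by
    intro g
    rw [← lintegral_iUnion hQm hpw, hU, Measure.restrict_univ]
  have s1 : ENNReal.ofReal (t ^ 2) * μ Y ≤ ∫⁻ z, ‖selF A s c ((K : ℝ) ^ J) Sel z‖ₑ ^ 2 ∂ν := by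
    rw [← setLIntegral_const]
    refine setLIntegral_mono' hYm fun z hz => ?_
    rw [← ofReal_norm, ← ENNReal.ofReal_pow (norm_nonneg _)]
    exact ENNReal.ofReal_le_ofReal (pow_le_pow_left₀ ht hz 2)
  have s3 : ∀ κ : (Fin n → ℤ) × ℤ, ∫⁻ z, ‖selF A s c ((K : ℝ) ^ J) Sel z‖ₑ ^ 2 ∂(ν.restrict (cubeS (((K : ℝ) ^ J) ^ 4) κ)) ≤
      2 * ∫⁻ z, ‖∑ i ∈ Finset.range N', ∑ k ∈ Scl κ i, G k z‖ₑ ^ 2 ∂(ν.restrict (cubeS (((K : ℝ) ^ J) ^ 4) κ)) +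
        ∫⁻ _z, ENNReal.ofReal (2 * (∑ k ∈ 𝔅, ε k) ^ 2) ∂(ν.restrict (cubeS (((K : ℝ) ^ J) ^ 4) κ)) := by
    intro κ
    rw [← lintegral_const_mul' _ _ (by norm_num), ← lintegral_add_right _ measurable_const]
    refine lintegral_mono_ae ?_
    have hb2 : ∀ᵐ z ∂(ν.restrict (cubeS (((K : ℝ) ^ J) ^ 4) κ)), ‖z.1 - x₀‖ ≤ Cb * A.L ^ 2 ∧ |z.2| ≤ T₀ * A.L ^ 2 :=
      ae_restrict_of_ae (ae_restrict_of_ae hbox)
    filter_upwards [hb2, ae_restrict_mem (hQm κ)] with z hb hz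
    exact an_lhs_pt pack hK Sel N' Scl hsub hdis hcov κ z hz hb
  calc ENNReal.ofReal (t ^ 2) * μ Y ≤ ∫⁻ z, ‖selF A s c ((K : ℝ) ^ J) Sel z‖ₑ ^ 2 ∂ν := s1
    _ = ∑' κ : (Fin n → ℤ) × ℤ, ∫⁻ z, ‖selF A s c ((K : ℝ) ^ J) Sel z‖ₑ ^ 2 ∂(ν.restrict (cubeS (((K : ℝ) ^ J) ^ 4) κ)) := hsplit _
    _ ≤ ∑' κ : (Fin n → ℤ) × ℤ, (2 * ∫⁻ z, ‖∑ i ∈ Finset.range N', ∑ k ∈ Scl κ i, G k z‖ₑ ^ 2 ∂(ν.restrict (cubeS (((K : ℝ) ^ J) ^ 4) κ)) +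
        ∫⁻ _z, ENNReal.ofReal (2 * (∑ k ∈ 𝔅, ε k) ^ 2) ∂(ν.restrict (cubeS (((K : ℝ) ^ J) ^ 4) κ))) := ENNReal.tsum_le_tsum s3
    _ = 2 * ∑' κ : (Fin n → ℤ) × ℤ, ∫⁻ z, ‖∑ i ∈ Finset.range N', ∑ k ∈ Scl κ i, G k z‖ₑ ^ 2 ∂(ν.restrict (cubeS (((K : ℝ) ^ J) ^ 4) κ)) +
        ENNReal.ofReal (2 * (∑ k ∈ 𝔅, ε k) ^ 2) * μ Y := by
        rw [ENNReal.tsum_add, ENNReal.tsum_mul_left, ← hsplit, lintegral_const, hν, Measure.restrict_apply_univ]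

/-- the mass of a cube for the push-forward. -/
theorem an_bt_cube (n : ℕ) (Cu CD : ℝ)
    (hCD : ∀ (ν : Measure (ST n)) (ϰ : ℝ≥0∞) (u : E n) (R r : ℝ) (z' : ST n), (∀ z, ν (closedBall z 1) ≤ ϰ) → ‖u‖ ≤ Cu → 1 ≤ R → 1 ≤ r →
      (ν.map (BD.Lam u R⁻¹ (R⁻¹ ^ 2))) (closedBall z' r) ≤ ENNReal.ofReal (CD * r ^ ((n : ℝ) + 1) * R ^ ((n : ℝ) + 2)) * ϰ)
    (c₂ : ℝ) (hc₂ : 0 < c₂) (ν : Measure (ST n)) (u : E n) (hu : ‖u‖ ≤ Cu) (R K m χ : ℝ) (hR : 1 ≤ R) (hK : 1 ≤ K) (hm : 0 < m) (hχ : 0 < χ)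
    (hdens : ∀ z, ν (closedBall z 1) ≤ ENNReal.ofReal (m * χ)) (κ : (Fin n → ℤ) × ℤ) :
    (ν.map (BD.Lam u R⁻¹ (R⁻¹ ^ 2))) (cubeS (K ^ 2) κ) ≤
      ENNReal.ofReal ((c₂ * m * R ^ ((n : ℝ) + 1)) * (((|CD| + 1) * (Real.sqrt n + 1) ^ ((n : ℝ) + 1) / c₂) * K ^ (2 * ((n : ℝ) + 1)) * (R * χ))) := by
  have hR0 : 0 < R := by linarith
  have hK0 : 0 < K := by linarith
  have hsq : 0 ≤ Real.sqrt n := Real.sqrt_nonneg _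
  rcases (cubeS (K ^ 2) κ : Set (ST n)).eq_empty_or_nonempty with h | ⟨z, hz⟩
  · rw [h, measure_empty]
    exact zero_le
  · have hK2 : 1 ≤ K ^ 2 := one_le_pow₀ hK
    have hr : 1 ≤ (Real.sqrt n + 1) * K ^ 2 := by nlinarith
    refine (measure_mono (an_cubeS_subset (K ^ 2) (by positivity) κ z hz)).trans ((hCD ν _ u R _ z hdens hu hR hr).trans ?_)
    have h1 : ENNReal.ofReal (CD * ((Real.sqrt n + 1) * K ^ 2) ^ ((n : ℝ) + 1) * R ^ ((n : ℝ) + 2)) ≤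
        ENNReal.ofReal ((|CD| + 1) * ((Real.sqrt n + 1) * K ^ 2) ^ ((n : ℝ) + 1) * R ^ ((n : ℝ) + 2)) := by
      refine ENNReal.ofReal_le_ofReal ?_
      refine mul_le_mul_of_nonneg_right (mul_le_mul_of_nonneg_right ?_ (by positivity)) (by positivity)
      linarith [le_abs_self CD]
    refine (mul_le_mul_left h1 _).trans ?_
    rw [← ENNReal.ofReal_mul (by positivity)]
    refine le_of_eq ?_
    congr 1
    have e1 : ((Real.sqrt n + 1) * K ^ 2) ^ ((n : ℝ) + 1) = (Real.sqrt n + 1) ^ ((n : ℝ) + 1) * K ^ (2 * ((n : ℝ) + 1)) := by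
      rw [Real.mul_rpow (by positivity) (by positivity), ← Real.rpow_natCast K 2, ← Real.rpow_mul hK0.le]
      norm_num
    have e2 : R ^ ((n : ℝ) + 2) = R ^ ((n : ℝ) + 1) * R := by
      rw [show (n : ℝ) + 2 = (n : ℝ) + 1 + 1 by ring, Real.rpow_add hR0, Real.rpow_one]
    rw [e1, e2]
    field_simp

/-- the powers of `K`. -/
theorem an_bt_Kpow (n : ℕ) (bb δ K : ℝ) (hb0 : 0 < bb) (hδ1 : δ ≤ 1) (hK : 1 ≤ K) :
    (K ^ 2) ^ (((n : ℝ) + 1) * (1 - bb)) * (K ^ 2) ^ n * (K ^ (2 * ((n : ℝ) + 1))) ^ δ ≤ K ^ (6 * (n : ℝ) + 4) := by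
  have hK0 : 0 < K := by linarith
  rw [← Real.rpow_natCast (K ^ 2) n, ← Real.rpow_natCast K 2, ← Real.rpow_mul hK0.le, ← Real.rpow_mul hK0.le, ← Real.rpow_mul hK0.le, ← Real.rpow_add hK0, ← Real.rpow_add hK0]
  refine Real.rpow_le_rpow_of_exponent_le hK ?_
  have hn : (0:ℝ) ≤ n := Nat.cast_nonneg n
  push_cast
  nlinarith

/-- **L-AN-M6** (400 l.) the terminal estimate for ONE bin field (exact compact field).  `v = bcen R k`, `A' = A.child R v`, `X = Lam (-v) R⁻¹ R⁻²`, `ν' = ν.map X`.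
`an_phi_resc` (`σ = R⁻¹`, `a₀ = b₀ = (K⁻¹)²`; `‖fld y‖ = R^{-n/2} ‖fld' (X y)‖`: `an_fld_child`, `an_norm_car`): factor `R^{2-(n+2)b}`;   `an_c2d` (`ρ₂ = K²`, `r = 2`): factor `A K^{2(n+1)(1-b)}`;
`an_term` for `A'` (`an_child_in`, `an_fbin_near`, `hW.freq`), `m' = 2(1+2Cu)^n m R^{n+1}` (`an_grow_push`), `ν' univ = ν univ`, cubes: `an_cubeS_subset` + `an_dens_push` (`r = (√n+1)K²`): `ν'(Q) ≤ C K^{2(n+1)} R^{n+2} mχ =: m' dmax`, `dmax = C' K^{2(n+1)} Rχ`.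
Powers of `K`: `2(n+1)(1-b) + 2n + 2(n+1)δ ≤ 6n+4` (`1 - b + δ ≤ 2`). -/
theorem an_bin_term (n : ℕ) (W : WCon) (hW : W.Sane n) (p a bb δ Ew Cu : ℝ) (hp : 2 < p) (ha : 0 ≤ a) (hb0 : 0 < bb) (hb1 : bb < 1) (hδ : 0 < δ) (hδ1 : δ ≤ 1) (h2a : 2 * a = 1 - bb + δ)
    (hE : (n : ℝ) + 1 < Ew * (1 - bb)) (hCu : 0 ≤ Cu) :
    ∃ Ct : ℝ, 0 ≤ Ct ∧ ∀ (σ' Cind C' : ℝ) (ι : Type) (A : Arr n ι) (s sk : Finset ι) (c : ι → ℂ) (ν : Measure (ST n)) (m χ M₀ : ℝ) (K J : ℕ) (k : Fin n → ℤ),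
      0 ≤ Cind → 0 ≤ C' → 2 ≤ K → 1 ≤ J → ((K : ℝ) ^ J) ^ 2 ≤ A.L → A.In s W.K → sk ⊆ s → (∀ α ∈ s, A.tc α = 0) → (∀ α ∈ sk, fbin ((K : ℝ) ^ J) (A.om α) = k) →
      ‖bcen ((K : ℝ) ^ J) k‖ ≤ Cu → WeakAt0 n W ⟨p, σ', a, Cind⟩ C' (A.L / (K : ℝ) ^ J) 1 → 0 < m → 0 < χ → 0 ≤ M₀ → Grow ν m n →
      (∀ z, ν (closedBall z 1) ≤ ENNReal.ofReal (m * χ)) → ν univ ≤ ENNReal.ofReal M₀ →
      anPhi bb Ew 2 (-bcen ((K : ℝ) ^ J) k) (lvA K J) (lvB K J) (A.fld sk c) ν ≤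
        ENNReal.ofReal (Ct * (K : ℝ) ^ (6 * (n : ℝ) + 4) * anTB0 n p bb δ (C' * Cind) m χ ((K : ℝ) ^ J) A.L * M₀ ^ (1 - 2 / p) * energy sk c) := by
  have hδ' : 0 < bb - 1 + 2 * a := by linarith
  have hδe : bb - 1 + 2 * a = δ := by linarith
  obtain ⟨A₂, hA₂⟩ := an_c2d n bb Ew 2 hb0 hb1 hE (by norm_num)
  obtain ⟨CT, hCT⟩ := an_term n W hW p a bb hp ha hb0 hb1 hδ'
  obtain ⟨CD, hCD⟩ := an_dens_push n Cu hCu
  obtain ⟨c₂, hc₂⟩ : ∃ c₂ : ℝ, c₂ = 2 * (1 + 2 * Cu) ^ n := ⟨_, rfl⟩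
  have hc₂0 : 0 < c₂ := by rw [hc₂]; positivity
  obtain ⟨c₃, hc₃⟩ : ∃ c₃ : ℝ, c₃ = (|CD| + 1) * (Real.sqrt n + 1) ^ ((n : ℝ) + 1) / c₂ := ⟨_, rfl⟩
  have hc₃0 : 0 < c₃ := by rw [hc₃]; positivity
  refine ⟨|A₂| * |CT| * c₂ ^ (bb - 1 + 2 / p) * c₃ ^ δ, by positivity, ?_⟩
  intro σ' Cind C' ι A s sk c ν m χ M₀ K J k hCind hC' hK hJ hRL hA hsk htc hbin hv hweak hm hχ hM₀ hgrow hdens hmass
  have e1 : lvA K J = ((K : ℝ) ^ J)⁻¹ * ((K : ℝ)⁻¹) ^ 2 := rfl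
  have e2 : lvB K J = (((K : ℝ) ^ J)⁻¹) ^ 2 * ((K : ℝ)⁻¹) ^ 2 := rfl
  rw [e1, e2]
  have hK2 : (2:ℝ) ≤ K := by exact_mod_cast hK
  have hK0 : (0:ℝ) < K := by linarith
  have hK1 : (1:ℝ) ≤ K := by linarith
  have hR1 : (1:ℝ) ≤ (K : ℝ) ^ J := one_le_pow₀ hK1
  obtain ⟨R, hRdef⟩ : ∃ R : ℝ, R = (K : ℝ) ^ J := ⟨_, rfl⟩
  rw [← hRdef] at hRL hbin hv hweak hR1 ⊢
  have hR0 : 0 < R := by linarith
  have hRL' : R ≤ A.L := by nlinarith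
  have hL0 : 0 < A.L := by linarith
  obtain ⟨v, hvdef⟩ : ∃ v, v = bcen R k := ⟨_, rfl⟩
  rw [← hvdef] at hv ⊢
  have hu : ‖-v‖ ≤ Cu := by rw [norm_neg]; exact hv
  have hin : (A.child R v).In sk W.K := an_child_in A s sk W.K hA hsk (fun α hα => htc α (hsk hα)) R hR0 hRL' v (fun α hα => by
    have := an_fbin_near R hR0 (A.om α)
    rw [hbin α hα, ← hvdef] at this
    exact this.trans hW.freq)
  have htc' : ∀ α ∈ sk, (A.child R v).tc α = 0 := fun α hα => htc α (hsk hα)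
  obtain ⟨ν', hν'⟩ : ∃ ν', ν' = ν.map (BD.Lam (-v) R⁻¹ (R⁻¹ ^ 2)) := ⟨_, rfl⟩
  have hgrow' : Grow ν' (c₂ * m * R ^ ((n : ℝ) + 1)) n := by
    rw [hν', hc₂]
    exact an_grow_push ν m Cu hm.le hgrow (-v) hu R hR1
  have hmass' : ν' univ ≤ ENNReal.ofReal M₀ := by
    rw [hν', Measure.map_apply (an_cont_Lam _ _ _).measurable MeasurableSet.univ, preimage_univ]
    exact hmass
  have hcube : ∀ κ, ν' (cubeS ((K : ℝ) ^ 2) κ) ≤ ENNReal.ofReal ((c₂ * m * R ^ ((n : ℝ) + 1)) * (c₃ * (K : ℝ) ^ (2 * ((n : ℝ) + 1)) * (R * χ))) := by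
    intro κ
    rw [hν', hc₃]
    exact an_bt_cube n Cu CD hCD c₂ hc₂0 ν (-v) hu R K m χ hR1 hK1 hm hχ hdens κ
  have hρ2 : (2:ℝ) ≤ (K : ℝ) ^ 2 := by nlinarith
  have hterm := fun h => hCT σ' Cind C' ι (A.child R v) sk c ν' (c₂ * m * R ^ ((n : ℝ) + 1)) (c₃ * (K : ℝ) ^ (2 * ((n : ℝ) + 1)) * (R * χ)) M₀ ((K : ℝ) ^ 2) h
    hCind hC' hin htc' hweak (by positivity) (by positivity) hM₀ hρ2 hgrow' hmass' hcube
  have hc2d := hA₂ ((K : ℝ) ^ 2) ((A.child R v).fld sk c) ν' _ (by positivity) hterm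
  have hFV : ∀ y, ‖A.fld sk c y‖ = R⁻¹ ^ ((n : ℝ) / 2) * ‖(A.child R v).fld sk c (BD.Lam (-v) R⁻¹ (R⁻¹ ^ 2) y)‖ := by
    intro y
    rw [an_fld_child A hL0 R hR0 v sk c y, norm_mul, norm_mul, an_norm_car, mul_one, Complex.norm_real, Real.norm_eq_abs, abs_of_pos (by positivity),
      Real.inv_rpow hR0.le, ← Real.rpow_neg hR0.le]
    congr 2
    ring
  have hresc := an_phi_resc hb0 hb1 Ew 2 (-v) R⁻¹ (((K : ℝ)⁻¹) ^ 2) (((K : ℝ)⁻¹) ^ 2) (by positivity) (by positivity) (by positivity) (A.fld sk c) ((A.child R v).fld sk c) hFV ν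
  rw [← hν'] at hresc
  have e3 : ((K : ℝ)⁻¹) ^ 2 = 1 / (K : ℝ) ^ 2 := by rw [inv_pow, one_div]
  rw [e3] at hresc ⊢
  refine hresc.trans ((mul_le_mul_right hc2d _).trans ?_)
  have hen : 0 ≤ energy sk c := by
    unfold energy
    positivity
  have hLc : (A.child R v).L = A.L / R := rfl
  rw [hLc, hδe]
  obtain ⟨x₁, hx₁⟩ : ∃ x, x = R ^ (2 - ((n : ℝ) + 2) * bb) := ⟨_, rfl⟩
  obtain ⟨x₂, hx₂⟩ : ∃ x, x = (C' * Cind) ^ (2 / p) := ⟨_, rfl⟩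
  obtain ⟨x₃, hx₃⟩ : ∃ x, x = (m * R ^ ((n : ℝ) + 1)) ^ (bb - 1 + 2 / p) := ⟨_, rfl⟩
  obtain ⟨x₄, hx₄⟩ : ∃ x, x = (A.L / R) ^ (4 * (n : ℝ) / p - 2 * eex n) := ⟨_, rfl⟩
  obtain ⟨x₅, hx₅⟩ : ∃ x, x = (R * χ) ^ δ := ⟨_, rfl⟩
  obtain ⟨x₆, hx₆⟩ : ∃ x, x = M₀ ^ (1 - 2 / p) := ⟨_, rfl⟩
  have hx₁0 : 0 ≤ x₁ := by rw [hx₁]; positivity
  have hx₂0 : 0 ≤ x₂ := by rw [hx₂]; positivity
  have hx₃0 : 0 ≤ x₃ := by rw [hx₃]; positivity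
  have hx₄0 : 0 ≤ x₄ := by rw [hx₄]; positivity
  have hx₅0 : 0 ≤ x₅ := by rw [hx₅]; positivity
  have hx₆0 : 0 ≤ x₆ := by rw [hx₆]; positivity
  have f1 : R⁻¹ ^ (((n : ℝ) + 2) * bb - 2) = x₁ := by
    rw [hx₁, Real.inv_rpow hR0.le, ← Real.rpow_neg hR0.le]
    congr 1
    ring
  have f2 : (c₂ * m * R ^ ((n : ℝ) + 1)) ^ (bb - 1 + 2 / p) = c₂ ^ (bb - 1 + 2 / p) * x₃ := by
    rw [hx₃, mul_assoc, Real.mul_rpow hc₂0.le (by positivity)]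
  have f3 : (c₃ * (K : ℝ) ^ (2 * ((n : ℝ) + 1)) * (R * χ)) ^ δ = c₃ ^ δ * ((K : ℝ) ^ (2 * ((n : ℝ) + 1))) ^ δ * x₅ := by
    rw [hx₅, Real.mul_rpow (by positivity) (by positivity), Real.mul_rpow hc₃0.le (by positivity)]
  have f4 : anTB0 n p bb δ (C' * Cind) m χ R A.L = x₁ * x₂ * x₃ * x₄ * x₅ := by
    unfold anTB0
    rw [hx₁, hx₂, hx₃, hx₄, hx₅]
  rw [f1, f2, f3, f4, ← hx₂, ← hx₄, ← hx₆]
  have hKp := an_bt_Kpow n bb δ K hb0 hδ1 hK1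
  obtain ⟨k₁, hk₁⟩ : ∃ x, x = ((K : ℝ) ^ 2) ^ (((n : ℝ) + 1) * (1 - bb)) := ⟨_, rfl⟩
  obtain ⟨k₂, hk₂⟩ : ∃ x, x = ((K : ℝ) ^ 2) ^ n := ⟨_, rfl⟩
  obtain ⟨k₃, hk₃⟩ : ∃ x, x = ((K : ℝ) ^ (2 * ((n : ℝ) + 1))) ^ δ := ⟨_, rfl⟩
  obtain ⟨k₄, hk₄⟩ : ∃ x, x = (K : ℝ) ^ (6 * (n : ℝ) + 4) := ⟨_, rfl⟩
  have hk₁0 : 0 ≤ k₁ := by rw [hk₁]; positivity
  have hk₂0 : 0 ≤ k₂ := by rw [hk₂]; positivity
  have hk₃0 : 0 ≤ k₃ := by rw [hk₃]; positivity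
  rw [← hk₁, ← hk₂, ← hk₃, ← hk₄] at hKp
  rw [← hk₁, ← hk₂, ← hk₃, ← hk₄]
  obtain ⟨d₂, hd₂⟩ : ∃ x, x = c₂ ^ (bb - 1 + 2 / p) := ⟨_, rfl⟩
  obtain ⟨d₃, hd₃⟩ : ∃ x, x = c₃ ^ δ := ⟨_, rfl⟩
  have hd₂0 : 0 ≤ d₂ := by rw [hd₂]; positivity
  have hd₃0 : 0 ≤ d₃ := by rw [hd₃]; positivity
  rw [← hd₂, ← hd₃]
  have g1 : ENNReal.ofReal (A₂ * k₁) ≤ ENNReal.ofReal (|A₂| * k₁) :=
    ENNReal.ofReal_le_ofReal (mul_le_mul_of_nonneg_right (le_abs_self _) hk₁0)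
  have g2 : ENNReal.ofReal (CT * k₂ * x₂ * (d₂ * x₃) * x₄ * (d₃ * k₃ * x₅) * x₆ * energy sk c) ≤
      ENNReal.ofReal (|CT| * (k₂ * x₂ * (d₂ * x₃) * x₄ * (d₃ * k₃ * x₅) * x₆ * energy sk c)) := by
    refine ENNReal.ofReal_le_ofReal ?_
    have := mul_le_mul_of_nonneg_right (le_abs_self CT) (by positivity : 0 ≤ k₂ * x₂ * (d₂ * x₃) * x₄ * (d₃ * k₃ * x₅) * x₆ * energy sk c)
    calc CT * k₂ * x₂ * (d₂ * x₃) * x₄ * (d₃ * k₃ * x₅) * x₆ * energy sk c = CT * (k₂ * x₂ * (d₂ * x₃) * x₄ * (d₃ * k₃ * x₅) * x₆ * energy sk c) := by ring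
      _ ≤ _ := this
  refine (mul_le_mul_right (mul_le_mul' g1 g2) _).trans ?_
  rw [← ENNReal.ofReal_mul (by positivity), ← ENNReal.ofReal_mul hx₁0]
  refine ENNReal.ofReal_le_ofReal ?_
  calc x₁ * (|A₂| * k₁ * (|CT| * (k₂ * x₂ * (d₂ * x₃) * x₄ * (d₃ * k₃ * x₅) * x₆ * energy sk c)))
      = (|A₂| * |CT| * d₂ * d₃ * (x₁ * x₂ * x₃ * x₄ * x₅) * x₆ * energy sk c) * (k₁ * k₂ * k₃) := by ring
    _ ≤ (|A₂| * |CT| * d₂ * d₃ * (x₁ * x₂ * x₃ * x₄ * x₅) * x₆ * energy sk c) * k₄ := mul_le_mul_of_nonneg_left hKp (by positivity)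
    _ = |A₂| * |CT| * d₂ * d₃ * k₄ * (x₁ * x₂ * x₃ * x₄ * x₅) * x₆ * energy sk c := by ring

/-- **L-AN-M7** (200 l.) one bin, approximated field: `Gk = conj U + (Gk - conj U)`, `an_phi_add`, `an_phi_congr` (`‖conj U‖ = ‖U‖`), `an_bin_term`, `an_phi_err` (`d = (2+4Cu) R⁴`: `an_plank_last`), `ν univ ^ bb ≤ (ofReal M₀)^bb`. -/
theorem an_bin_bound (n : ℕ) (W : WCon) (hW : W.Sane n) (p a bb δ Ew Cu : ℝ) (hp : 2 < p) (ha : 0 ≤ a) (hb0 : 0 < bb) (hb1 : bb < 1) (hδ : 0 < δ) (hδ1 : δ ≤ 1) (h2a : 2 * a = 1 - bb + δ)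
    (hE : (n : ℝ) + 1 < Ew * (1 - bb)) (hCu : 0 ≤ Cu) :
    ∃ Ct Aerr : ℝ, 0 ≤ Ct ∧ 0 ≤ Aerr ∧ ∀ (σ' Cind C' : ℝ) (ι : Type) (A : Arr n ι) (s sk : Finset ι) (c : ι → ℂ) (ν : Measure (ST n)) [SFinite ν] (m χ M₀ εk ρ₀ : ℝ) (z₀ : ST n)
      (K J : ℕ) (k : Fin n → ℤ) (Gk : ST n → ℂ),
      0 ≤ Cind → 0 ≤ C' → 2 ≤ K → 1 ≤ J → ((K : ℝ) ^ J) ^ 2 ≤ A.L → A.In s W.K → sk ⊆ s → (∀ α ∈ s, A.tc α = 0) → (∀ α ∈ sk, fbin ((K : ℝ) ^ J) (A.om α) = k) →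
      ‖bcen ((K : ℝ) ^ J) k‖ ≤ Cu → WeakAt0 n W ⟨p, σ', a, Cind⟩ C' (A.L / (K : ℝ) ^ J) 1 → 0 < m → 0 < χ → 0 ≤ M₀ → Grow ν m n →
      (∀ z, ν (closedBall z 1) ≤ ENNReal.ofReal (m * χ)) → ν univ ≤ ENNReal.ofReal M₀ → 0 ≤ ρ₀ → ν {z | ρ₀ < ‖z - z₀‖} = 0 → Continuous Gk →
      (∀ z, ‖(starRingEnd ℂ) (A.fld sk c z) - Gk z‖ ≤ εk) →
      anPhi bb Ew 2 (-bcen ((K : ℝ) ^ J) k) (lvA K J) (lvB K J) Gk ν ≤
        ENNReal.ofReal (Ct * (K : ℝ) ^ (6 * (n : ℝ) + 4) * anTB0 n p bb δ (C' * Cind) m χ ((K : ℝ) ^ J) A.L * M₀ ^ (1 - 2 / p) * energy sk c)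
        + ENNReal.ofReal (Aerr * εk ^ 2 * (ρ₀ + (2 + 4 * Cu) * ((K : ℝ) ^ J) ^ 4) ^ (((n : ℝ) + 1) * (1 - bb))) * ENNReal.ofReal M₀ ^ bb := by
  have hEw : (n : ℝ) + 1 < Ew := by
    have hn : (0:ℝ) ≤ n := Nat.cast_nonneg n
    have h1 : 0 < 1 - bb := by linarith
    have hEw0 : 0 < Ew := by
      by_contra hc
      push Not at hc
      nlinarith
    nlinarith
  obtain ⟨Ct, hCt0, hCt⟩ := an_bin_term n W hW p a bb δ Ew Cu hp ha hb0 hb1 hδ hδ1 h2a hE hCu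
  obtain ⟨Ae, hAe⟩ := an_phi_err n bb Ew 2 hb0 hb1 hEw (by norm_num)
  refine ⟨2 * Ct, 2 * |Ae|, by positivity, by positivity, ?_⟩
  intro σ' Cind C' ι A s sk c ν _ m χ M₀ εk ρ₀ z₀ K J k Gk hCind hC' hK hJ hRL hA hsk htc hbin hv hweak hm hχ hM₀ hgrow hdens hmass hρ₀ hsupp hGc herr
  have hK1 : (1:ℝ) ≤ K := by exact_mod_cast (by omega : 1 ≤ K)
  have hK0 : (0:ℝ) < K := by linarith
  have hUc : Continuous (A.fld sk c) := an_fld_cont A sk W.K (an_In_mono hA hsk) c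
  have hFc : Continuous fun z => (starRingEnd ℂ) (A.fld sk c z) := Complex.continuous_conj.comp hUc
  have hGc' : Continuous fun z => Gk z - (starRingEnd ℂ) (A.fld sk c z) := hGc.sub hFc
  have e0 : Gk = fun z => (starRingEnd ℂ) (A.fld sk c z) + (Gk z - (starRingEnd ℂ) (A.fld sk c z)) := by
    funext z
    ring
  have hadd := an_phi_add hb0 hb1 Ew 2 (-bcen ((K : ℝ) ^ J) k) (lvA K J) (lvB K J) _ _ hFc hGc' ν
  rw [← e0] at hadd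
  have h1 : anPhi bb Ew 2 (-bcen ((K : ℝ) ^ J) k) (lvA K J) (lvB K J) (fun z => (starRingEnd ℂ) (A.fld sk c z)) ν
      = anPhi bb Ew 2 (-bcen ((K : ℝ) ^ J) k) (lvA K J) (lvB K J) (A.fld sk c) ν :=
    an_phi_congr _ _ _ _ _ _ _ _ (fun z => RCLike.norm_conj _) ν
  have h2 := hCt σ' Cind C' ι A s sk c ν m χ M₀ K J k hCind hC' hK hJ hRL hA hsk htc hbin hv hweak hm hχ hM₀ hgrow hdens hmass
  have hu : ‖-bcen ((K : ℝ) ^ J) k‖ ≤ Cu := by rw [norm_neg]; exact hv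
  have hlvA : 0 < lvA K J := by unfold lvA; positivity
  have hlvB : 0 < lvB K J := by unfold lvB; positivity
  have h3 := hAe (-bcen ((K : ℝ) ^ J) k) (lvA K J) (lvB K J) (fun z => Gk z - (starRingEnd ℂ) (A.fld sk c z)) ν εk ρ₀ ((2 + 4 * Cu) * ((K : ℝ) ^ J) ^ 4) z₀ hlvA hlvB hρ₀ (by positivity)
    (fun z => by rw [norm_sub_rev]; exact herr z) hsupp (fun y hy => an_plank_last Cu hCu K J (by omega) hJ _ hu y hy)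
  rw [h1] at hadd
  refine hadd.trans (add_le_add ?_ ?_)
  · refine (mul_le_mul_right h2 _).trans (le_of_eq ?_)
    rw [show (2 : ℝ≥0∞) = ENNReal.ofReal 2 by norm_num, ← ENNReal.ofReal_mul (by norm_num)]
    congr 1
    ring
  · refine (mul_le_mul_right h3 _).trans ?_
    rw [← mul_assoc]
    refine mul_le_mul' ?_ (ENNReal.rpow_le_rpow hmass hb0.le)
    rw [show (2 : ℝ≥0∞) = ENNReal.ofReal 2 by norm_num, ← ENNReal.ofReal_mul (by norm_num)]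
    refine ENNReal.ofReal_le_ofReal ?_
    have h5 : 0 ≤ εk ^ 2 * (ρ₀ + (2 + 4 * Cu) * ((K : ℝ) ^ J) ^ 4) ^ (((n : ℝ) + 1) * (1 - bb)) := by positivity
    have := mul_le_mul_of_nonneg_right (le_abs_self Ae) h5
    nlinarith

/-- **L-AN-M8** (80 l.) the bin energies are disjoint parts of the energy. -/
theorem an_energy_bins (A : Arr n ι) (s s' : Finset ι) (hs : s' ⊆ s) (c : ι → ℂ) (R : ℝ) (𝔅 : Finset (Fin n → ℤ)) :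
    ∑ k ∈ 𝔅, energy (selS A s' R {k}) c ≤ energy s c := by
  classical
  unfold energy selS
  calc ∑ k ∈ 𝔅, ∑ α ∈ s'.filter (fun α => fbin R (A.om α) ∈ ({k} : Finset (Fin n → ℤ))), ‖c α‖ ^ 2
      = ∑ k ∈ 𝔅, ∑ α ∈ s', if fbin R (A.om α) = k then ‖c α‖ ^ 2 else 0 := by
        refine Finset.sum_congr rfl fun k _ => ?_
        rw [Finset.sum_filter]
        simp only [Finset.mem_singleton]
    _ = ∑ α ∈ s', ∑ k ∈ 𝔅, if fbin R (A.om α) = k then ‖c α‖ ^ 2 else 0 := Finset.sum_comm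
    _ ≤ ∑ α ∈ s', ‖c α‖ ^ 2 := by
        refine Finset.sum_le_sum fun α _ => ?_
        rw [Finset.sum_ite_eq]
        split_ifs
        · exact le_rfl
        · positivity
    _ ≤ ∑ α ∈ s, ‖c α‖ ^ 2 := Finset.sum_le_sum_of_subset_of_nonneg hs fun α _ _ => by positivity

/-- **L-AN-M9** (100 l.) the number of bins with bounded centre: `|k i + 1/2| ≤ C R`. -/
theorem an_bins_card (C R : ℝ) (hC : 0 ≤ C) (hR : 1 ≤ R) (𝔅 : Finset (Fin n → ℤ)) (h : ∀ k ∈ 𝔅, ‖bcen R k‖ ≤ C) : (𝔅.card : ℝ) ≤ (2 * C + 2) ^ n * R ^ n := by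
  have hR0 : 0 < R := by linarith
  set a : ℤ := ⌈-(C * R) - 1 / 2⌉ with ha
  set b : ℤ := ⌊C * R - 1 / 2⌋ with hb
  have hsub : 𝔅 ⊆ Fintype.piFinset fun _ : Fin n => Finset.Icc a b := by
    intro k hk
    rw [Fintype.mem_piFinset]
    intro i
    have h1 : |((k i : ℝ) + 1 / 2) / R| ≤ C := by
      have := PiLp.norm_apply_le (bcen R k) i
      rw [Real.norm_eq_abs] at this
      exact this.trans (h k hk)
    rw [abs_div, abs_of_pos hR0, div_le_iff₀ hR0, abs_le] at h1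
    rw [Finset.mem_Icc, ha, hb, Int.ceil_le, Int.le_floor]
    constructor <;> linarith [h1.1, h1.2]
  have hcard : ((Finset.Icc a b).card : ℝ) ≤ (2 * C + 2) * R := by
    rw [Int.card_Icc]
    have h1 : ((b + 1 - a).toNat : ℝ) = ((max (b + 1 - a) 0 : ℤ) : ℝ) := by
      rw [← Int.toNat_eq_max]
      norm_cast
    rw [h1]
    push_cast
    rw [max_le_iff]
    constructor
    · have hb' : (b : ℝ) ≤ C * R - 1 / 2 := Int.floor_le _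
      have ha' : -(C * R) - 1 / 2 ≤ (a : ℝ) := Int.le_ceil _
      nlinarith
    · positivity
  calc (𝔅.card : ℝ) ≤ ((Fintype.piFinset fun _ : Fin n => Finset.Icc a b).card : ℝ) := by
        exact_mod_cast Finset.card_le_card hsub
    _ = ((Finset.Icc a b).card : ℝ) ^ n := by
        rw [Fintype.card_piFinset]
        simp
    _ ≤ ((2 * C + 2) * R) ^ n := pow_le_pow_left₀ (Nat.cast_nonneg _) hcard n
    _ = (2 * C + 2) ^ n * R ^ n := mul_pow _ _ _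

/-- **L-AN-M10** (120 l.) back to real numbers (`ENNReal.ofReal_mul`, `ofReal_pow`, `ofReal_rpow_of_nonneg`, `ofReal_natCast`, `ofReal_sum_of_nonneg`, `ofReal_add`, `ofReal_le_ofReal_iff`). -/
theorem an_conv (t2 xr e2 A1 mc bb d : ℝ) (Nm K nn J2 : ℕ) {κ : Type} (𝔅 : Finset κ) (T Er : κ → ℝ) (ht2 : 0 ≤ t2) (hx : 0 ≤ xr) (he2 : 0 ≤ e2) (hA1 : 0 ≤ A1) (hmc : 0 ≤ mc)
    (hb0 : 0 < bb) (hb1 : bb < 1) (hd : 0 ≤ d) (hT : ∀ k, 0 ≤ T k) (hEr : ∀ k, 0 ≤ Er k)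
    (h : ENNReal.ofReal t2 * ENNReal.ofReal xr ≤ 2 * (ENNReal.ofReal A1 * (Nm : ℝ≥0∞) * ENNReal.ofReal mc ^ (1 - bb) * ENNReal.ofReal d ^ J2 * ((K : ℝ≥0∞) ^ nn) ^ 4 *
        ∑ k ∈ 𝔅, (ENNReal.ofReal (T k) + ENNReal.ofReal (Er k) * ENNReal.ofReal xr ^ bb)) + ENNReal.ofReal e2 * ENNReal.ofReal xr) :
    t2 * xr ≤ 2 * (A1 * (Nm : ℝ) * mc ^ (1 - bb) * d ^ J2 * ((K : ℝ) ^ nn) ^ 4 * ∑ k ∈ 𝔅, (T k + Er k * xr ^ bb)) + e2 * xr := by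
  have hxb : 0 ≤ xr ^ bb := Real.rpow_nonneg hx _
  have hmb : 0 ≤ mc ^ (1 - bb) := Real.rpow_nonneg hmc _
  have s1 : ∀ k, ENNReal.ofReal (T k) + ENNReal.ofReal (Er k) * ENNReal.ofReal xr ^ bb = ENNReal.ofReal (T k + Er k * xr ^ bb) := by
    intro k
    rw [ENNReal.ofReal_rpow_of_nonneg hx hb0.le, ← ENNReal.ofReal_mul (hEr k), ← ENNReal.ofReal_add (hT k) (mul_nonneg (hEr k) hxb)]
  have hsum0 : 0 ≤ ∑ k ∈ 𝔅, (T k + Er k * xr ^ bb) := Finset.sum_nonneg fun k _ => add_nonneg (hT k) (mul_nonneg (hEr k) hxb)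
  have s2 : ∑ k ∈ 𝔅, (ENNReal.ofReal (T k) + ENNReal.ofReal (Er k) * ENNReal.ofReal xr ^ bb) = ENNReal.ofReal (∑ k ∈ 𝔅, (T k + Er k * xr ^ bb)) := by
    rw [ENNReal.ofReal_sum_of_nonneg fun k _ => add_nonneg (hT k) (mul_nonneg (hEr k) hxb)]
    exact Finset.sum_congr rfl fun k _ => s1 k
  have s3 : (Nm : ℝ≥0∞) = ENNReal.ofReal (Nm : ℝ) := (ENNReal.ofReal_natCast Nm).symm
  have s4 : ((K : ℝ≥0∞) ^ nn) ^ 4 = ENNReal.ofReal (((K : ℝ) ^ nn) ^ 4) := by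
    rw [ENNReal.ofReal_pow (by positivity), ENNReal.ofReal_pow (by positivity), ENNReal.ofReal_natCast]
  have s5 : (2 : ℝ≥0∞) = ENNReal.ofReal 2 := by norm_num
  have l1 : ENNReal.ofReal t2 * ENNReal.ofReal xr = ENNReal.ofReal (t2 * xr) := (ENNReal.ofReal_mul ht2).symm
  have r2 : ENNReal.ofReal e2 * ENNReal.ofReal xr = ENNReal.ofReal (e2 * xr) := (ENNReal.ofReal_mul he2).symm
  have r1 : ENNReal.ofReal 2 * (ENNReal.ofReal A1 * ENNReal.ofReal (Nm : ℝ) * ENNReal.ofReal (mc ^ (1 - bb)) * ENNReal.ofReal (d ^ J2) * ENNReal.ofReal (((K : ℝ) ^ nn) ^ 4) *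
      ENNReal.ofReal (∑ k ∈ 𝔅, (T k + Er k * xr ^ bb))) =
      ENNReal.ofReal (2 * (A1 * (Nm : ℝ) * mc ^ (1 - bb) * d ^ J2 * ((K : ℝ) ^ nn) ^ 4 * ∑ k ∈ 𝔅, (T k + Er k * xr ^ bb))) := by
    rw [ENNReal.ofReal_mul (by norm_num : (0 : ℝ) ≤ 2), ENNReal.ofReal_mul (by positivity), ENNReal.ofReal_mul (by positivity),
      ENNReal.ofReal_mul (by positivity), ENNReal.ofReal_mul (by positivity), ENNReal.ofReal_mul hA1]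
  rw [s2, s3, s4, s5, ENNReal.ofReal_rpow_of_nonneg hmc (by linarith), ← ENNReal.ofReal_pow hd, l1, r2, r1,
    ← ENNReal.ofReal_add (by positivity) (by positivity), ENNReal.ofReal_le_ofReal_iff (by positivity)] at h
  exact h

/-- **L-AN-M11** (150 l.) the engine constant, form for the main term.  `min N' card ≤ N' = Ncov ⌈Ccl(1+log R)⌉₊ ≤ Ncov (Ccl+1)(1+log R)`;  `(D₁ K^η)^{2J} = D₁^{2J} (K^J)^{2η}`;  `((K)^n)^4 = K^{4n}` (rpow). -/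
theorem an_K1 (n J : ℕ) (Ae Ccl D₁ η : ℝ) (hAe : 0 ≤ Ae) (hCcl : 0 ≤ Ccl) (hD₁ : 1 ≤ D₁) (hη : 0 < η) :
    ∃ C : ℝ, 0 ≤ C ∧ ∀ (K Ncov card : ℕ), 1 ≤ K →
      Ae ^ (J + 1) * ((min (Ncov * ⌈Ccl * (1 + Real.log ((K : ℝ) ^ J))⌉₊) card : ℕ) : ℝ) * (D₁ * (K : ℝ) ^ η) ^ (2 * J) * ((K : ℝ) ^ n) ^ 4 ≤
        C * ((Ncov : ℝ) * (1 + Real.log ((K : ℝ) ^ J))) * ((K : ℝ) ^ J) ^ (2 * η) * (K : ℝ) ^ (4 * (n : ℝ)) := by
  refine ⟨Ae ^ (J + 1) * (Ccl + 1) * D₁ ^ (2 * J), by positivity, ?_⟩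
  intro K Ncov card hK
  have hK1 : (1:ℝ) ≤ K := by exact_mod_cast hK
  have hK0 : (0:ℝ) < K := by linarith
  have hR1 : (1:ℝ) ≤ (K : ℝ) ^ J := one_le_pow₀ hK1
  have hlg : 0 ≤ Real.log ((K : ℝ) ^ J) := Real.log_nonneg hR1
  obtain ⟨lg, hlgdef⟩ : ∃ lg, lg = 1 + Real.log ((K : ℝ) ^ J) := ⟨_, rfl⟩
  rw [← hlgdef]
  have hlg1 : 1 ≤ lg := by rw [hlgdef]; linarith
  have h1 : ((min (Ncov * ⌈Ccl * lg⌉₊) card : ℕ) : ℝ) ≤ (Ncov : ℝ) * ((Ccl + 1) * lg) := by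
    calc ((min (Ncov * ⌈Ccl * lg⌉₊) card : ℕ) : ℝ) ≤ ((Ncov * ⌈Ccl * lg⌉₊ : ℕ) : ℝ) := by
          exact_mod_cast min_le_left _ _
      _ = (Ncov : ℝ) * (⌈Ccl * lg⌉₊ : ℝ) := by push_cast; ring
      _ ≤ (Ncov : ℝ) * ((Ccl + 1) * lg) := by
          refine mul_le_mul_of_nonneg_left ?_ (by positivity)
          have := (Nat.ceil_lt_add_one (by positivity : 0 ≤ Ccl * lg)).le
          nlinarith
  have h2 : ((K : ℝ) ^ η) ^ (2 * J) = ((K : ℝ) ^ J) ^ (2 * η) := by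
    rw [← Real.rpow_natCast ((K : ℝ) ^ η), ← Real.rpow_mul hK0.le, ← Real.rpow_natCast (K : ℝ) J, ← Real.rpow_mul hK0.le]
    congr 1
    push_cast
    ring
  have h3 : ((K : ℝ) ^ n) ^ 4 = (K : ℝ) ^ (4 * (n : ℝ)) := by
    rw [← pow_mul, ← Real.rpow_natCast]
    congr 1
    push_cast
    ring
  rw [mul_pow, h2, h3]
  have h4 : 0 ≤ ((K : ℝ) ^ J) ^ (2 * η) := by positivity
  have h5 : 0 ≤ (K : ℝ) ^ (4 * (n : ℝ)) := by positivity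
  calc Ae ^ (J + 1) * ((min (Ncov * ⌈Ccl * lg⌉₊) card : ℕ) : ℝ) * (D₁ ^ (2 * J) * ((K : ℝ) ^ J) ^ (2 * η)) * (K : ℝ) ^ (4 * (n : ℝ))
      ≤ Ae ^ (J + 1) * ((Ncov : ℝ) * ((Ccl + 1) * lg)) * (D₁ ^ (2 * J) * ((K : ℝ) ^ J) ^ (2 * η)) * (K : ℝ) ^ (4 * (n : ℝ)) := by
        refine mul_le_mul_of_nonneg_right (mul_le_mul_of_nonneg_right (mul_le_mul_of_nonneg_left h1 (by positivity)) (by positivity)) h5
    _ = Ae ^ (J + 1) * (Ccl + 1) * D₁ ^ (2 * J) * ((Ncov : ℝ) * lg) * ((K : ℝ) ^ J) ^ (2 * η) * (K : ℝ) ^ (4 * (n : ℝ)) := by ring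

/-- **L-AN-M12** (150 l.) the engine constant, form for the error term.  `min N' card ≤ card ≤ Cc R^n ≤ Cc L^{n/2}`;  `(K^J)^{2η} ≤ L^η ≤ L`;  `K^{4n} ≤ R^{4n} ≤ L^{2n}`  (`J ≥ 1`, `R² ≤ L`, `η ≤ 1`). -/
theorem an_K2 (n J : ℕ) (hJ : 1 ≤ J) (Ae Cc D₁ η : ℝ) (hAe : 0 ≤ Ae) (hCc : 0 ≤ Cc) (hD₁ : 1 ≤ D₁) (hη : 0 < η) (hη1 : η ≤ 1) :
    ∃ C : ℝ, 0 ≤ C ∧ ∀ (K N' card : ℕ) (L : ℝ), 1 ≤ K → ((K : ℝ) ^ J) ^ 2 ≤ L → (card : ℝ) ≤ Cc * ((K : ℝ) ^ J) ^ n →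
      Ae ^ (J + 1) * ((min N' card : ℕ) : ℝ) * (D₁ * (K : ℝ) ^ η) ^ (2 * J) * ((K : ℝ) ^ n) ^ 4 ≤ C * L ^ (3 * (n : ℝ) + 1) := by
  refine ⟨Ae ^ (J + 1) * Cc * D₁ ^ (2 * J), by positivity, ?_⟩
  intro K N' card L hK hL hcard
  have hK1 : (1:ℝ) ≤ K := by exact_mod_cast hK
  have hK0 : (0:ℝ) < K := by linarith
  have hR1 : (1:ℝ) ≤ (K : ℝ) ^ J := one_le_pow₀ hK1
  have hRL : (K : ℝ) ^ J ≤ L := by nlinarith
  have hL1 : 1 ≤ L := hR1.trans hRL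
  have hL0 : 0 < L := by linarith
  have h1 : ((min N' card : ℕ) : ℝ) ≤ Cc * L ^ n := by
    calc ((min N' card : ℕ) : ℝ) ≤ (card : ℝ) := by exact_mod_cast min_le_right _ _
      _ ≤ Cc * ((K : ℝ) ^ J) ^ n := hcard
      _ ≤ Cc * L ^ n := mul_le_mul_of_nonneg_left (pow_le_pow_left₀ (by positivity) hRL n) hCc
  have h2 : ((K : ℝ) ^ η) ^ (2 * J) ≤ L := by
    have : (K : ℝ) ^ η ≤ K := by
      calc (K : ℝ) ^ η ≤ (K : ℝ) ^ (1:ℝ) := Real.rpow_le_rpow_of_exponent_le hK1 hη1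
        _ = K := Real.rpow_one _
    calc ((K : ℝ) ^ η) ^ (2 * J) ≤ (K : ℝ) ^ (2 * J) := pow_le_pow_left₀ (by positivity) this _
      _ = ((K : ℝ) ^ J) ^ 2 := by rw [← pow_mul, mul_comm]
      _ ≤ L := hL
  have h3 : ((K : ℝ) ^ n) ^ 4 ≤ L ^ (2 * n) := by
    have hKR : (K : ℝ) ≤ (K : ℝ) ^ J := by
      calc (K : ℝ) = (K : ℝ) ^ 1 := (pow_one _).symm
        _ ≤ (K : ℝ) ^ J := pow_le_pow_right₀ hK1 hJ
    calc ((K : ℝ) ^ n) ^ 4 = ((K : ℝ) ^ 2) ^ (2 * n) := by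
          rw [← pow_mul, ← pow_mul]
          congr 1
          ring
      _ ≤ (((K : ℝ) ^ J) ^ 2) ^ (2 * n) := pow_le_pow_left₀ (by positivity) (pow_le_pow_left₀ hK0.le hKR 2) _
      _ ≤ L ^ (2 * n) := pow_le_pow_left₀ (by positivity) hL _
  have h4 : L ^ (3 * (n : ℝ) + 1) = L ^ n * L * L ^ (2 * n) := by
    rw [← pow_succ, ← pow_add, ← Real.rpow_natCast]
    congr 1
    push_cast
    ring
  rw [mul_pow, h4]
  calc Ae ^ (J + 1) * ((min N' card : ℕ) : ℝ) * (D₁ ^ (2 * J) * ((K : ℝ) ^ η) ^ (2 * J)) * ((K : ℝ) ^ n) ^ 4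
      ≤ Ae ^ (J + 1) * (Cc * L ^ n) * (D₁ ^ (2 * J) * L) * L ^ (2 * n) := by
        refine mul_le_mul (mul_le_mul (mul_le_mul_of_nonneg_left h1 (by positivity)) (mul_le_mul_of_nonneg_left h2 (by positivity)) (by positivity) (by positivity)) h3 (by positivity) (by positivity)
    _ = Ae ^ (J + 1) * Cc * D₁ ^ (2 * J) * (L ^ n * L * L ^ (2 * n)) := by ring

theorem SDec.mono {P C ρ : ℝ} {D D' : ℝ≥0∞} (h : SDec n P C ρ D) (hD : D ≤ D') : SDec n P C ρ D' :=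
  fun ι s v H hR hs => (h ι s v H hR hs).trans (mul_le_mul_left hD _)

/-- collection of the constants (real arithmetic) -/
theorem an_coll {κ : Type} (n N₁ : ℕ) (bb : ℝ) (𝔅 : Finset κ) (ε en : κ → ℝ)
    (t2 x xp xb Kc mcb mb L Λ Kr TB0 En Cε CK1 CK2 Ct Aerr Cρ ρ₁ : ℝ)
    (hb0 : 0 < bb) (hb1 : bb < 1) (hL1 : 1 ≤ L) (hK0 : 0 < Kr) (hx0 : 0 ≤ x) (hxp0 : 0 ≤ xp) (hxb0 : 0 ≤ xb) (hKc0 : 0 ≤ Kc) (hmcb0 : 0 ≤ mcb) (hmc : mcb ≤ mb)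
    (hΛ : 0 ≤ Λ) (hTB0 : 0 ≤ TB0) (hEn0 : 0 ≤ En) (hEn1 : En ≤ 1) (hCε : 0 ≤ Cε) (hCK1 : 0 ≤ CK1) (hCK2 : 0 ≤ CK2) (hCt : 0 ≤ Ct) (hAerr : 0 ≤ Aerr)
    (hCρ0 : 0 ≤ Cρ) (hρ₁0 : 0 ≤ ρ₁) (hε : ∀ k, 0 ≤ ε k) (hen : ∀ k, 0 ≤ en k)
    (hk1 : Kc ≤ CK1 * Λ * Kr ^ (4 * (n : ℝ))) (hk2 : Kc ≤ CK2 * L ^ (3 * (n : ℝ) + 1))
    (hsumen : ∑ k ∈ 𝔅, en k ≤ En) (hεsum : ∑ k ∈ 𝔅, ε k ≤ Cε * Real.sqrt En * L ^ ((n : ℝ) / 2 - N₁ / 4)) (hρ₁ : ρ₁ ≤ Cρ * L ^ 2)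
    (hreal : t2 * x ≤ 2 * (mcb * (Kc * ∑ k ∈ 𝔅, (Ct * Kr ^ (6 * (n : ℝ) + 4) * TB0 * xp * en k + Aerr * ε k ^ 2 * ρ₁ ^ (((n : ℝ) + 1) * (1 - bb)) * xb)))
      + 2 * (∑ k ∈ 𝔅, ε k) ^ 2 * x) :
    t2 * x ≤ (2 * Cε ^ 2 + 2 * CK1 * Ct + 2 * CK2 * Aerr * Cε ^ 2 * Cρ ^ (((n : ℝ) + 1) * (1 - bb))) * L ^ ((n : ℝ) - N₁ / 2) * x
      + (2 * Cε ^ 2 + 2 * CK1 * Ct + 2 * CK2 * Aerr * Cε ^ 2 * Cρ ^ (((n : ℝ) + 1) * (1 - bb))) * Λ * Kr ^ (10 * (n : ℝ) + 4) * (mcb * TB0) * En * xp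
      + (2 * Cε ^ 2 + 2 * CK1 * Ct + 2 * CK2 * Aerr * Cε ^ 2 * Cρ ^ (((n : ℝ) + 1) * (1 - bb))) * L ^ (6 * (n : ℝ) + 3 - N₁ / 2) * mb * xb := by
  have hL0 : 0 < L := by linarith
  have hb1' : 0 < 1 - bb := by linarith
  have hn0 : (0 : ℝ) ≤ (n : ℝ) := Nat.cast_nonneg _
  set ee : ℝ := ((n : ℝ) + 1) * (1 - bb) with hee
  have hee0 : 0 ≤ ee := by positivity
  have hee1 : ee ≤ (n : ℝ) + 1 := by rw [hee]; nlinarith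
  have hK6 : 0 ≤ Kr ^ (6 * (n : ℝ) + 4) := Real.rpow_nonneg hK0.le _
  have hsumT : ∑ k ∈ 𝔅, Ct * Kr ^ (6 * (n : ℝ) + 4) * TB0 * xp * en k ≤ Ct * Kr ^ (6 * (n : ℝ) + 4) * TB0 * xp * En := by
    rw [← Finset.mul_sum]
    exact mul_le_mul_of_nonneg_left hsumen (by positivity)
  have hεs0 : 0 ≤ ∑ k ∈ 𝔅, ε k := Finset.sum_nonneg fun k _ => hε k
  have hLa0 : 0 ≤ L ^ ((n : ℝ) / 2 - N₁ / 4) := Real.rpow_nonneg hL0.le _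
  have hεsq : (∑ k ∈ 𝔅, ε k) ^ 2 ≤ Cε ^ 2 * L ^ ((n : ℝ) - N₁ / 2) := by
    have hs1 : Real.sqrt En ≤ 1 := by
      rw [← Real.sqrt_one]
      exact Real.sqrt_le_sqrt hEn1
    have h1 : ∑ k ∈ 𝔅, ε k ≤ Cε * L ^ ((n : ℝ) / 2 - N₁ / 4) := by
      refine hεsum.trans ?_
      refine mul_le_mul_of_nonneg_right ?_ hLa0
      calc Cε * Real.sqrt En ≤ Cε * 1 := mul_le_mul_of_nonneg_left hs1 hCε
        _ = Cε := mul_one _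
    calc (∑ k ∈ 𝔅, ε k) ^ 2 ≤ (Cε * L ^ ((n : ℝ) / 2 - N₁ / 4)) ^ 2 := pow_le_pow_left₀ hεs0 h1 2
      _ = Cε ^ 2 * L ^ ((n : ℝ) - N₁ / 2) := by
          rw [mul_pow, ← Real.rpow_natCast (L ^ ((n : ℝ) / 2 - N₁ / 4)) 2, ← Real.rpow_mul hL0.le]
          congr 2
          push_cast
          ring
  have hsumε2 : ∑ k ∈ 𝔅, ε k ^ 2 ≤ (∑ k ∈ 𝔅, ε k) ^ 2 := Finset.sum_sq_le_sq_sum_of_nonneg fun k _ => hε k
  have hρe : ρ₁ ^ ee ≤ Cρ ^ ee * L ^ (2 * ((n : ℝ) + 1)) := by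
    calc ρ₁ ^ ee ≤ (Cρ * L ^ 2) ^ ee := Real.rpow_le_rpow hρ₁0 hρ₁ hee0
      _ = Cρ ^ ee * (L ^ 2) ^ ee := Real.mul_rpow hCρ0 (by positivity)
      _ = Cρ ^ ee * L ^ (2 * ee) := by
          rw [← Real.rpow_natCast L 2, ← Real.rpow_mul hL0.le]
          norm_num
      _ ≤ Cρ ^ ee * L ^ (2 * ((n : ℝ) + 1)) :=
          mul_le_mul_of_nonneg_left (Real.rpow_le_rpow_of_exponent_le hL1 (by linarith)) (Real.rpow_nonneg hCρ0 _)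
  have hLb0 : 0 ≤ L ^ ((n : ℝ) - N₁ / 2) := Real.rpow_nonneg hL0.le _
  have hρee0 : 0 ≤ ρ₁ ^ ee := Real.rpow_nonneg hρ₁0 _
  have hCρe0 : 0 ≤ Cρ ^ ee := Real.rpow_nonneg hCρ0 _
  have hsumE : ∑ k ∈ 𝔅, Aerr * ε k ^ 2 * ρ₁ ^ ee ≤ Aerr * (Cε ^ 2 * L ^ ((n : ℝ) - N₁ / 2)) * (Cρ ^ ee * L ^ (2 * ((n : ℝ) + 1))) := by
    rw [← Finset.sum_mul, ← Finset.mul_sum]
    refine mul_le_mul (mul_le_mul_of_nonneg_left (hsumε2.trans hεsq) hAerr) hρe hρee0 (by positivity)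
  have hsumE0 : 0 ≤ ∑ k ∈ 𝔅, Aerr * ε k ^ 2 * ρ₁ ^ ee := Finset.sum_nonneg fun k _ => by positivity
  have hsumT0 : 0 ≤ ∑ k ∈ 𝔅, Ct * Kr ^ (6 * (n : ℝ) + 4) * TB0 * xp * en k := Finset.sum_nonneg fun k _ => by
    have := hen k
    positivity
  have hmb0 : 0 ≤ mb := hmcb0.trans hmc
  have e0 : 2 * (mcb * (Kc * ∑ k ∈ 𝔅, (Ct * Kr ^ (6 * (n : ℝ) + 4) * TB0 * xp * en k + Aerr * ε k ^ 2 * ρ₁ ^ ee * xb))) =
      2 * (mcb * (Kc * ∑ k ∈ 𝔅, Ct * Kr ^ (6 * (n : ℝ) + 4) * TB0 * xp * en k)) + 2 * (mcb * (Kc * ∑ k ∈ 𝔅, Aerr * ε k ^ 2 * ρ₁ ^ ee)) * xb := by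
    rw [Finset.sum_add_distrib, ← Finset.sum_mul]
    ring
  have hmain : mcb * (Kc * ∑ k ∈ 𝔅, Ct * Kr ^ (6 * (n : ℝ) + 4) * TB0 * xp * en k) ≤ CK1 * Ct * Λ * Kr ^ (10 * (n : ℝ) + 4) * (mcb * TB0) * En * xp := by
    calc mcb * (Kc * ∑ k ∈ 𝔅, Ct * Kr ^ (6 * (n : ℝ) + 4) * TB0 * xp * en k) ≤ mcb * ((CK1 * Λ * Kr ^ (4 * (n : ℝ))) *
          (Ct * Kr ^ (6 * (n : ℝ) + 4) * TB0 * xp * En)) :=
          mul_le_mul_of_nonneg_left (mul_le_mul hk1 hsumT hsumT0 (hKc0.trans hk1)) hmcb0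
      _ = _ := by
          have e : Kr ^ (10 * (n : ℝ) + 4) = Kr ^ (4 * (n : ℝ)) * Kr ^ (6 * (n : ℝ) + 4) := by
            rw [← Real.rpow_add hK0]
            congr 1
            ring
          rw [e]
          generalize Kr ^ (4 * (n : ℝ)) = u
          generalize Kr ^ (6 * (n : ℝ) + 4) = v
          ring
  have herr : mcb * (Kc * ∑ k ∈ 𝔅, Aerr * ε k ^ 2 * ρ₁ ^ ee) ≤ CK2 * Aerr * Cε ^ 2 * Cρ ^ ee * L ^ (6 * (n : ℝ) + 3 - N₁ / 2) * mb := by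
    calc mcb * (Kc * ∑ k ∈ 𝔅, Aerr * ε k ^ 2 * ρ₁ ^ ee) ≤ mb * ((CK2 * L ^ (3 * (n : ℝ) + 1)) *
          (Aerr * (Cε ^ 2 * L ^ ((n : ℝ) - N₁ / 2)) * (Cρ ^ ee * L ^ (2 * ((n : ℝ) + 1))))) :=
          mul_le_mul hmc (mul_le_mul hk2 hsumE hsumE0 (hKc0.trans hk2)) (mul_nonneg hKc0 hsumE0) hmb0
      _ = _ := by
          have e : L ^ (6 * (n : ℝ) + 3 - N₁ / 2) = L ^ (3 * (n : ℝ) + 1) * L ^ ((n : ℝ) - N₁ / 2) * L ^ (2 * ((n : ℝ) + 1)) := by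
            rw [← Real.rpow_add hL0, ← Real.rpow_add hL0]
            congr 1
            ring
          rw [e]
          generalize L ^ (3 * (n : ℝ) + 1) = u
          generalize L ^ ((n : ℝ) - N₁ / 2) = v
          generalize L ^ (2 * ((n : ℝ) + 1)) = w
          generalize Cρ ^ ee = y
          ring
  rw [e0] at hreal
  set c1 := 2 * Cε ^ 2 with hc1
  set c2 := 2 * CK1 * Ct with hc2
  set c3 := 2 * CK2 * Aerr * Cε ^ 2 * Cρ ^ ee with hc3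
  have hc10 : 0 ≤ c1 := by positivity
  have hc20 : 0 ≤ c2 := by positivity
  have hc30 : 0 ≤ c3 := by positivity
  set X1 := L ^ ((n : ℝ) - N₁ / 2) * x with hX1
  set X2 := Λ * Kr ^ (10 * (n : ℝ) + 4) * (mcb * TB0) * En * xp with hX2
  set X3 := L ^ (6 * (n : ℝ) + 3 - N₁ / 2) * mb * xb with hX3
  have hX10 : 0 ≤ X1 := by positivity
  have hX20 : 0 ≤ X2 := by positivity
  have hX30 : 0 ≤ X3 := by positivity
  have f1 : 2 * (∑ k ∈ 𝔅, ε k) ^ 2 * x ≤ c1 * X1 := by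
    have := mul_le_mul_of_nonneg_right hεsq hx0
    rw [hc1, hX1]
    linarith
  have f2 : 2 * (mcb * (Kc * ∑ k ∈ 𝔅, Ct * Kr ^ (6 * (n : ℝ) + 4) * TB0 * xp * en k)) ≤ c2 * X2 := by
    rw [hc2, hX2]
    linarith
  have f3 : 2 * (mcb * (Kc * ∑ k ∈ 𝔅, Aerr * ε k ^ 2 * ρ₁ ^ ee)) * xb ≤ c3 * X3 := by
    have := mul_le_mul_of_nonneg_right herr hxb0
    rw [hc3, hX3]
    linarith
  have g1 : c1 * X1 ≤ (c1 + c2 + c3) * X1 := mul_le_mul_of_nonneg_right (by linarith) hX10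
  have g2 : c2 * X2 ≤ (c1 + c2 + c3) * X2 := mul_le_mul_of_nonneg_right (by linarith) hX20
  have g3 : c3 * X3 ≤ (c1 + c2 + c3) * X3 := mul_le_mul_of_nonneg_right (by linarith) hX30
  have fin : t2 * x ≤ (c1 + c2 + c3) * X1 + (c1 + c2 + c3) * X2 + (c1 + c2 + c3) * X3 := by linarith
  refine fin.trans (le_of_eq ?_)
  rw [hX1, hX2, hX3]
  ring


set_option maxHeartbeats 1000000 in
/-- **THE ANALYTIC CHAIN.** -/
theorem an_master (n : ℕ) (hn : 2 ≤ n) (bb δ : ℝ) (hb0 : 0 < bb) (hb1 : bb < 1) (hδ : 0 < δ) (hδ1 : δ ≤ 1)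
    (hBD : ∀ η : ℝ, 0 < η → BD.DecPow (E (n - 2)) (2 / (1 - bb)) η)
    (J : ℕ) (hJ : 1 ≤ J) (p a η : ℝ) (hp : 2 < p) (h2a : 2 * a = 1 - bb + δ) (hη : 0 < η) (hη1 : η ≤ 1) (G : ACon) (hG : G.Ok) (N₁ : ℕ)
    (W : WCon) (hW : W.Sane n) (hJd : N₁ + n + 2 ≤ W.K.J) :
    ∃ CM K₀ : ℝ, 0 ≤ CM ∧ MasterWith n W G J N₁ p a bb δ η CM K₀ := by
  classical
  have hb1' : 0 < 1 - bb := by linarith
  have hP2 : 2 ≤ 2 / (1 - bb) := by rw [le_div_iff₀ hb1']; nlinarith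
  set Ew := ((n : ℝ) + 2) / (1 - bb) + 1 with hEw
  have hn0 : (0 : ℝ) ≤ (n : ℝ) := Nat.cast_nonneg _
  have hE1 : (n : ℝ) + 2 ≤ ((n : ℝ) + 2) / (1 - bb) := by rw [le_div_iff₀ hb1']; nlinarith
  have hE2 : (n : ℝ) + 2 ≤ Ew := by rw [hEw]; linarith
  have hE3 : (n : ℝ) + 1 < Ew * (1 - bb) := by
    rw [hEw, add_mul, div_mul_cancel₀ _ hb1'.ne']; linarith
  have ha : 0 ≤ a := by linarith
  obtain ⟨C₁, Kg, Ccl, hC₁, hCcl, hcls⟩ := an_classes hn G.Cw G.Cq G.cq hG.Cw hG.Cq hG.cq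
  obtain ⟨Cp, Cε, hCp, hCε, happ⟩ := an_approx n N₁ W hW
  obtain ⟨Ae, Ke, heng⟩ := an_engine n bb Ew Cp C₁ hb0 hb1 hE2 hCp hC₁
  have hCr : 1 ≤ 7 * anCr n Cp C₁ := by
    have h1 : 0 ≤ Real.sqrt n := Real.sqrt_nonneg _
    have h2 : (0 : ℝ) ≤ 3 ^ n := by positivity
    unfold anCr; linarith
  obtain ⟨D₀, hD₀⟩ := an_sdec_pow hn (2 / (1 - bb)) hP2 hBD (7 * anCr n Cp C₁) hCr η hη
  obtain ⟨Ct, Aerr, hCt, hAerr, hbin⟩ := an_bin_bound n W hW p a bb δ Ew Cp hp ha hb0 hb1 hδ hδ1 h2a hE3 (by linarith)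
  set D₁ := max 1 D₀ with hD₁
  have hD₁1 : 1 ≤ D₁ := le_max_left _ _
  obtain ⟨CK1, hCK1, hK1⟩ := an_K1 n J |Ae| Ccl D₁ η (abs_nonneg _) hCcl hD₁1 hη
  obtain ⟨CK2, hCK2, hK2⟩ := an_K2 n J hJ |Ae| ((2 * Cp + 2) ^ n) D₁ η (abs_nonneg _) (by positivity) hD₁1 hη hη1
  set Cρ := W.Cb + W.T₀ + 3 + 4 * Cp with hCρ
  have hCρ0 : 0 ≤ Cρ := by have := hW.Cb; have := hW.T0; rw [hCρ]; linarith
  refine ⟨2 * Cε ^ 2 + 2 * CK1 * Ct + 2 * CK2 * Aerr * Cε ^ 2 * Cρ ^ (((n : ℝ) + 1) * (1 - bb)), max Kg (max Ke 2), by positivity, ?_⟩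
  intro σ Cind ι A s c μ m χ g K Ncov Sel hCind hK hm H
  obtain ⟨x₀, hx₀⟩ := H.box
  have hKg : Kg ≤ (K : ℝ) := (le_max_left _ _).trans hK
  have hKe : Ke ≤ (K : ℝ) := ((le_max_left _ _).trans (le_max_right _ _)).trans hK
  have hK2r : (2 : ℝ) ≤ (K : ℝ) := ((le_max_right _ _).trans (le_max_right _ _)).trans hK
  have hK2n : 2 ≤ K := by exact_mod_cast hK2r
  have hK1n : 1 ≤ K := by omega
  have hK0 : (0 : ℝ) < (K : ℝ) := by linarith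
  have hR1 : (1 : ℝ) ≤ (K : ℝ) ^ J := one_le_pow₀ (by linarith)
  have hRL := H.RL
  have hL1 : 1 ≤ A.L := by nlinarith
  have hL0 : 0 < A.L := by linarith
  obtain ⟨𝔅, s', Gf, ε, pack, hεsum⟩ := happ ι A s c x₀ K J hK1n H.RL H.inn hJd H.tc
  have hcl : ∀ κ, ∃ Scl : ℕ → Finset (Fin n → ℤ), (∀ i, Scl i ⊆ Sel κ ∩ 𝔅) ∧ (∀ i, Chain K J C₁ 4 (Scl i)) ∧ (∀ i i', i ≠ i' → Disjoint (Scl i) (Scl i')) ∧
      ∀ k ∈ Sel κ ∩ 𝔅, ∃ i < Ncov * ⌈Ccl * (1 + Real.log ((K : ℝ) ^ J))⌉₊, k ∈ Scl i := by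
    intro κ
    refine hcls K J Ncov hKg hJ (Sel κ ∩ 𝔅) ?_
    obtain ⟨P, hP1, hP2⟩ := H.cov κ
    exact ⟨P, hP1, fun k hk => hP2 k (Finset.mem_inter.1 hk).1⟩
  choose Scl hS1 hS2 hS3 hS4 using hcl
  obtain ⟨hbox, hsupp, hfin⟩ := an_box μ m W.Cb W.T₀ A.L x₀ hW.Cb hW.T0 hL1 hm.le H.grow H.slab hx₀
  have hlam0 : 0 < wlev n a χ g A.L := lt_of_lt_of_le (Real.rpow_pos_of_pos hL0 _) H.lam
  have ht : 0 ≤ G.c₀ * wlev n a χ g A.L := (mul_pos hG.c₀ hlam0).le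
  have hYfin : μ (anY G a A s c χ g ((K : ℝ) ^ J) Sel) ≠ ∞ :=
    ne_top_of_le_ne_top ENNReal.ofReal_ne_top ((measure_mono (subset_univ _)).trans hfin)
  refine ⟨hYfin, ?_⟩
  have hlhs := an_lhs pack W.K H.inn hK1n μ hbox Sel (G.c₀ * wlev n a χ g A.L) ht (Ncov * ⌈Ccl * (1 + Real.log ((K : ℝ) ^ J))⌉₊) Scl hS1 hS3 hS4
  change ENNReal.ofReal ((G.c₀ * wlev n a χ g A.L) ^ 2) * μ (anY G a A s c χ g ((K : ℝ) ^ J) Sel) ≤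
      2 * ∑' κ : (Fin n → ℤ) × ℤ, ∫⁻ z, ‖∑ i ∈ Finset.range (Ncov * ⌈Ccl * (1 + Real.log ((K : ℝ) ^ J))⌉₊), ∑ k ∈ Scl κ i, Gf k z‖ₑ ^ 2
          ∂((μ.restrict (anY G a A s c χ g ((K : ℝ) ^ J) Sel)).restrict (cubeS (((K : ℝ) ^ J) ^ 4) κ))
        + ENNReal.ofReal (2 * (∑ k ∈ 𝔅, ε k) ^ 2) * μ (anY G a A s c χ g ((K : ℝ) ^ J) Sel) at hlhs
  set Y := anY G a A s c χ g ((K : ℝ) ^ J) Sel with hY
  set x := (μ Y).toReal with hx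
  have hx0 : 0 ≤ x := ENNReal.toReal_nonneg
  have hμY : μ Y = ENNReal.ofReal x := (ENNReal.ofReal_toReal hYfin).symm
  haveI : IsFiniteMeasure μ := ⟨lt_of_le_of_lt hfin ENNReal.ofReal_lt_top⟩
  set ν := μ.restrict Y with hν
  have hνle : ν ≤ μ := Measure.restrict_le_self
  have hνdens : ∀ z, ν (closedBall z 1) ≤ ENNReal.ofReal (m * χ) := fun z => (hνle _).trans (H.dens z)
  have hνgrow : Grow ν m n := fun z r hr => (hνle _).trans (H.grow z r hr)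
  have hνuniv : ν univ ≤ ENNReal.ofReal x := by rw [hν, Measure.restrict_apply_univ, hμY]
  have hνsupp : ν {z | (W.Cb + W.T₀ + 1) * A.L ^ 2 < ‖z - (x₀, (0 : ℝ))‖} = 0 := le_antisymm ((hνle _).trans hsupp.le) bot_le
  have hKinv0 : (0 : ℝ) < (K : ℝ)⁻¹ := inv_pos.2 hK0
  have hKinv1 : (K : ℝ)⁻¹ ≤ 1 := inv_le_one_of_one_le₀ (by linarith)
  have hKη : (0 : ℝ) < (K : ℝ) ^ η := Real.rpow_pos_of_pos hK0 _
  have hKη1 : (1 : ℝ) ≤ (K : ℝ) ^ η := Real.one_le_rpow (by linarith) hη.le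
  have hsdec : SDec n (2 / (1 - bb)) (7 * anCr n Cp C₁) (K : ℝ)⁻¹ (ENNReal.ofReal (D₁ * (K : ℝ) ^ η)) := by
    refine (hD₀ _ hKinv0 hKinv1).mono (ENNReal.ofReal_le_ofReal ?_)
    rw [Real.inv_rpow hK0.le, Real.rpow_neg hK0.le, inv_inv]
    exact mul_le_mul_of_nonneg_right (le_max_right _ _) hKη.le
  have hDg1 : 1 ≤ ENNReal.ofReal (D₁ * (K : ℝ) ^ η) := by
    rw [← ENNReal.ofReal_one]
    exact ENNReal.ofReal_le_ofReal (by nlinarith)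
  have heng' := heng K J 4 (Ncov * ⌈Ccl * (1 + Real.log ((K : ℝ) ^ J))⌉₊) 𝔅 Gf ν (ENNReal.ofReal (m * χ)) (ENNReal.ofReal (D₁ * (K : ℝ) ^ η)) Scl hKe hJ pack.fam
    hνdens hsdec hDg1 (fun κ i => (hS1 κ i).trans Finset.inter_subset_right) hS2 hS3
  have hρ₀0 : 0 ≤ (W.Cb + W.T₀ + 1) * A.L ^ 2 := by have := hW.Cb; have := hW.T0; positivity
  have hTB0 : 0 ≤ anTB0 n p bb δ (G.C' * Cind) m χ ((K : ℝ) ^ J) A.L := by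
    have := hG.C'
    have := H.χ0
    unfold anTB0
    positivity
  have hen0 : ∀ (u : Finset ι), 0 ≤ energy u c := fun u => Finset.sum_nonneg fun α _ => by positivity
  have hxp0 : 0 ≤ x ^ (1 - 2 / p) := Real.rpow_nonneg hx0 _
  have hxb0 : 0 ≤ x ^ bb := Real.rpow_nonneg hx0 _
  have hK6 : 0 ≤ (K : ℝ) ^ (6 * (n : ℝ) + 4) := Real.rpow_nonneg hK0.le _
  have hT0 : ∀ k, 0 ≤ Ct * (K : ℝ) ^ (6 * (n : ℝ) + 4) * anTB0 n p bb δ (G.C' * Cind) m χ ((K : ℝ) ^ J) A.L * x ^ (1 - 2 / p) * energy (selS A s' ((K : ℝ) ^ J) {k}) c :=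
    fun k => mul_nonneg (mul_nonneg (mul_nonneg (mul_nonneg hCt hK6) hTB0) hxp0) (hen0 _)
  have hρ₁0 : 0 ≤ (W.Cb + W.T₀ + 1) * A.L ^ 2 + (2 + 4 * Cp) * ((K : ℝ) ^ J) ^ 4 := by positivity
  have hEr0 : ∀ k, 0 ≤ Aerr * ε k ^ 2 * ((W.Cb + W.T₀ + 1) * A.L ^ 2 + (2 + 4 * Cp) * ((K : ℝ) ^ J) ^ 4) ^ (((n : ℝ) + 1) * (1 - bb)) :=
    fun k => mul_nonneg (mul_nonneg hAerr (sq_nonneg _)) (Real.rpow_nonneg hρ₁0 _)
  have hbins : ∑ k ∈ 𝔅, anPhi bb Ew 2 (-bcen ((K : ℝ) ^ J) k) (lvA K J) (lvB K J) (Gf k) ν ≤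
      ∑ k ∈ 𝔅, (ENNReal.ofReal (Ct * (K : ℝ) ^ (6 * (n : ℝ) + 4) * anTB0 n p bb δ (G.C' * Cind) m χ ((K : ℝ) ^ J) A.L * x ^ (1 - 2 / p) * energy (selS A s' ((K : ℝ) ^ J) {k}) c)
        + ENNReal.ofReal (Aerr * ε k ^ 2 * ((W.Cb + W.T₀ + 1) * A.L ^ 2 + (2 + 4 * Cp) * ((K : ℝ) ^ J) ^ 4) ^ (((n : ℝ) + 1) * (1 - bb))) * ENNReal.ofReal x ^ bb) := by
    refine Finset.sum_le_sum fun k hk => ?_
    refine hbin σ Cind G.C' ι A s (selS A s' ((K : ℝ) ^ J) {k}) c ν m χ x (ε k) ((W.Cb + W.T₀ + 1) * A.L ^ 2) (x₀, (0 : ℝ)) K J k (Gf k) hCind hG.C' hK2n hJ H.RL H.inn ?_ H.tc ?_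
      (pack.fam.bdd k hk) H.weak hm H.χ0 hx0 hνgrow hνdens hνuniv hρ₀0 hνsupp (pack.fam.fs k hk).continuous (pack.err k)
    · exact (Finset.filter_subset _ _).trans pack.sub
    · intro α hα
      have := (Finset.mem_filter.1 hα).2
      exact Finset.mem_singleton.1 this
  have hAe : ENNReal.ofReal (Ae ^ (J + 1)) ≤ ENNReal.ofReal (|Ae| ^ (J + 1)) := by
    refine ENNReal.ofReal_le_ofReal ?_
    rw [← abs_pow]
    exact le_abs_self _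
  rw [hμY] at hlhs
  have hchain := hlhs.trans (add_le_add_left (mul_le_mul_right (heng'.trans (mul_le_mul' (mul_le_mul_left (mul_le_mul_left (mul_le_mul_left (mul_le_mul_left hAe _) _) _) _) hbins)) 2) _)
  have hreal := an_conv _ x _ _ (m * χ) bb _ _ K n (2 * J) 𝔅 _ _ (sq_nonneg _) hx0 (mul_nonneg zero_le_two (sq_nonneg _)) (pow_nonneg (abs_nonneg _) _) (mul_pos hm H.χ0).le hb0 hb1
    (mul_nonneg (zero_le_one.trans hD₁1) hKη.le) hT0 hEr0 hchain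
  have hcard : (𝔅.card : ℝ) ≤ (2 * Cp + 2) ^ n * ((K : ℝ) ^ J) ^ n := an_bins_card Cp _ (by linarith) hR1 𝔅 pack.fam.bdd
  have hmχ0 : 0 ≤ m * χ := (mul_pos hm H.χ0).le
  have hlog : 0 ≤ Real.log ((K : ℝ) ^ J) := Real.log_nonneg hR1
  have hρ₁ : (W.Cb + W.T₀ + 1) * A.L ^ 2 + (2 + 4 * Cp) * ((K : ℝ) ^ J) ^ 4 ≤ Cρ * A.L ^ 2 := by
    have h4 : ((K : ℝ) ^ J) ^ 4 ≤ A.L ^ 2 := by
      calc ((K : ℝ) ^ J) ^ 4 = (((K : ℝ) ^ J) ^ 2) ^ 2 := by ring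
        _ ≤ A.L ^ 2 := pow_le_pow_left₀ (by positivity) H.RL 2
    have h5 : (2 + 4 * Cp) * ((K : ℝ) ^ J) ^ 4 ≤ (2 + 4 * Cp) * A.L ^ 2 := mul_le_mul_of_nonneg_left h4 (by linarith)
    rw [hCρ]
    linarith
  have hfinal := an_coll n N₁ bb 𝔅 ε (fun k => energy (selS A s' ((K : ℝ) ^ J) {k}) c) ((G.c₀ * wlev n a χ g A.L) ^ 2) x (x ^ (1 - 2 / p)) (x ^ bb)
    (|Ae| ^ (J + 1) * ((min (Ncov * ⌈Ccl * (1 + Real.log ((K : ℝ) ^ J))⌉₊) 𝔅.card : ℕ) : ℝ) * (D₁ * (K : ℝ) ^ η) ^ (2 * J) * ((K : ℝ) ^ n) ^ 4)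
    ((m * χ) ^ (1 - bb)) (m ^ (1 - bb)) A.L (((Ncov : ℝ) * (1 + Real.log ((K : ℝ) ^ J))) * ((K : ℝ) ^ J) ^ (2 * η)) (K : ℝ)
    (anTB0 n p bb δ (G.C' * Cind) m χ ((K : ℝ) ^ J) A.L) (energy s c) Cε CK1 CK2 Ct Aerr Cρ ((W.Cb + W.T₀ + 1) * A.L ^ 2 + (2 + 4 * Cp) * ((K : ℝ) ^ J) ^ 4)
    hb0 hb1 hL1 hK0 hx0 hxp0 hxb0 (mul_nonneg (mul_nonneg (mul_nonneg (pow_nonneg (abs_nonneg _) _) (Nat.cast_nonneg _)) (pow_nonneg (mul_nonneg (zero_le_one.trans hD₁1) hKη.le) _)) (pow_nonneg (pow_nonneg hK0.le _) _)) (Real.rpow_nonneg hmχ0 _) (Real.rpow_le_rpow hmχ0 (by have := H.χ1; nlinarith) hb1'.le)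
    (by positivity) hTB0 (hen0 s) H.en hCε hCK1 hCK2 hCt hAerr hCρ0 hρ₁0 pack.pos (fun k => hen0 _)
    ((hK1 K Ncov 𝔅.card hK1n).trans (le_of_eq (by ring))) (hK2 K _ 𝔅.card A.L hK1n H.RL hcard)
    (an_energy_bins A s s' pack.sub c _ 𝔅) hεsum hρ₁ (hreal.trans (le_of_eq (by ring)))
  refine hfinal.trans (le_of_eq ?_)
  rw [an_TB_eq]
  ring

/-- `MasterWith` is monotone in the loss exponent `η`. -/
theorem MasterWith.mono_eta {n : ℕ} {W : WCon} {G : ACon} {J N₁ : ℕ} {p a bb δ η η' CM K₀ : ℝ} (h : MasterWith n W G J N₁ p a bb δ η' CM K₀)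
    (hη : η' ≤ η) (hCM : 0 ≤ CM) (hG : G.Ok) : MasterWith n W G J N₁ p a bb δ η CM (max K₀ 1) := by
  intro σ Cind ι A s c μ m χ g K Ncov Sel hCind hK hm H
  obtain ⟨hfin, hineq⟩ := h σ Cind ι A s c μ m χ g K Ncov Sel hCind ((le_max_left _ _).trans hK) hm H
  refine ⟨hfin, hineq.trans ?_⟩
  have hK1 : (1 : ℝ) ≤ (K : ℝ) := (le_max_right _ _).trans hK
  have hR1 : (1 : ℝ) ≤ (K : ℝ) ^ J := one_le_pow₀ hK1
  have hlog : 0 ≤ Real.log ((K : ℝ) ^ J) := Real.log_nonneg hR1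
  have hTB : 0 ≤ anTB n p bb δ (G.C' * Cind) m χ ((K : ℝ) ^ J) A.L := by
    have := hG.C'
    have := H.χ0
    have hL : 0 ≤ A.L := zero_le_one.trans H.inn.one_le
    unfold anTB
    positivity
  have hE0 : 0 ≤ energy s c := Finset.sum_nonneg fun α _ => by positivity
  have hmono : ((K : ℝ) ^ J) ^ (2 * η') ≤ ((K : ℝ) ^ J) ^ (2 * η) := Real.rpow_le_rpow_of_exponent_le hR1 (by linarith)
  gcongr

/-- the analytic chain for every `η > 0` (hypothesis `hM` of `an_main_of_master`, `an_stmt_of`) -/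
theorem an_master_all (n : ℕ) (hn : 2 ≤ n) (bb δ : ℝ) (hb0 : 0 < bb) (hb1 : bb < 1) (hδ : 0 < δ) (hδ1 : δ ≤ 1)
    (hBD : ∀ η : ℝ, 0 < η → BD.DecPow (E (n - 2)) (2 / (1 - bb)) η)
    (J : ℕ) (hJ : 1 ≤ J) (p a η : ℝ) (hp : 2 < p) (h2a : 2 * a = 1 - bb + δ) (hη : 0 < η) (G : ACon) (hG : G.Ok) (N₁ : ℕ)
    (W : WCon) (hW : W.Sane n) (hJd : N₁ + n + 2 ≤ W.K.J) :
    ∃ CM K₀ : ℝ, 0 ≤ CM ∧ MasterWith n W G J N₁ p a bb δ η CM K₀ := by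
  obtain ⟨CM, K₀, hCM, h⟩ := an_master n hn bb δ hb0 hb1 hδ hδ1 hBD J hJ p a (min η 1) hp h2a (lt_min hη one_pos) (min_le_right _ _) G hG N₁ W hW hJd
  exact ⟨CM, max K₀ 1, hCM, h.mono_eta (min_le_left _ _) hCM hG⟩

/-- Stores the on-demand equation lemmas of the definitions of THIS module here (rule 6 hygiene). -/
theorem an_master_forced : True := by
  have := @anTB0.eq_1
  trivial

end Claimed.Agent.R257
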