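import Claimed.Agent.R257.Ang.Defs
import Claimed.Agent.Lib.BD.Cyl

/-!
# R257 / Ang / Phi : THE MASS-POWER FUNCTIONAL WITH CONTINUOUS WEIGHTS (replaces `𝒯_b`, H fractal.tex (d:coarse-functional), d:transport)      PAPER-FREE: Mathlib + Lib/BD.      (architect helper83)

Space-time `ST n = E n × ℝ` (sup norm).  `BD.Lam u a b (x,t) = (a (x + 2 t u), b t)`;  `BD.tw Ew u a b y = a^n b (1 + ‖Lam u a b y‖)^{-Ew}` (total mass independent of `u, a, b`).   `0 < bb < 1`, `P = 2/(1-bb)`.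
* `anM u a b r ν z  = a^n b · ν {y | ‖Lam u a b (y - z)‖ ≤ r}`        normalised mass of the plank of radius `r` about `z`
* `anN P Ew u a b F z = ∫ |F y|^P tw Ew u a b (y - z) dy`              weighted local `L^P` average
* `anPhi bb Ew r u a b F ν = ∫ (anM z)^bb (anN z)^(1-bb) dz`            (`≈ ∑_Q ν(Q)^b ‖F‖²_{L^P(Q)}` over the planks `Q`)
The fields and the measure are NEVER rescaled: level `j`, cap centre `u`:  `a = K^{-j}/K²`, `b = K^{-2j}/K²`.   No grids, no shift sequences, no finite sets `ℛ`.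
MAIN FACTS: `an_coarsen` (= d:transport: passage to a coarser plank costs a CONSTANT), `an_phi_dec` (a pointwise decoupling inequality integrates), `an_start` (Hölder + locally constant), `an_recomb` (big cubes),
`an_phi_err` (sup-small fields), `an_phi_resc` (change of variables), `an_c2d` (back to cubes at the terminal step).
-/

set_option autoImplicit false

namespace Claimed.Agent.R257

open MeasureTheory Metric Set
open scoped ENNReal InnerProductSpace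

variable {n : ℕ}

/-- normalised mass of the plank of radius `r` about `z` -/
noncomputable def anM (u : E n) (a b r : ℝ) (ν : Measure (ST n)) (z : ST n) : ℝ≥0∞ :=
  ENNReal.ofReal (a ^ n * b) * ν {y | ‖BD.Lam u a b (y - z)‖ ≤ r}

/-- weighted local `L^P` average (`P`-th power) -/
noncomputable def anN (P Ew : ℝ) (u : E n) (a b : ℝ) (F : ST n → ℂ) (z : ST n) : ℝ≥0∞ :=
  ∫⁻ y, ‖F y‖ₑ ^ P * BD.tw Ew u a b (y - z)

/-- the mass-power functional -/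
noncomputable def anPhi (bb Ew r : ℝ) (u : E n) (a b : ℝ) (F : ST n → ℂ) (ν : Measure (ST n)) : ℝ≥0∞ :=
  ∫⁻ z, anM u a b r ν z ^ bb * anN (2 / (1 - bb)) Ew u a b F z ^ (1 - bb)

/-! ## measurability, monotonicity -/

/-- `Lam` is continuous -/
theorem an_cont_Lam (u : E n) (a b : ℝ) : Continuous (BD.Lam u a b) := by
  unfold BD.Lam
  fun_prop

/-- **L-AN-P1** (60 l.) `measurable_measure_prodMk_left` for the closed set `{(z,y) | ‖Lam (y - z)‖ ≤ r}`. -/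
theorem an_meas_M (u : E n) (a b r : ℝ) (ν : Measure (ST n)) [SFinite ν] : Measurable (anM u a b r ν) := by
  have hc : Continuous fun p : ST n × ST n => ‖BD.Lam u a b (p.2 - p.1)‖ :=
    ((an_cont_Lam u a b).comp (continuous_snd.sub continuous_fst)).norm
  have hS : MeasurableSet {p : ST n × ST n | ‖BD.Lam u a b (p.2 - p.1)‖ ≤ r} :=
    (isClosed_le hc continuous_const).measurableSet
  exact (measurable_measure_prodMk_left (ν := ν) hS).const_mul _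

/-- **L-AN-P2** (40 l.) `Measurable.lintegral_prod_right'`, `BD.measurable_tw`. -/
theorem an_meas_N (P Ew : ℝ) (u : E n) (a b : ℝ) (F : ST n → ℂ) (hF : Measurable F) : Measurable (anN P Ew u a b F) := by
  have h : Measurable fun p : ST n × ST n => ‖F p.2‖ₑ ^ P * BD.tw Ew u a b (p.2 - p.1) :=
    ((hF.comp measurable_snd).enorm.pow_const P).mul ((BD.measurable_tw Ew u a b).comp (measurable_snd.sub measurable_fst))
  exact h.lintegral_prod_right'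

/-- **L-AN-P3** (30 l.) -/
theorem an_phi_mono_r {bb : ℝ} (hb : 0 ≤ bb) (Ew : ℝ) {r r' : ℝ} (hr : r ≤ r') (u : E n) (a b : ℝ) (F : ST n → ℂ) (ν : Measure (ST n)) :
    anPhi bb Ew r u a b F ν ≤ anPhi bb Ew r' u a b F ν := by
  refine lintegral_mono fun z => mul_le_mul' (ENNReal.rpow_le_rpow ?_ hb) le_rfl
  exact mul_le_mul' le_rfl (measure_mono fun y hy => le_trans hy hr)

/-- **L-AN-P4** (30 l.) only the modulus of the field matters. -/
theorem an_phi_congr (bb Ew r : ℝ) (u : E n) (a b : ℝ) (F G : ST n → ℂ) (h : ∀ z, ‖F z‖ = ‖G z‖) (ν : Measure (ST n)) :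
    anPhi bb Ew r u a b F ν = anPhi bb Ew r u a b G ν := by
  have he : ∀ z, ‖F z‖ₑ = ‖G z‖ₑ := fun z => by rw [← ofReal_norm, ← ofReal_norm, h z]
  unfold anPhi anN
  simp only [he]

/-- **L-AN-P5** (30 l.) -/
theorem an_phi_zero {bb : ℝ} (hb0 : 0 < bb) (hb1 : bb < 1) (Ew r : ℝ) (u : E n) (a b : ℝ) (ν : Measure (ST n)) :
    anPhi bb Ew r u a b (fun _ => 0) ν = 0 := by
  have h1 : 0 < 1 - bb := by linarith
  have hP : 0 < 2 / (1 - bb) := by positivity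
  unfold anPhi anN
  simp [ENNReal.zero_rpow_of_pos hP, ENNReal.zero_rpow_of_pos h1]

/-! ## sums of fields -/

/-- the crude step (proved here because `an_phi_add` uses it; restated below as `an_N_cs`) -/
theorem an_N_cs_aux {bb : ℝ} (hb1 : bb < 1) (hb0 : 0 < bb) (Ew : ℝ) (u : E n) (a b : ℝ) {ι : Type} (s : Finset ι) (H : ι → ST n → ℂ)
    (hH : ∀ j ∈ s, Continuous (H j)) (z : ST n) :
    anN (2 / (1 - bb)) Ew u a b (fun y => ∑ j ∈ s, H j y) z ^ (1 - bb) ≤ (s.card : ℝ≥0∞) * ∑ j ∈ s, anN (2 / (1 - bb)) Ew u a b (H j) z ^ (1 - bb) := by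
  have h1 : 0 < 1 - bb := by linarith
  have hP : 1 ≤ 2 / (1 - bb) := by
    rw [le_div_iff₀ h1]
    linarith
  have hP0 : 0 < 2 / (1 - bb) := by linarith
  have hw : Measurable fun y : ST n => BD.tw Ew u a b (y - z) := (BD.measurable_tw Ew u a b).comp (measurable_id.sub_const z)
  have hN : ∀ F : ST n → ℂ, Measurable F → anN (2 / (1 - bb)) Ew u a b F z =
      ∫⁻ y, ‖F y‖ₑ ^ (2 / (1 - bb)) ∂(volume.withDensity fun y : ST n => BD.tw Ew u a b (y - z)) := by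
    intro F hF
    rw [lintegral_withDensity_eq_lintegral_mul _ hw (hF.enorm.pow_const _)]
    unfold anN
    refine lintegral_congr fun y => ?_
    simp only [Pi.mul_apply]
    exact mul_comm _ _
  have e : ∀ X : ℝ≥0∞, X ^ (1 - bb) = (X ^ (1 / (2 / (1 - bb)))) ^ (2 : ℝ) := fun X => by
    rw [← ENNReal.rpow_mul]
    congr 1
    field_simp
  have hsum : Measurable fun y => ∑ j ∈ s, H j y := (continuous_finsetSum s hH).measurable
  have step1 : ∫⁻ y, ‖∑ j ∈ s, H j y‖ₑ ^ (2 / (1 - bb)) ∂(volume.withDensity fun y : ST n => BD.tw Ew u a b (y - z)) ≤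
      ∫⁻ y, (∑ j ∈ s, ‖H j y‖ₑ) ^ (2 / (1 - bb)) ∂(volume.withDensity fun y : ST n => BD.tw Ew u a b (y - z)) :=
    lintegral_mono fun y => ENNReal.rpow_le_rpow (enorm_sum_le _ _) hP0.le
  have step2 := BD.abs_minkowski (μ := volume.withDensity fun y : ST n => BD.tw Ew u a b (y - z)) hP s
    (fun j y => ‖H j y‖ₑ) (fun j hj => (hH j hj).measurable.enorm.aemeasurable)
  rw [e, hN _ hsum]
  calc ((∫⁻ y, ‖∑ j ∈ s, H j y‖ₑ ^ (2 / (1 - bb)) ∂(volume.withDensity fun y : ST n => BD.tw Ew u a b (y - z)))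
        ^ (1 / (2 / (1 - bb)))) ^ (2 : ℝ)
      ≤ (∑ j ∈ s, (∫⁻ y, ‖H j y‖ₑ ^ (2 / (1 - bb)) ∂(volume.withDensity fun y : ST n => BD.tw Ew u a b (y - z)))
        ^ (1 / (2 / (1 - bb)))) ^ (2 : ℝ) :=
        ENNReal.rpow_le_rpow ((ENNReal.rpow_le_rpow step1 (by positivity)).trans step2) (by norm_num)
    _ ≤ (s.card : ℝ≥0∞) ^ ((2 : ℝ) - 1) * ∑ j ∈ s, ((∫⁻ y, ‖H j y‖ₑ ^ (2 / (1 - bb))
        ∂(volume.withDensity fun y : ST n => BD.tw Ew u a b (y - z))) ^ (1 / (2 / (1 - bb)))) ^ (2 : ℝ) :=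
        ENNReal.rpow_sum_le_const_mul_sum_rpow _ _ (by norm_num)
    _ = (s.card : ℝ≥0∞) * ∑ j ∈ s, anN (2 / (1 - bb)) Ew u a b (H j) z ^ (1 - bb) := by
        have h21 : (2 : ℝ) - 1 = 1 := by norm_num
        rw [h21, ENNReal.rpow_one]
        congr 1
        refine Finset.sum_congr rfl fun j hj => ?_
        rw [e, hN _ (hH j hj).measurable]

/-- a pointwise inequality for the local norms integrates (proved here because `an_phi_add` uses it; restated below as `an_phi_dec`) -/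
theorem an_phi_dec_aux {bb : ℝ} (Ew r : ℝ) (u : E n) (a b : ℝ) {ι : Type} (s : Finset ι) (H : ι → ST n → ℂ)
    (hH : ∀ j ∈ s, Continuous (H j)) (ν : Measure (ST n)) [SFinite ν] (c : ℝ≥0∞)
    (h : ∀ z, anN (2 / (1 - bb)) Ew u a b (fun y => ∑ j ∈ s, H j y) z ^ (1 - bb) ≤ c * ∑ j ∈ s, anN (2 / (1 - bb)) Ew u a b (H j) z ^ (1 - bb)) :
    anPhi bb Ew r u a b (fun y => ∑ j ∈ s, H j y) ν ≤ c * ∑ j ∈ s, anPhi bb Ew r u a b (H j) ν := by
  have hm : ∀ j ∈ s, Measurable fun z => anM u a b r ν z ^ bb * anN (2 / (1 - bb)) Ew u a b (H j) z ^ (1 - bb) := fun j hj =>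
    ((an_meas_M u a b r ν).pow_const bb).mul ((an_meas_N _ Ew u a b (H j) (hH j hj).measurable).pow_const _)
  unfold anPhi
  rw [← lintegral_finsetSum s hm, ← lintegral_const_mul c (Finset.measurable_sum s hm)]
  refine lintegral_mono fun z => ?_
  calc anM u a b r ν z ^ bb * anN (2 / (1 - bb)) Ew u a b (fun y => ∑ j ∈ s, H j y) z ^ (1 - bb)
      ≤ anM u a b r ν z ^ bb * (c * ∑ j ∈ s, anN (2 / (1 - bb)) Ew u a b (H j) z ^ (1 - bb)) := mul_le_mul' le_rfl (h z)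
    _ = c * ∑ j ∈ s, anM u a b r ν z ^ bb * anN (2 / (1 - bb)) Ew u a b (H j) z ^ (1 - bb) := by
        rw [mul_left_comm, Finset.mul_sum]

/-- **L-AN-P6** (120 l.) Minkowski in `L^P(tw dy)` + `(x+y)² ≤ 2x² + 2y²`;  `anN^(1-bb) = (‖·‖_{L^P})²`. -/
theorem an_phi_add {bb : ℝ} (hb0 : 0 < bb) (hb1 : bb < 1) (Ew r : ℝ) (u : E n) (a b : ℝ) (F G : ST n → ℂ) (hF : Continuous F) (hG : Continuous G)
    (ν : Measure (ST n)) [SFinite ν] :
    anPhi bb Ew r u a b (fun z => F z + G z) ν ≤ 2 * anPhi bb Ew r u a b F ν + 2 * anPhi bb Ew r u a b G ν := by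
  have hH : ∀ j ∈ (Finset.univ : Finset Bool), Continuous ((fun j : Bool => if j then F else G) j) := by
    intro j _
    cases j
    · simpa using hG
    · simpa using hF
  have h := an_phi_dec_aux (bb := bb) Ew r u a b Finset.univ (fun j : Bool => if j then F else G) hH ν 2 (fun z => by
    have := an_N_cs_aux hb1 hb0 Ew u a b Finset.univ (fun j : Bool => if j then F else G) hH z
    simpa using this)
  simp only [Fintype.sum_bool, if_true, Bool.false_eq_true, if_false, mul_add] at h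
  exact h

/-- **L-AN-P7** (80 l.) a pointwise inequality for the local norms integrates (`lintegral_finset_sum`, `an_meas_M`, `an_meas_N`). -/
theorem an_phi_dec {bb : ℝ} (hb0 : 0 < bb) (hb1 : bb < 1) (Ew r : ℝ) (u : E n) (a b : ℝ) {ι : Type} (s : Finset ι) (H : ι → ST n → ℂ)
    (hH : ∀ j ∈ s, Continuous (H j)) (ν : Measure (ST n)) [SFinite ν] (c : ℝ≥0∞)
    (h : ∀ z, anN (2 / (1 - bb)) Ew u a b (fun y => ∑ j ∈ s, H j y) z ^ (1 - bb) ≤ c * ∑ j ∈ s, anN (2 / (1 - bb)) Ew u a b (H j) z ^ (1 - bb)) :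
    anPhi bb Ew r u a b (fun y => ∑ j ∈ s, H j y) ν ≤ c * ∑ j ∈ s, anPhi bb Ew r u a b (H j) ν := by
  exact an_phi_dec_aux Ew r u a b s H hH ν c h

/-- **L-AN-P8** (100 l.) the crude step: `BD.abs_minkowski` in `L^P(tw dy)`, then Cauchy-Schwarz `(∑ x_j)² ≤ card · ∑ x_j²`. -/
theorem an_N_cs {bb : ℝ} (hb0 : 0 < bb) (hb1 : bb < 1) (Ew : ℝ) (u : E n) (a b : ℝ) {ι : Type} (s : Finset ι) (H : ι → ST n → ℂ)
    (hH : ∀ j ∈ s, Continuous (H j)) (z : ST n) :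
    anN (2 / (1 - bb)) Ew u a b (fun y => ∑ j ∈ s, H j y) z ^ (1 - bb) ≤ (s.card : ℝ≥0∞) * ∑ j ∈ s, anN (2 / (1 - bb)) Ew u a b (H j) z ^ (1 - bb) := by
  exact an_N_cs_aux hb1 hb0 Ew u a b s H hH z

/-! ## coarsening (= d:transport) -/

/-- **L-AN-P9** (100 l.) Tonelli + Hölder.  `∫ χ(z - z₁) dz₁ = 1` (`lintegral_sub_left_eq_self`), `lintegral_lintegral_swap`, `f₁^bb f₂^(1-bb) χ = (f₁ χ)^bb (f₂ χ)^(1-bb)`, `BD.abs_holder_two`. -/
theorem an_abs_avg {bb : ℝ} (h0 : 0 ≤ bb) (h1 : bb ≤ 1) (f₁ f₂ χ : ST n → ℝ≥0∞) (hf₁ : Measurable f₁) (hf₂ : Measurable f₂) (hχ : Measurable χ)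
    (hχ1 : ∫⁻ x, χ x = 1) :
    ∫⁻ z, f₁ z ^ bb * f₂ z ^ (1 - bb) ≤ ∫⁻ z₁, (∫⁻ z, f₁ z * χ (z - z₁)) ^ bb * (∫⁻ z, f₂ z * χ (z - z₁)) ^ (1 - bb) := by
  have := BD.wt_haar (V := E n)
  have h1' : 0 ≤ 1 - bb := by linarith
  have hone : ∀ z : ST n, ∫⁻ z₁, χ (z - z₁) = 1 := fun z => by
    rw [lintegral_sub_left_eq_self χ z, hχ1]
  have hpt : ∀ z z₁ : ST n, f₁ z ^ bb * f₂ z ^ (1 - bb) * χ (z - z₁) =
      (f₁ z * χ (z - z₁)) ^ bb * (f₂ z * χ (z - z₁)) ^ (1 - bb) := fun z z₁ => by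
    rw [ENNReal.mul_rpow_of_nonneg _ _ h0, ENNReal.mul_rpow_of_nonneg _ _ h1']
    have e : χ (z - z₁) = χ (z - z₁) ^ bb * χ (z - z₁) ^ (1 - bb) := by
      rw [← ENNReal.rpow_add_of_nonneg _ _ h0 h1']
      simp
    conv_lhs => rw [e]
    ring
  have hχ2 : Measurable fun p : ST n × ST n => χ (p.1 - p.2) := hχ.comp (measurable_fst.sub measurable_snd)
  have hm : Measurable (Function.uncurry fun z z₁ : ST n => f₁ z ^ bb * f₂ z ^ (1 - bb) * χ (z - z₁)) :=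
    (((hf₁.comp measurable_fst).pow_const bb).mul ((hf₂.comp measurable_fst).pow_const (1 - bb))).mul hχ2
  calc ∫⁻ z, f₁ z ^ bb * f₂ z ^ (1 - bb) = ∫⁻ z, ∫⁻ z₁, f₁ z ^ bb * f₂ z ^ (1 - bb) * χ (z - z₁) := by
        refine lintegral_congr fun z => ?_
        have hmz : Measurable fun z₁ : ST n => χ (z - z₁) := hχ.comp (measurable_const.sub measurable_id)
        rw [lintegral_const_mul _ hmz, hone, mul_one]
    _ = ∫⁻ z₁, ∫⁻ z, f₁ z ^ bb * f₂ z ^ (1 - bb) * χ (z - z₁) := lintegral_lintegral_swap hm.aemeasurable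
    _ = ∫⁻ z₁, ∫⁻ z, (f₁ z * χ (z - z₁)) ^ bb * (f₂ z * χ (z - z₁)) ^ (1 - bb) := by simp only [hpt]
    _ ≤ ∫⁻ z₁, (∫⁻ z, f₁ z * χ (z - z₁)) ^ bb * (∫⁻ z, f₂ z * χ (z - z₁)) ^ (1 - bb) :=
        lintegral_mono fun z₁ => BD.abs_holder_two h0 h1 _ _
          (hf₁.mul (hχ.comp (measurable_id.sub_const z₁))).aemeasurable
          (hf₂.mul (hχ.comp (measurable_id.sub_const z₁))).aemeasurable

/-- **L-AN-P10** (60 l.) volume of a plank (`BD.lintegral_Lam` applied to the indicator of the ball, `BD.exists_volume_closedBall`). -/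
theorem an_vol_plank (n : ℕ) : ∃ cB : ℝ, 0 < cB ∧ ∀ (u : E n) (a b r : ℝ), 0 < a → 0 < b → 0 < r →
    volume {y : ST n | ‖BD.Lam u a b y‖ ≤ r} = ENNReal.ofReal (cB * r ^ (n + 1) / (a ^ n * b)) := by
  obtain ⟨c, hc, h⟩ := BD.exists_volume_closedBall (V := E n)
  refine ⟨c, hc, fun u a b r ha hb hr => ?_⟩
  have hfr : Module.finrank ℝ (E n) = n := finrank_euclideanSpace_fin
  have hS : MeasurableSet {y : ST n | ‖BD.Lam u a b y‖ ≤ r} :=
    (isClosed_le (an_cont_Lam u a b).norm continuous_const).measurableSet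
  have h1 := BD.lintegral_Lam u ha hb ((closedBall (0 : ST n) r).indicator 1)
  have e1 : (fun z : ST n => (closedBall (0 : ST n) r).indicator (1 : ST n → ℝ≥0∞) (BD.Lam u a b z)) =
      {y : ST n | ‖BD.Lam u a b y‖ ≤ r}.indicator 1 := by
    funext z
    by_cases hz : ‖BD.Lam u a b z‖ ≤ r
    · rw [indicator_of_mem (show z ∈ {y : ST n | ‖BD.Lam u a b y‖ ≤ r} from hz),
        indicator_of_mem (show BD.Lam u a b z ∈ closedBall (0 : ST n) r by rwa [mem_closedBall, dist_zero_right])]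
      rfl
    · rw [indicator_of_notMem (show z ∉ {y : ST n | ‖BD.Lam u a b y‖ ≤ r} from hz),
        indicator_of_notMem (show BD.Lam u a b z ∉ closedBall (0 : ST n) r by rwa [mem_closedBall, dist_zero_right])]
  rw [e1, lintegral_indicator_one hS, lintegral_indicator_one isClosed_closedBall.measurableSet, h 0 r hr, hfr,
    ← ENNReal.ofReal_mul (by positivity)] at h1
  rw [h1]
  congr 1
  have e2 : r ^ ((BD.dd (E n) : ℕ) : ℝ) = r ^ (n + 1) := by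
    rw [Real.rpow_natCast, BD.dd, hfr]
  rw [e2]
  field_simp

/-- **L-AN-P11** (60 l.) comparison of two planks.  With `X' = a'(x + 2tu')`, `T' = b' t`: `Lam u (q₁a') (q₂b') w = (q₁ X' + 2 (q₁a'/b') T' (u - u'), q₂ T')`. -/
theorem an_lam_cmp (u u' : E n) (a' b' q₁ q₂ Cv : ℝ) (ha' : 0 < a') (hb' : 0 < b') (hq₁ : 0 < q₁) (hq : q₁ ≤ q₂) (hCv : 0 ≤ Cv)
    (hu : 2 * (q₁ * a' / b') * ‖u - u'‖ ≤ Cv * q₂) (w : ST n) :
    q₁ / (1 + Cv) * ‖BD.Lam u' a' b' w‖ ≤ ‖BD.Lam u (q₁ * a') (q₂ * b') w‖ := by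
  have hC : 0 < 1 + Cv := by linarith
  have hq₂ : 0 < q₂ := lt_of_lt_of_le hq₁ hq
  rw [div_mul_eq_mul_div, div_le_iff₀ hC]
  obtain ⟨N, hN⟩ : ∃ N, N = ‖BD.Lam u (q₁ * a') (q₂ * b') w‖ := ⟨_, rfl⟩
  rw [← hN]
  have hN0 : 0 ≤ N := by rw [hN]; exact norm_nonneg _
  have hN1 : ‖(q₁ * a') • (w.1 + (2 * w.2) • u)‖ ≤ N := by
    rw [hN]
    exact norm_fst_le (BD.Lam u (q₁ * a') (q₂ * b') w)
  have hN2 : q₂ * (b' * |w.2|) ≤ N := by
    have h := norm_snd_le (BD.Lam u (q₁ * a') (q₂ * b') w)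
    rw [← hN] at h
    have e : ‖(BD.Lam u (q₁ * a') (q₂ * b') w).2‖ = q₂ * (b' * |w.2|) := by
      show ‖q₂ * b' * w.2‖ = _
      rw [Real.norm_eq_abs, abs_mul, abs_mul, abs_of_pos hq₂, abs_of_pos hb']
      ring
    rwa [e] at h
  have hT : q₁ * ‖b' * w.2‖ ≤ N * (1 + Cv) := by
    rw [Real.norm_eq_abs, abs_mul, abs_of_pos hb']
    have h1 : q₁ * (b' * |w.2|) ≤ q₂ * (b' * |w.2|) := mul_le_mul_of_nonneg_right hq (by positivity)
    nlinarith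
  have hX : q₁ * ‖a' • (w.1 + (2 * w.2) • u')‖ ≤ N * (1 + Cv) := by
    have e : q₁ • (a' • (w.1 + (2 * w.2) • u')) = (q₁ * a') • (w.1 + (2 * w.2) • u) - (2 * (q₁ * a') * w.2) • (u - u') := by
      have e1 : q₁ * a' * (2 * w.2) = 2 * (q₁ * a') * w.2 := by ring
      rw [smul_smul, smul_add, smul_add, smul_sub, smul_smul, smul_smul, e1]
      abel
    have h1 : q₁ * ‖a' • (w.1 + (2 * w.2) • u')‖ = ‖q₁ • (a' • (w.1 + (2 * w.2) • u'))‖ := by
      rw [norm_smul q₁, Real.norm_eq_abs, abs_of_pos hq₁]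
    have h2 : ‖(2 * (q₁ * a') * w.2) • (u - u')‖ ≤ Cv * (q₂ * (b' * |w.2|)) := by
      rw [norm_smul, Real.norm_eq_abs, abs_mul, abs_of_pos (by positivity : 0 < 2 * (q₁ * a'))]
      have h3 : 2 * (q₁ * a') * |w.2| * ‖u - u'‖ = (2 * (q₁ * a' / b') * ‖u - u'‖) * (b' * |w.2|) := by
        field_simp
      rw [h3]
      calc (2 * (q₁ * a' / b') * ‖u - u'‖) * (b' * |w.2|) ≤ (Cv * q₂) * (b' * |w.2|) :=
            mul_le_mul_of_nonneg_right hu (by positivity)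
        _ = Cv * (q₂ * (b' * |w.2|)) := by ring
    rw [h1, e]
    calc ‖(q₁ * a') • (w.1 + (2 * w.2) • u) - (2 * (q₁ * a') * w.2) • (u - u')‖
        ≤ ‖(q₁ * a') • (w.1 + (2 * w.2) • u)‖ + ‖(2 * (q₁ * a') * w.2) • (u - u')‖ := norm_sub_le _ _
      _ ≤ N + Cv * N := add_le_add hN1 (h2.trans (mul_le_mul_of_nonneg_left hN2 hCv))
      _ = N * (1 + Cv) := by ring
  have hmax : ‖BD.Lam u' a' b' w‖ = max ‖a' • (w.1 + (2 * w.2) • u')‖ ‖b' * w.2‖ := Prod.norm_def _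
  rw [hmax]
  rcases le_total ‖a' • (w.1 + (2 * w.2) • u')‖ ‖b' * w.2‖ with h | h
  · rw [max_eq_right h]
    exact hT
  · rw [max_eq_left h]
    exact hX

/-- **L-AN-P12** (200 l.) the weight of the fine plank averaged over a coarse plank is dominated by the weight of the coarse plank.
`t := ‖Lam' w‖`.  Case `t ≤ 2`: `∫_{P'} tw(w - x) dx ≤ ∫ tw = cE` (`BD.exists_lintegral_tw`), `vol P' · tw' w ≥ cB 3^{-Ew}` (`an_vol_plank`).
Case `t > 2`: for `x ∈ P'`: `‖Lam (w - x)‖ ≥ κ (t - 1) ≥ κ t/2`, so `tw (w - x) ≤ a^n b (κ t/2)^{-Ew} ≤ C₀ 2^Ew a'^n b' t^{-Ew} ≤ C₀ 3^Ew tw' w`. -/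
theorem an_tw_conv (n : ℕ) (Ew C₀ : ℝ) (hE : (n : ℝ) + 1 < Ew) (hC₀ : 0 ≤ C₀) :
    ∃ A : ℝ, ∀ (u u' : E n) (a b a' b' κ : ℝ), 0 < a → 0 < b → 0 < a' → 0 < b' → 0 < κ →
      (∀ w, κ * ‖BD.Lam u' a' b' w‖ ≤ ‖BD.Lam u a b w‖) → a ^ n * b ≤ C₀ * κ ^ Ew * (a' ^ n * b') →
      ∀ w, ∫⁻ x in {x | ‖BD.Lam u' a' b' x‖ ≤ 1}, BD.tw Ew u a b (w - x) ≤
        ENNReal.ofReal A * volume {x : ST n | ‖BD.Lam u' a' b' x‖ ≤ 1} * BD.tw Ew u' a' b' w := by
  obtain ⟨cB, hcB, hvol⟩ := an_vol_plank n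
  have hfr : Module.finrank ℝ (E n) = n := finrank_euclideanSpace_fin
  have hdd : (BD.dd (E n) : ℝ) < Ew := by
    unfold BD.dd
    rw [hfr]
    push_cast
    exact hE
  obtain ⟨cE, hcE, hmass⟩ := BD.exists_lintegral_tw (V := E n) hdd
  have hEw : 0 < Ew := by
    have : (0:ℝ) ≤ n := Nat.cast_nonneg n
    linarith
  have hT : 0 < (3:ℝ) ^ Ew := by positivity
  refine ⟨cE * 3 ^ Ew / cB + C₀ * 3 ^ Ew, fun u u' a b a' b' κ ha hb ha' hb' hκ hcmp hC w => ?_⟩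
  have := BD.bdlc_haar (V := E n)
  set t := ‖BD.Lam u' a' b' w‖ with ht
  have ht0 : 0 ≤ t := norm_nonneg _
  set q := a' ^ n * b' with hq
  have hq0 : 0 < q := by positivity
  set s := (1 + t) ^ (-Ew) with hs
  have hs0 : 0 < s := by positivity
  have htw' : BD.tw Ew u' a' b' w = ENNReal.ofReal (q * s) := by
    unfold BD.tw
    rw [hfr]
  rw [hvol u' a' b' 1 ha' hb' one_pos, htw', ← ENNReal.ofReal_mul (by positivity), ← ENNReal.ofReal_mul (by positivity)]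
  have hR : (cE * 3 ^ Ew / cB + C₀ * 3 ^ Ew) * (cB * 1 ^ (n + 1) / q) * (q * s) = (cE * 3 ^ Ew + C₀ * 3 ^ Ew * cB) * s := by
    rw [one_pow]; field_simp
  rw [hR]
  rcases le_or_gt t 2 with h2 | h2
  · calc ∫⁻ x in {x | ‖BD.Lam u' a' b' x‖ ≤ 1}, BD.tw Ew u a b (w - x)
        ≤ ∫⁻ x, BD.tw Ew u a b (w - x) := setLIntegral_le_lintegral _ _
      _ = ∫⁻ x, BD.tw Ew u a b x := lintegral_sub_left_eq_self _ w
      _ = ENNReal.ofReal cE := hmass u a b ha hb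
      _ ≤ _ := by
        apply ENNReal.ofReal_le_ofReal
        have h3 : (3:ℝ) ^ (-Ew) ≤ s :=
          Real.rpow_le_rpow_of_nonpos (by positivity) (by linarith) (by linarith)
        have h4 : 1 ≤ 3 ^ Ew * s := by
          calc (1:ℝ) = 3 ^ Ew * 3 ^ (-Ew) := by
                rw [Real.rpow_neg (by norm_num), mul_inv_cancel₀ hT.ne']
            _ ≤ _ := mul_le_mul_of_nonneg_left h3 hT.le
        calc cE = cE * 1 := by ring
          _ ≤ cE * (3 ^ Ew * s) := mul_le_mul_of_nonneg_left h4 hcE.le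
          _ ≤ cE * (3 ^ Ew * s) + C₀ * 3 ^ Ew * cB * s := le_add_of_nonneg_right (by positivity)
          _ = _ := by ring
  · have hPm : MeasurableSet {x : ST n | ‖BD.Lam u' a' b' x‖ ≤ 1} :=
      (isClosed_le (an_cont_Lam u' a' b').norm continuous_const).measurableSet
    have hpt : ∀ x ∈ {x : ST n | ‖BD.Lam u' a' b' x‖ ≤ 1}, BD.tw Ew u a b (w - x) ≤ ENNReal.ofReal (C₀ * 3 ^ Ew * (q * s)) := by
      intro x hx
      have hx1 : ‖BD.Lam u' a' b' x‖ ≤ 1 := hx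
      unfold BD.tw
      rw [hfr]
      apply ENNReal.ofReal_le_ofReal
      set L := ‖BD.Lam u a b (w - x)‖ with hL
      have h3 : t - 1 ≤ ‖BD.Lam u' a' b' (w - x)‖ := by
        rw [BD.bdlc_Lam_sub]
        have := norm_sub_norm_le (BD.Lam u' a' b' w) (BD.Lam u' a' b' x)
        linarith
      have h4 : κ * (t / 2) ≤ L := by
        refine le_trans ?_ (hcmp (w - x))
        apply mul_le_mul_of_nonneg_left _ hκ.le
        linarith
      have h5 : (1 + L) ^ (-Ew) ≤ (κ * (t / 2)) ^ (-Ew) :=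
        Real.rpow_le_rpow_of_nonpos (by positivity) (by linarith) (by linarith)
      have h6 : (κ * (t / 2)) ^ (-Ew) = (κ ^ Ew)⁻¹ * (t / 2) ^ (-Ew) := by
        rw [Real.mul_rpow hκ.le (by positivity), Real.rpow_neg hκ.le]
      have h7 : (t / 2) ^ (-Ew) ≤ 3 ^ Ew * s := by
        have h8 : (t / 2) ^ (-Ew) ≤ ((1 + t) / 3) ^ (-Ew) :=
          Real.rpow_le_rpow_of_nonpos (by positivity) (by linarith) (by linarith)
        refine h8.trans (le_of_eq ?_)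
        rw [Real.div_rpow (by positivity) (by norm_num), Real.rpow_neg (by norm_num : (0:ℝ) ≤ 3), div_inv_eq_mul, mul_comm]
      have hκE : 0 < κ ^ Ew := by positivity
      calc a ^ n * b * (1 + L) ^ (-Ew) ≤ (C₀ * κ ^ Ew * q) * ((κ ^ Ew)⁻¹ * (t / 2) ^ (-Ew)) := by
            rw [← h6]
            exact mul_le_mul hC h5 (by positivity) (by positivity)
        _ = C₀ * q * (t / 2) ^ (-Ew) := by field_simp
        _ ≤ C₀ * q * (3 ^ Ew * s) := mul_le_mul_of_nonneg_left h7 (by positivity)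
        _ = _ := by ring
    calc ∫⁻ x in {x | ‖BD.Lam u' a' b' x‖ ≤ 1}, BD.tw Ew u a b (w - x)
        ≤ ∫⁻ x in {x : ST n | ‖BD.Lam u' a' b' x‖ ≤ 1}, ENNReal.ofReal (C₀ * 3 ^ Ew * (q * s)) := setLIntegral_mono measurable_const hpt
      _ = ENNReal.ofReal (C₀ * 3 ^ Ew * (q * s)) * ENNReal.ofReal (cB * 1 ^ (n + 1) / q) := by
        rw [setLIntegral_const, hvol u' a' b' 1 ha' hb' one_pos]
      _ ≤ _ := by
        rw [← ENNReal.ofReal_mul (by positivity)]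
        apply ENNReal.ofReal_le_ofReal
        have e : C₀ * 3 ^ Ew * (q * s) * (cB * 1 ^ (n + 1) / q) = C₀ * 3 ^ Ew * cB * s := by
          rw [one_pow]; field_simp
        rw [e]
        have : 0 ≤ cE * 3 ^ Ew * s := by positivity
        nlinarith

theorem an_vol_plank_sub (u : E n) (a b r : ℝ) (y : ST n) :
    volume {z : ST n | ‖BD.Lam u a b (y - z)‖ ≤ r} = volume {x : ST n | ‖BD.Lam u a b x‖ ≤ r} := by
  have := BD.bdlc_haar (V := E n)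
  have hm : MeasurableSet {x : ST n | ‖BD.Lam u a b x‖ ≤ r} :=
    (isClosed_le (an_cont_Lam u a b).norm continuous_const).measurableSet
  have h := (Measure.measurePreserving_sub_left (volume : Measure (ST n)) y).measure_preimage hm.nullMeasurableSet
  exact h

/-- **L-AN-P13** (150 l.) the same for the masses (Tonelli): `‖Lam (y - z)‖ ≤ r`, `‖Lam' (z - z₁)‖ ≤ 1` ⟹ `‖Lam' (y - z₁)‖ ≤ 1 + r/κ`;  `vol {z | ‖Lam (y - z)‖ ≤ r} = cB r^{n+1}/(a^n b)`. -/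
theorem an_M_avg (u u' : E n) (a b a' b' κ r : ℝ) (ha : 0 < a) (hb : 0 < b) (ha' : 0 < a') (hb' : 0 < b') (hκ : 0 < κ) (hr : 0 < r)
    (hcmp : ∀ w, κ * ‖BD.Lam u' a' b' w‖ ≤ ‖BD.Lam u a b w‖) (ν : Measure (ST n)) [SFinite ν] (z₁ : ST n) :
    ∫⁻ z in {z | ‖BD.Lam u' a' b' (z - z₁)‖ ≤ 1}, anM u a b r ν z ≤
      ENNReal.ofReal (r ^ (n + 1)) * volume {x : ST n | ‖BD.Lam u' a' b' x‖ ≤ 1} * anM u' a' b' (1 + r / κ) ν z₁ := by
  obtain ⟨cB, hcB, hvol⟩ := an_vol_plank n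
  have hab : 0 < a ^ n * b := by positivity
  have hab' : 0 < a' ^ n * b' := by positivity
  set P' : Set (ST n) := {z | ‖BD.Lam u' a' b' (z - z₁)‖ ≤ 1} with hP'
  set T : Set (ST n) := {y | ‖BD.Lam u' a' b' (y - z₁)‖ ≤ 1 + r / κ} with hT
  have hTm : MeasurableSet T :=
    (isClosed_le ((an_cont_Lam u' a' b').comp (continuous_id.sub continuous_const)).norm continuous_const).measurableSet
  set S : Set (ST n × ST n) := {p | ‖BD.Lam u a b (p.2 - p.1)‖ ≤ r} with hS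
  have hSm : MeasurableSet S :=
    (isClosed_le ((an_cont_Lam u a b).comp (continuous_snd.sub continuous_fst)).norm continuous_const).measurableSet
  have e1 : ∀ z, ν {y | ‖BD.Lam u a b (y - z)‖ ≤ r} = ∫⁻ y, S.indicator 1 (z, y) ∂ν := by
    intro z
    have hm : MeasurableSet {y | ‖BD.Lam u a b (y - z)‖ ≤ r} :=
      (isClosed_le ((an_cont_Lam u a b).comp (continuous_id.sub continuous_const)).norm continuous_const).measurableSet
    rw [← lintegral_indicator_one hm]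
    rfl
  unfold anM
  rw [lintegral_const_mul' _ _ ENNReal.ofReal_ne_top]
  simp_rw [e1]
  rw [lintegral_lintegral_swap (f := fun z y => S.indicator 1 (z, y)) ((measurable_one.indicator hSm).aemeasurable)]
  have key : ∀ y, ∫⁻ z in P', S.indicator 1 (z, y) ≤ T.indicator 1 y * ENNReal.ofReal (cB * r ^ (n + 1) / (a ^ n * b)) := by
    intro y
    by_cases hy : y ∈ T
    · rw [indicator_of_mem hy, Pi.one_apply, one_mul, ← hvol u a b r ha hb hr, ← an_vol_plank_sub u a b r y]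
      have hm : MeasurableSet {z | ‖BD.Lam u a b (y - z)‖ ≤ r} :=
        (isClosed_le ((an_cont_Lam u a b).comp (continuous_const.sub continuous_id)).norm continuous_const).measurableSet
      rw [← lintegral_indicator_one hm]
      exact (setLIntegral_le_lintegral _ _).trans (le_of_eq rfl)
    · rw [indicator_of_notMem hy, zero_mul, nonpos_iff_eq_zero]
      have hPm : MeasurableSet P' :=
        (isClosed_le ((an_cont_Lam u' a' b').comp (continuous_id.sub continuous_const)).norm continuous_const).measurableSet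
      rw [setLIntegral_congr_fun (g := fun _ => 0) hPm, lintegral_zero]
      intro z hz
      apply indicator_of_notMem
      intro hzy
      apply hy
      have h1 : ‖BD.Lam u a b (y - z)‖ ≤ r := hzy
      have h2 : ‖BD.Lam u' a' b' (z - z₁)‖ ≤ 1 := hz
      have h3 := hcmp (y - z)
      have h4 : ‖BD.Lam u' a' b' (y - z)‖ ≤ r / κ := by
        rw [le_div_iff₀ hκ]; linarith
      have h5 : BD.Lam u' a' b' (y - z₁) = BD.Lam u' a' b' (y - z) + BD.Lam u' a' b' (z - z₁) := by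
        rw [BD.bdlc_Lam_sub, BD.bdlc_Lam_sub, BD.bdlc_Lam_sub]; abel
      show ‖BD.Lam u' a' b' (y - z₁)‖ ≤ 1 + r / κ
      rw [h5]
      exact (norm_add_le _ _).trans (by linarith)
  calc ENNReal.ofReal (a ^ n * b) * ∫⁻ y, (∫⁻ z in P', S.indicator 1 (z, y)) ∂ν
      ≤ ENNReal.ofReal (a ^ n * b) * ∫⁻ y, T.indicator 1 y * ENNReal.ofReal (cB * r ^ (n + 1) / (a ^ n * b)) ∂ν :=
        mul_le_mul_right (lintegral_mono key) _
    _ = ENNReal.ofReal (r ^ (n + 1)) * volume {x : ST n | ‖BD.Lam u' a' b' x‖ ≤ 1} * (ENNReal.ofReal (a' ^ n * b') * ν T) := by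
        rw [lintegral_mul_const' _ _ ENNReal.ofReal_ne_top, lintegral_indicator_one hTm, hvol u' a' b' 1 ha' hb' one_pos]
        have e2 : ENNReal.ofReal (a ^ n * b) * ENNReal.ofReal (cB * r ^ (n + 1) / (a ^ n * b)) = ENNReal.ofReal (cB * r ^ (n + 1)) := by
          rw [← ENNReal.ofReal_mul hab.le]
          congr 1
          field_simp
        have e3 : ENNReal.ofReal (r ^ (n + 1)) * ENNReal.ofReal (cB * 1 ^ (n + 1) / (a' ^ n * b')) * ENNReal.ofReal (a' ^ n * b') = ENNReal.ofReal (cB * r ^ (n + 1)) := by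
          rw [← ENNReal.ofReal_mul (by positivity), ← ENNReal.ofReal_mul (by positivity)]
          congr 1
          field_simp
          ring
        calc _ = (ENNReal.ofReal (a ^ n * b) * ENNReal.ofReal (cB * r ^ (n + 1) / (a ^ n * b))) * ν T := by ring
          _ = (ENNReal.ofReal (r ^ (n + 1)) * ENNReal.ofReal (cB * 1 ^ (n + 1) / (a' ^ n * b')) * ENNReal.ofReal (a' ^ n * b')) * ν T := by rw [e2, e3]
          _ = _ := by ring

/-- **L-AN-P14** (200 l.) **COARSENING.**  `an_abs_avg` with `χ = (vol P')⁻¹ 1_{P'}`, `f₁ = anM`, `f₂ = anN`; `an_M_avg`; Tonelli + `an_tw_conv` for `∫ anN z χ(z - z₁) dz = ∫ |F y|^P (tw * χ)(y - z₁) dy`. -/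
theorem an_coarsen (n : ℕ) (bb Ew r C₀ : ℝ) (hb0 : 0 < bb) (hb1 : bb < 1) (hE : (n : ℝ) + 1 < Ew) (hr : 0 < r) (hC₀ : 0 ≤ C₀) :
    ∃ A : ℝ, ∀ (u u' : E n) (a b a' b' κ : ℝ) (F : ST n → ℂ) (ν : Measure (ST n)) [SFinite ν], 0 < a → 0 < b → 0 < a' → 0 < b' → 0 < κ →
      (∀ w, κ * ‖BD.Lam u' a' b' w‖ ≤ ‖BD.Lam u a b w‖) → a ^ n * b ≤ C₀ * κ ^ Ew * (a' ^ n * b') → Continuous F →
      anPhi bb Ew r u a b F ν ≤ ENNReal.ofReal A * anPhi bb Ew (1 + r / κ) u' a' b' F ν := by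
  obtain ⟨A₁, hA₁⟩ := an_tw_conv n Ew C₀ hE hC₀
  obtain ⟨cB, hcB, hvol⟩ := an_vol_plank n
  refine ⟨(r ^ (n + 1)) ^ bb * (max A₁ 0) ^ (1 - bb), fun u u' a b a' b' κ F ν _ ha hb ha' hb' hκ hcmp hC hF => ?_⟩
  have := BD.bdlc_haar (V := E n)
  have h1b : 0 < 1 - bb := by linarith
  set P' : Set (ST n) := {x | ‖BD.Lam u' a' b' x‖ ≤ 1} with hP'
  have hPm : MeasurableSet P' := (isClosed_le (an_cont_Lam u' a' b').norm continuous_const).measurableSet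
  set vP := volume P' with hvP
  have hvPe : vP = ENNReal.ofReal (cB * 1 ^ (n + 1) / (a' ^ n * b')) := hvol u' a' b' 1 ha' hb' one_pos
  have hvP0 : vP ≠ 0 := by
    rw [hvPe]
    exact (ENNReal.ofReal_pos.2 (by positivity)).ne'
  have hvPt : vP ≠ ∞ := by
    rw [hvPe]
    exact ENNReal.ofReal_ne_top
  set χ : ST n → ℝ≥0∞ := P'.indicator (fun _ => vP⁻¹) with hχ
  have hχm : Measurable χ := measurable_const.indicator hPm
  have hχ1 : ∫⁻ x, χ x = 1 := by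
    rw [hχ, lintegral_indicator hPm, setLIntegral_const, ENNReal.inv_mul_cancel hvP0 hvPt]
  set P := 2 / (1 - bb) with hP
  have hM := an_meas_M u a b r ν
  have hN := an_meas_N P Ew u a b F hF.measurable
  have h1 := an_abs_avg hb0.le hb1.le (anM u a b r ν) (anN P Ew u a b F) χ hM hN hχm hχ1
  unfold anPhi
  refine h1.trans ?_
  rw [← lintegral_const_mul' _ _ ENNReal.ofReal_ne_top]
  apply lintegral_mono
  intro z₁
  have hI1 : ∫⁻ z, anM u a b r ν z * χ (z - z₁) ≤ ENNReal.ofReal (r ^ (n + 1)) * anM u' a' b' (1 + r / κ) ν z₁ := by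
    have hSm : MeasurableSet {z : ST n | ‖BD.Lam u' a' b' (z - z₁)‖ ≤ 1} :=
      (isClosed_le ((an_cont_Lam u' a' b').comp (continuous_id.sub continuous_const)).norm continuous_const).measurableSet
    have e : ∀ z, anM u a b r ν z * χ (z - z₁) = vP⁻¹ * ({z : ST n | ‖BD.Lam u' a' b' (z - z₁)‖ ≤ 1}.indicator (anM u a b r ν) z) := by
      intro z
      by_cases hz : ‖BD.Lam u' a' b' (z - z₁)‖ ≤ 1
      · have hz' : z - z₁ ∈ P' := hz
        rw [hχ, indicator_of_mem hz', indicator_of_mem (show z ∈ {z : ST n | ‖BD.Lam u' a' b' (z - z₁)‖ ≤ 1} from hz), mul_comm]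
      · have hz' : z - z₁ ∉ P' := hz
        rw [hχ, indicator_of_notMem hz', indicator_of_notMem (show z ∉ {z : ST n | ‖BD.Lam u' a' b' (z - z₁)‖ ≤ 1} from hz), mul_zero, mul_zero]
    simp_rw [e]
    rw [lintegral_const_mul' _ _ (ENNReal.inv_ne_top.2 hvP0), lintegral_indicator hSm]
    calc vP⁻¹ * ∫⁻ z in {z : ST n | ‖BD.Lam u' a' b' (z - z₁)‖ ≤ 1}, anM u a b r ν z
        ≤ vP⁻¹ * (ENNReal.ofReal (r ^ (n + 1)) * vP * anM u' a' b' (1 + r / κ) ν z₁) :=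
          mul_le_mul_right (an_M_avg u u' a b a' b' κ r ha hb ha' hb' hκ hr hcmp ν z₁) _
      _ = (vP⁻¹ * vP) * (ENNReal.ofReal (r ^ (n + 1)) * anM u' a' b' (1 + r / κ) ν z₁) := by ring
      _ = _ := by rw [ENNReal.inv_mul_cancel hvP0 hvPt, one_mul]
  have hI2 : ∫⁻ z, anN P Ew u a b F z * χ (z - z₁) ≤ ENNReal.ofReal A₁ * anN P Ew u' a' b' F z₁ := by
    unfold anN
    have hm1 : ∀ z, Measurable fun y => ‖F y‖ₑ ^ P * BD.tw Ew u a b (y - z) := fun z =>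
      (hF.measurable.enorm.pow_const _).mul ((BD.measurable_tw Ew u a b).comp (measurable_id.sub measurable_const))
    have e1 : ∀ z, (∫⁻ y, ‖F y‖ₑ ^ P * BD.tw Ew u a b (y - z)) * χ (z - z₁) = ∫⁻ y, ‖F y‖ₑ ^ P * BD.tw Ew u a b (y - z) * χ (z - z₁) := by
      intro z
      rw [lintegral_mul_const _ (hm1 z)]
    simp_rw [e1]
    have hm2 : Measurable (Function.uncurry fun (z y : ST n) => ‖F y‖ₑ ^ P * BD.tw Ew u a b (y - z) * χ (z - z₁)) := by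
      apply Measurable.mul
      · apply Measurable.mul
        · exact (hF.measurable.comp measurable_snd).enorm.pow_const _
        · exact (BD.measurable_tw Ew u a b).comp (measurable_snd.sub measurable_fst)
      · exact hχm.comp (measurable_fst.sub measurable_const)
    rw [lintegral_lintegral_swap hm2.aemeasurable, ← lintegral_const_mul' _ _ ENNReal.ofReal_ne_top]
    apply lintegral_mono
    intro y
    have e2 : ∀ z, ‖F y‖ₑ ^ P * BD.tw Ew u a b (y - z) * χ (z - z₁) = ‖F y‖ₑ ^ P * (BD.tw Ew u a b (y - z) * χ (z - z₁)) := fun z => by ring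
    simp_rw [e2]
    have hm3 : Measurable fun z => BD.tw Ew u a b (y - z) * χ (z - z₁) :=
      ((BD.measurable_tw Ew u a b).comp (measurable_const.sub measurable_id)).mul (hχm.comp (measurable_id.sub measurable_const))
    rw [lintegral_const_mul _ hm3]
    have e3 : ∫⁻ z, BD.tw Ew u a b (y - z) * χ (z - z₁) = ∫⁻ x, BD.tw Ew u a b (y - z₁ - x) * χ x := by
      rw [← lintegral_add_right_eq_self (fun z => BD.tw Ew u a b (y - z) * χ (z - z₁)) z₁]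
      refine lintegral_congr fun x => ?_
      have e4 : y - (x + z₁) = y - z₁ - x := by abel
      have e5 : x + z₁ - z₁ = x := by abel
      simp only [e4, e5]
    have e6 : ∫⁻ x, BD.tw Ew u a b (y - z₁ - x) * χ x = (∫⁻ x in P', BD.tw Ew u a b (y - z₁ - x)) * vP⁻¹ := by
      have e7 : ∀ x, BD.tw Ew u a b (y - z₁ - x) * χ x = P'.indicator (fun x => BD.tw Ew u a b (y - z₁ - x) * vP⁻¹) x := by
        intro x
        by_cases hx : x ∈ P'
        · rw [hχ, indicator_of_mem hx, indicator_of_mem hx]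
        · rw [hχ, indicator_of_notMem hx, indicator_of_notMem hx, mul_zero]
      simp_rw [e7]
      rw [lintegral_indicator hPm, lintegral_mul_const' _ _ (ENNReal.inv_ne_top.2 hvP0)]
    rw [e3, e6]
    calc ‖F y‖ₑ ^ P * ((∫⁻ x in P', BD.tw Ew u a b (y - z₁ - x)) * vP⁻¹)
        ≤ ‖F y‖ₑ ^ P * ((ENNReal.ofReal A₁ * vP * BD.tw Ew u' a' b' (y - z₁)) * vP⁻¹) :=
          mul_le_mul_right (mul_le_mul_left (hA₁ u u' a b a' b' κ ha hb ha' hb' hκ hcmp hC (y - z₁)) _) _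
      _ = (vP * vP⁻¹) * (ENNReal.ofReal A₁ * (‖F y‖ₑ ^ P * BD.tw Ew u' a' b' (y - z₁))) := by ring
      _ = _ := by rw [ENNReal.mul_inv_cancel hvP0 hvPt, one_mul]
  calc (∫⁻ z, anM u a b r ν z * χ (z - z₁)) ^ bb * (∫⁻ z, anN P Ew u a b F z * χ (z - z₁)) ^ (1 - bb)
      ≤ (ENNReal.ofReal (r ^ (n + 1)) * anM u' a' b' (1 + r / κ) ν z₁) ^ bb * (ENNReal.ofReal A₁ * anN P Ew u' a' b' F z₁) ^ (1 - bb) :=
        mul_le_mul' (ENNReal.rpow_le_rpow hI1 hb0.le) (ENNReal.rpow_le_rpow hI2 h1b.le)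
    _ = _ := by
      rw [ENNReal.mul_rpow_of_nonneg _ _ hb0.le, ENNReal.mul_rpow_of_nonneg _ _ h1b.le, ENNReal.ofReal_mul (by positivity),
        ← ENNReal.ofReal_rpow_of_nonneg (by positivity) hb0.le, ← ENNReal.ofReal_rpow_of_nonneg (le_max_right _ _) h1b.le]
      have e8 : ENNReal.ofReal (max A₁ 0) = ENNReal.ofReal A₁ := by
        rcases le_total A₁ 0 with h | h
        · rw [max_eq_right h, ENNReal.ofReal_zero, ENNReal.ofReal_of_nonpos h]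
        · rw [max_eq_left h]
      rw [e8]
      ring

/-! ## start, recombination, errors, change of variables, back to cubes -/

theorem an_N_eq_avp (P Ew : ℝ) (F : ST n → ℂ) (z : ST n) : anN P Ew 0 1 1 F z = BD.avp P Ew 1 F z := by
  unfold anN BD.avp BD.tw BD.wt
  rw [Real.one_rpow, ENNReal.ofReal_one, one_mul]
  refine lintegral_congr fun y => ?_
  rw [BD.bdlc_Lam_one, one_pow, one_mul, one_mul, div_one]

theorem an_M_eq_ball (ν : Measure (ST n)) (z : ST n) : anM 0 1 1 1 ν z = ν (closedBall z 1) := by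
  unfold anM
  rw [one_pow, one_mul, ENNReal.ofReal_one, one_mul]
  congr 1
  ext y
  rw [Set.mem_ofPred_eq, BD.bdlc_Lam_one, mem_closedBall, dist_eq_norm]

/-- **L-AN-P15** (250 l.) **START** (H angular.tex l.108-120).  `G z := anN P Ew 0 1 1 F z`.  `BD.loc_const_ball` (`t = P`, `r = 1`, `M = Ew`): `|F y|^P ≤ A₁ G y`;  Peetre: `G y ≤ 2^Ew G z` for `‖z - y‖ ≤ 1`;
`∫ |F|² dν ≤ C ∫ dν(y) ⨍_{B(y,1)} G(z)^(1-bb) dz = C' ∫ G(z)^(1-bb) ν(B(z,1)) dz` (Tonelli) and `ν(B) ≤ ν(B)^bb ϰ^(1-bb)`. -/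
theorem an_start (n : ℕ) (bb Ew C : ℝ) (hb0 : 0 < bb) (hb1 : bb < 1) (hE : (n : ℝ) + 1 < Ew) :
    ∃ A : ℝ, ∀ (F : ST n → ℂ) (ν : Measure (ST n)) [SFinite ν] (ϰ : ℝ≥0∞), BD.FS (closedBall 0 C) F → (∀ z, ν (closedBall z 1) ≤ ϰ) →
      ∫⁻ z, ‖F z‖ₑ ^ 2 ∂ν ≤ ENNReal.ofReal A * ϰ ^ (1 - bb) * anPhi bb Ew 1 0 1 1 F ν := by
  have h1b : 0 < 1 - bb := by linarith
  set P := 2 / (1 - bb) with hP
  have hP1 : 1 ≤ P := by
    rw [hP, le_div_iff₀ h1b]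
    linarith
  have hPb : P * (1 - bb) = 2 := by
    rw [hP]
    field_simp
  have hfr : Module.finrank ℝ (E n) = n := finrank_euclideanSpace_fin
  have hdd : (BD.dd (E n) : ℝ) < Ew := by
    unfold BD.dd
    rw [hfr]
    push_cast
    exact hE
  have hEw : 0 < Ew := by
    have : (0:ℝ) ≤ n := Nat.cast_nonneg n
    linarith
  obtain ⟨A₁, hA₁⟩ := BD.loc_const_ball (V := E n) C Ew P hP1 hdd
  obtain ⟨cV, hcV, hvol⟩ := BD.exists_volume_closedBall (V := E n)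
  refine ⟨(max A₁ 0) ^ (1 - bb) * ((1 + 1) ^ Ew) ^ (1 - bb) * cV⁻¹, fun F ν _ ϰ hF hϰ => ?_⟩
  have hFc : Continuous F := hF.continuous
  set G : ST n → ℝ≥0∞ := anN P Ew 0 1 1 F with hG
  have hGm : Measurable G := an_meas_N P Ew 0 1 1 F hFc.measurable
  have e8 : ENNReal.ofReal (max A₁ 0) = ENNReal.ofReal A₁ := by
    rcases le_total A₁ 0 with h | h
    · rw [max_eq_right h, ENNReal.ofReal_zero, ENNReal.ofReal_of_nonpos h]
    · rw [max_eq_left h]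
  -- step 1
  have s1 : ∀ y, ‖F y‖ₑ ^ 2 ≤ ENNReal.ofReal ((max A₁ 0) ^ (1 - bb)) * G y ^ (1 - bb) := by
    intro y
    have h := hA₁ 1 0 F one_pos (by rwa [div_one]) y
    rw [← an_N_eq_avp] at h
    have h2 := ENNReal.rpow_le_rpow h h1b.le
    rw [← ENNReal.rpow_mul, hPb, ENNReal.mul_rpow_of_nonneg _ _ h1b.le, ← e8, ENNReal.ofReal_rpow_of_nonneg (le_max_right _ _) h1b.le] at h2
    rw [← ENNReal.rpow_natCast]
    exact_mod_cast h2
  -- step 2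
  have s2 : ∀ y z, ‖z - y‖ ≤ 1 → G y ^ (1 - bb) ≤ ENNReal.ofReal (((1 + 1) ^ Ew) ^ (1 - bb)) * G z ^ (1 - bb) := by
    intro y z hzy
    have h := BD.avp_shift (t := P) (E := Ew) (R := 1) (A := 1) hEw.le one_pos zero_le_one F (z := z) (z' := y) (by rwa [one_mul])
    rw [← an_N_eq_avp, ← an_N_eq_avp] at h
    have h2 := ENNReal.rpow_le_rpow h h1b.le
    rwa [ENNReal.mul_rpow_of_nonneg _ _ h1b.le, ENNReal.ofReal_rpow_of_nonneg (by positivity) h1b.le] at h2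
  have hvB : ∀ y : ST n, volume (closedBall y 1) = ENNReal.ofReal cV := by
    intro y
    rw [hvol y 1 one_pos, Real.one_rpow, mul_one]
  -- step 2': averaging
  have s3 : ∀ y, G y ^ (1 - bb) ≤ ENNReal.ofReal (((1 + 1) ^ Ew) ^ (1 - bb) * cV⁻¹) * ∫⁻ z in closedBall y 1, G z ^ (1 - bb) := by
    intro y
    have h : ∫⁻ z in closedBall y 1, G y ^ (1 - bb) ≤ ∫⁻ z in closedBall y 1, ENNReal.ofReal (((1 + 1) ^ Ew) ^ (1 - bb)) * G z ^ (1 - bb) := by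
      refine setLIntegral_mono ((hGm.pow_const _).const_mul _) fun z hz => s2 y z ?_
      rwa [mem_closedBall, dist_eq_norm] at hz
    rw [setLIntegral_const, hvB, lintegral_const_mul' _ _ ENNReal.ofReal_ne_top] at h
    calc G y ^ (1 - bb) = ENNReal.ofReal cV⁻¹ * (G y ^ (1 - bb) * ENNReal.ofReal cV) := by
          rw [mul_comm (G y ^ (1 - bb)), ← mul_assoc, ← ENNReal.ofReal_mul (by positivity), inv_mul_cancel₀ hcV.ne', ENNReal.ofReal_one, one_mul]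
      _ ≤ ENNReal.ofReal cV⁻¹ * (ENNReal.ofReal (((1 + 1) ^ Ew) ^ (1 - bb)) * ∫⁻ z in closedBall y 1, G z ^ (1 - bb)) := mul_le_mul_right h _
      _ = _ := by
          rw [ENNReal.ofReal_mul (by positivity)]
          ring
  set S : Set (ST n × ST n) := {p | dist p.2 p.1 ≤ 1} with hS
  have hSm : MeasurableSet S := (isClosed_le (continuous_snd.dist continuous_fst) continuous_const).measurableSet
  have e1 : ∀ y, ∫⁻ z in closedBall y 1, G z ^ (1 - bb) = ∫⁻ z, S.indicator (fun p => G p.2 ^ (1 - bb)) (y, z) := by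
    intro y
    rw [← lintegral_indicator measurableSet_closedBall]
    refine lintegral_congr fun z => ?_
    by_cases hz : dist z y ≤ 1
    · rw [indicator_of_mem (show z ∈ closedBall y 1 from hz), indicator_of_mem (show (y, z) ∈ S from hz)]
    · rw [indicator_of_notMem (show z ∉ closedBall y 1 from hz), indicator_of_notMem (show (y, z) ∉ S from hz)]
  have e3 : ∀ z, ∫⁻ y, S.indicator (fun p => G p.2 ^ (1 - bb)) (y, z) ∂ν = G z ^ (1 - bb) * ν (closedBall z 1) := by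
    intro z
    rw [← lintegral_indicator_const measurableSet_closedBall]
    refine lintegral_congr fun y => ?_
    by_cases hz : dist z y ≤ 1
    · rw [indicator_of_mem (show y ∈ closedBall z 1 from by rwa [mem_closedBall, dist_comm]), indicator_of_mem (show (y, z) ∈ S from hz)]
    · rw [indicator_of_notMem (show y ∉ closedBall z 1 from by rwa [mem_closedBall, dist_comm]), indicator_of_notMem (show (y, z) ∉ S from hz)]
  have hm : Measurable (S.indicator (fun p : ST n × ST n => G p.2 ^ (1 - bb))) :=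
    ((hGm.comp measurable_snd).pow_const _).indicator hSm
  have e4 : ∀ z, G z ^ (1 - bb) * ν (closedBall z 1) ≤ ϰ ^ (1 - bb) * (anM 0 1 1 1 ν z ^ bb * G z ^ (1 - bb)) := by
    intro z
    rw [an_M_eq_ball]
    have h : ν (closedBall z 1) = ν (closedBall z 1) ^ bb * ν (closedBall z 1) ^ (1 - bb) := by
      rw [← ENNReal.rpow_add_of_nonneg _ _ hb0.le h1b.le, add_sub_cancel, ENNReal.rpow_one]
    calc G z ^ (1 - bb) * ν (closedBall z 1) = G z ^ (1 - bb) * (ν (closedBall z 1) ^ bb * ν (closedBall z 1) ^ (1 - bb)) := by rw [← h]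
      _ ≤ G z ^ (1 - bb) * (ν (closedBall z 1) ^ bb * ϰ ^ (1 - bb)) :=
          mul_le_mul_right (mul_le_mul_right (ENNReal.rpow_le_rpow (hϰ z) h1b.le) _) _
      _ = _ := by ring
  calc ∫⁻ y, ‖F y‖ₑ ^ 2 ∂ν
      ≤ ∫⁻ y, ENNReal.ofReal ((max A₁ 0) ^ (1 - bb)) * (ENNReal.ofReal (((1 + 1) ^ Ew) ^ (1 - bb) * cV⁻¹) * ∫⁻ z, S.indicator (fun p => G p.2 ^ (1 - bb)) (y, z)) ∂ν := by
        refine lintegral_mono fun y => (s1 y).trans (mul_le_mul_right ?_ _)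
        rw [← e1]
        exact s3 y
    _ = ENNReal.ofReal ((max A₁ 0) ^ (1 - bb)) * (ENNReal.ofReal (((1 + 1) ^ Ew) ^ (1 - bb) * cV⁻¹) * ∫⁻ y, (∫⁻ z, S.indicator (fun p => G p.2 ^ (1 - bb)) (y, z)) ∂ν) := by
        rw [lintegral_const_mul' _ _ ENNReal.ofReal_ne_top, lintegral_const_mul' _ _ ENNReal.ofReal_ne_top]
    _ = ENNReal.ofReal ((max A₁ 0) ^ (1 - bb)) * (ENNReal.ofReal (((1 + 1) ^ Ew) ^ (1 - bb) * cV⁻¹) * ∫⁻ z, G z ^ (1 - bb) * ν (closedBall z 1)) := by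
        rw [lintegral_lintegral_swap (f := fun y z => S.indicator (fun p => G p.2 ^ (1 - bb)) (y, z)) hm.aemeasurable]
        simp_rw [e3]
    _ ≤ ENNReal.ofReal ((max A₁ 0) ^ (1 - bb)) * (ENNReal.ofReal (((1 + 1) ^ Ew) ^ (1 - bb) * cV⁻¹) * ∫⁻ z, ϰ ^ (1 - bb) * (anM 0 1 1 1 ν z ^ bb * G z ^ (1 - bb))) :=
        mul_le_mul_right (mul_le_mul_right (lintegral_mono e4) _) _
    _ = _ := by
        have hmm : Measurable fun z => anM 0 1 1 1 ν z ^ bb * G z ^ (1 - bb) :=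
          ((an_meas_M 0 1 1 1 ν).pow_const _).mul (hGm.pow_const _)
        rw [lintegral_const_mul _ hmm]
        have eA : ENNReal.ofReal ((max A₁ 0) ^ (1 - bb) * ((1 + 1) ^ Ew) ^ (1 - bb) * cV⁻¹)
            = ENNReal.ofReal ((max A₁ 0) ^ (1 - bb)) * ENNReal.ofReal (((1 + 1) ^ Ew) ^ (1 - bb) * cV⁻¹) := by
          rw [mul_assoc, ENNReal.ofReal_mul (by positivity)]
        have eP : anPhi bb Ew 1 0 1 1 F ν = ∫⁻ z, anM 0 1 1 1 ν z ^ bb * G z ^ (1 - bb) := rfl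
        rw [eA, eP]
        ring

theorem an_mem_cubeS_iff {a : ℝ} (ha : 0 < a) (z : ST n) (k : (Fin n → ℤ) × ℤ) : z ∈ cubeS a k ↔ bigc a z = k := by
  have key : ∀ (x : ℝ) (j : ℤ), (a * (j : ℝ) ≤ x ∧ x < a * ((j : ℝ) + 1)) ↔ ⌊x / a⌋ = j := by
    intro x j
    rw [Int.floor_eq_iff, le_div_iff₀ ha, div_lt_iff₀ ha, mul_comm (j : ℝ) a, mul_comm ((j : ℝ) + 1) a]
  unfold cubeS bigc
  rw [Set.mem_ofPred_eq, Prod.ext_iff, funext_iff]
  simp only [key]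

theorem an_meas_cubeS (a : ℝ) (k : (Fin n → ℤ) × ℤ) : MeasurableSet (cubeS a k : Set (ST n)) := by
  have h1 : ∀ i : Fin n, Measurable fun z : ST n => z.1 i := fun i =>
    ((EuclideanSpace.proj i : E n →L[ℝ] ℝ).continuous.comp continuous_fst).measurable
  have e : (cubeS a k : Set (ST n)) = (⋂ i : Fin n, ({z : ST n | a * (k.1 i : ℝ) ≤ z.1 i} ∩ {z : ST n | z.1 i < a * (k.1 i + 1)})) ∩
      ({z : ST n | a * (k.2 : ℝ) ≤ z.2} ∩ {z : ST n | z.2 < a * (k.2 + 1)}) := by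
    ext z
    simp [cubeS]
  rw [e]
  refine MeasurableSet.inter (MeasurableSet.iInter fun i => MeasurableSet.inter ?_ ?_) (MeasurableSet.inter ?_ ?_)
  · exact measurableSet_le measurable_const (h1 i)
  · exact measurableSet_lt (h1 i) measurable_const
  · exact measurableSet_le measurable_const measurable_snd
  · exact measurableSet_lt measurable_snd measurable_const

theorem an_floor_close {p q C : ℝ} (h : |p - q| ≤ C) : -(⌈C⌉ + 1) ≤ ⌊p⌋ - ⌊q⌋ ∧ ⌊p⌋ - ⌊q⌋ ≤ ⌈C⌉ + 1 := by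
  have h1 := Int.floor_le p
  have h2 := Int.lt_floor_add_one p
  have h3 := Int.floor_le q
  have h4 := Int.lt_floor_add_one q
  have h5 := Int.le_ceil C
  rw [abs_le] at h
  constructor
  · have : (-((⌈C⌉ : ℝ) + 1)) < (⌊p⌋ : ℝ) - ⌊q⌋ + 1 := by linarith [h.1, h.2]
    have h6 : -(⌈C⌉ + 1) < ⌊p⌋ - ⌊q⌋ + 1 := by exact_mod_cast this
    omega
  · have : (⌊p⌋ : ℝ) - ⌊q⌋ < (⌈C⌉ : ℝ) + 1 := by linarith [h.1, h.2]
    have h6 : ⌊p⌋ - ⌊q⌋ < ⌈C⌉ + 1 := by exact_mod_cast this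
    omega

theorem an_recomb_pt (n : ℕ) (bb C : ℝ) (hb0 : 0 < bb) (hb1 : bb < 1) :
    ∃ N : ℕ, ∀ (ℓ : ℝ) (ν : Measure (ST n)) (S : Set (ST n)) (z : ST n), 0 < ℓ → (∀ y ∈ S, ‖y - z‖ ≤ C * ℓ) →
      ∑' κ : (Fin n → ℤ) × ℤ, ν (S ∩ cubeS ℓ κ) ^ bb ≤ (N : ℝ≥0∞) ^ (1 - bb) * ν S ^ bb := by
  classical
  set M : (Fin n → ℤ) × ℤ := (fun _ => ⌈C⌉ + 1, ⌈C⌉ + 1) with hM
  set D : Finset ((Fin n → ℤ) × ℤ) := Finset.Icc (-M) M with hD
  refine ⟨D.card, fun ℓ ν S z hℓ hS => ?_⟩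
  set κ₀ := bigc ℓ z with hκ₀
  set T : Finset ((Fin n → ℤ) × ℤ) := D.image (fun δ => κ₀ + δ) with hT
  have hout : ∀ κ ∉ T, ν (S ∩ cubeS ℓ κ) ^ bb = 0 := by
    intro κ hκ
    have : S ∩ cubeS ℓ κ = ∅ := by
      rw [Set.eq_empty_iff_forall_notMem]
      rintro y ⟨hyS, hyκ⟩
      apply hκ
      rw [an_mem_cubeS_iff hℓ] at hyκ
      rw [hT, Finset.mem_image]
      refine ⟨κ - κ₀, ?_, by abel⟩
      have hy := hS y hyS
      have hy1 : ‖(y - z).1‖ ≤ C * ℓ := (norm_fst_le _).trans hy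
      have hy2 : ‖(y - z).2‖ ≤ C * ℓ := (norm_snd_le _).trans hy
      have hc : ∀ p q : ℝ, |p - q| ≤ C * ℓ → |p / ℓ - q / ℓ| ≤ C := by
        intro p q h
        rw [← sub_div, abs_div, abs_of_pos hℓ, div_le_iff₀ hℓ]
        exact h
      have hi : ∀ i, |y.1 i - z.1 i| ≤ C * ℓ := by
        intro i
        have := EuclideanSpace.norm_eq (y - z).1
        have h2 : |(y - z).1 i| ≤ ‖(y - z).1‖ := by
          have := PiLp.norm_apply_le (p := 2) (y - z).1 i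
          simpa using this
        exact h2.trans hy1
      rw [hD, Finset.mem_Icc, ← hyκ]
      constructor
      · refine ⟨fun i => ?_, ?_⟩
        · exact (an_floor_close (hc _ _ (hi i))).1
        · exact (an_floor_close (hc _ _ hy2)).1
      · refine ⟨fun i => ?_, ?_⟩
        · exact (an_floor_close (hc _ _ (hi i))).2
        · exact (an_floor_close (hc _ _ hy2)).2
    rw [this, measure_empty, ENNReal.zero_rpow_of_pos hb0]
  rw [tsum_eq_sum hout]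
  have h1 := BD.abs_holder_sum hb0.le hb1.le T (fun κ => ν (S ∩ cubeS ℓ κ)) (fun _ => 1)
  simp only [ENNReal.one_rpow, mul_one, Finset.sum_const, nsmul_eq_mul] at h1
  refine h1.trans ?_
  rw [mul_comm]
  have h2 : ∑ κ ∈ T, ν (S ∩ cubeS ℓ κ) ≤ ν S := by
    have e : ∀ κ, ν (S ∩ cubeS ℓ κ) = (ν.restrict S) (cubeS ℓ κ) := fun κ => by
      rw [Measure.restrict_apply (an_meas_cubeS ℓ κ), inter_comm]
    simp_rw [e]
    rw [← measure_biUnion_finset (fun κ _ κ' _ hne => ?_) (fun κ _ => an_meas_cubeS ℓ κ)]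
    · exact (measure_mono (subset_univ _)).trans (le_of_eq (Measure.restrict_apply_univ S))
    · refine Set.disjoint_left.2 fun y h1 h2 => hne ?_
      rw [an_mem_cubeS_iff hℓ] at h1 h2
      exact h1.symm.trans h2
  have h3 : (T.card : ℝ≥0∞) ≤ D.card := by exact_mod_cast Finset.card_image_le
  exact mul_le_mul' (ENNReal.rpow_le_rpow h3 (by linarith)) (ENNReal.rpow_le_rpow h2 hb0.le)

/-- **L-AN-P16** (250 l.) **RECOMBINATION** (H angular.tex l.137-160).  A plank of diameter `≤ C ℓ` meets at most `N = (2C+3)^{n+1}` cubes of side `ℓ`; the cubes partition `ST n`;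
`∑_κ x_κ^bb ≤ N^(1-bb) (∑ x_κ)^bb` over the `≤ N` nonzero terms; `lintegral_tsum`. -/
theorem an_recomb (n : ℕ) (bb C : ℝ) (hb0 : 0 < bb) (hb1 : bb < 1) (hC : 0 ≤ C) :
    ∃ A : ℝ, ∀ (Ew r : ℝ) (u : E n) (a b ℓ : ℝ) (F : ST n → ℂ) (ν : Measure (ST n)) [SFinite ν], 0 < ℓ →
      (∀ y : ST n, ‖BD.Lam u a b y‖ ≤ r → ‖y‖ ≤ C * ℓ) → Continuous F →
      ∑' κ : (Fin n → ℤ) × ℤ, anPhi bb Ew r u a b F (ν.restrict (cubeS ℓ κ)) ≤ ENNReal.ofReal A * anPhi bb Ew r u a b F ν := by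
  obtain ⟨N, hN⟩ := an_recomb_pt n bb C hb0 hb1
  have h1b : 0 < 1 - bb := by linarith
  refine ⟨(N : ℝ) ^ (1 - bb), fun Ew r u a b ℓ F ν _ hℓ hd hF => ?_⟩
  unfold anPhi
  have hNm := an_meas_N (2 / (1 - bb)) Ew u a b F hF.measurable
  have hmm : ∀ κ : (Fin n → ℤ) × ℤ, AEMeasurable (fun z => anM u a b r (ν.restrict (cubeS ℓ κ)) z ^ bb * anN (2 / (1 - bb)) Ew u a b F z ^ (1 - bb)) volume :=
    fun κ => (((an_meas_M u a b r (ν.restrict (cubeS ℓ κ))).pow_const _).mul (hNm.pow_const _)).aemeasurable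
  rw [← lintegral_tsum hmm, ← lintegral_const_mul' _ _ ENNReal.ofReal_ne_top]
  apply lintegral_mono
  intro z
  beta_reduce
  rw [ENNReal.tsum_mul_right, ← mul_assoc]
  apply mul_le_mul_left
  unfold anM
  have hSm : MeasurableSet {y : ST n | ‖BD.Lam u a b (y - z)‖ ≤ r} :=
    (isClosed_le ((an_cont_Lam u a b).comp (continuous_id.sub continuous_const)).norm continuous_const).measurableSet
  have e : ∀ κ : (Fin n → ℤ) × ℤ, (ENNReal.ofReal (a ^ n * b) * (ν.restrict (cubeS ℓ κ)) {y : ST n | ‖BD.Lam u a b (y - z)‖ ≤ r}) ^ bb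
      = ENNReal.ofReal (a ^ n * b) ^ bb * ν ({y : ST n | ‖BD.Lam u a b (y - z)‖ ≤ r} ∩ cubeS ℓ κ) ^ bb := by
    intro κ
    rw [ENNReal.mul_rpow_of_nonneg _ _ hb0.le, Measure.restrict_apply hSm]
  simp_rw [e]
  rw [ENNReal.tsum_mul_left, ENNReal.mul_rpow_of_nonneg _ _ hb0.le, ← ENNReal.ofReal_rpow_of_nonneg (Nat.cast_nonneg N) h1b.le,
    ENNReal.ofReal_natCast]
  calc ENNReal.ofReal (a ^ n * b) ^ bb * ∑' κ : (Fin n → ℤ) × ℤ, ν ({y : ST n | ‖BD.Lam u a b (y - z)‖ ≤ r} ∩ cubeS ℓ κ) ^ bb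
      ≤ ENNReal.ofReal (a ^ n * b) ^ bb * ((N : ℝ≥0∞) ^ (1 - bb) * ν {y : ST n | ‖BD.Lam u a b (y - z)‖ ≤ r} ^ bb) :=
        mul_le_mul_right (hN ℓ ν _ z hℓ (fun y hy => hd _ hy)) _
    _ = _ := by ring

/-- the total integral of the normalised masses (Tonelli) -/
theorem an_M_total (cB : ℝ) (u : E n) (a b r : ℝ) (ha : 0 < a) (hb : 0 < b)
    (hvol : volume {y : ST n | ‖BD.Lam u a b y‖ ≤ r} = ENNReal.ofReal (cB * r ^ (n + 1) / (a ^ n * b)))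
    (ν : Measure (ST n)) [SFinite ν] : ∫⁻ z, anM u a b r ν z = ENNReal.ofReal (cB * r ^ (n + 1)) * ν univ := by
  have hab : 0 < a ^ n * b := by positivity
  have hSm : MeasurableSet {p : ST n × ST n | ‖BD.Lam u a b (p.2 - p.1)‖ ≤ r} :=
    (isClosed_le ((an_cont_Lam u a b).comp (continuous_snd.sub continuous_fst)).norm continuous_const).measurableSet
  have h1 : ∫⁻ z, ν {y | ‖BD.Lam u a b (y - z)‖ ≤ r} = (volume.prod ν) {p : ST n × ST n | ‖BD.Lam u a b (p.2 - p.1)‖ ≤ r} :=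
    (Measure.prod_apply hSm).symm
  have h2 : (volume.prod ν) {p : ST n × ST n | ‖BD.Lam u a b (p.2 - p.1)‖ ≤ r} =
      ∫⁻ y, volume {z : ST n | ‖BD.Lam u a b (y - z)‖ ≤ r} ∂ν := Measure.prod_apply_symm hSm
  unfold anM
  rw [lintegral_const_mul' _ _ ENNReal.ofReal_ne_top, h1, h2]
  simp only [an_vol_plank_sub, hvol]
  rw [lintegral_const, ← mul_assoc, ← ENNReal.ofReal_mul hab.le]
  congr 2
  field_simp

/-- **L-AN-P17** (200 l.) **SUP-SMALL FIELDS** (H angular.tex l.196-203: `∑_Q ν(Q)^b ≤ (#Q)^{1-b} M₀^b`).  `anN ≤ ε^P cE`;  `anM z = 0` unless `‖z - z₀‖ ≤ ρ₀ + d`;  `BD.abs_jensen` on that ball;  `∫ anM = cB r^{n+1} ν univ` (Tonelli, `an_vol_plank`). -/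
theorem an_phi_err (n : ℕ) (bb Ew r : ℝ) (hb0 : 0 < bb) (hb1 : bb < 1) (hE : (n : ℝ) + 1 < Ew) (hr : 0 < r) :
    ∃ A : ℝ, ∀ (u : E n) (a b : ℝ) (F : ST n → ℂ) (ν : Measure (ST n)) [SFinite ν] (ε ρ₀ d : ℝ) (z₀ : ST n), 0 < a → 0 < b → 0 ≤ ρ₀ → 0 ≤ d →
      (∀ z, ‖F z‖ ≤ ε) → ν {z | ρ₀ < ‖z - z₀‖} = 0 → (∀ y : ST n, ‖BD.Lam u a b y‖ ≤ r → ‖y‖ ≤ d) →
      anPhi bb Ew r u a b F ν ≤ ENNReal.ofReal (A * ε ^ 2 * (ρ₀ + d) ^ (((n : ℝ) + 1) * (1 - bb))) * ν univ ^ bb := by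
  have hH := BD.wt_haar (V := E n)
  have h1 : 0 < 1 - bb := by linarith
  have hP : 0 < 2 / (1 - bb) := by positivity
  have hfr : Module.finrank ℝ (E n) = n := finrank_euclideanSpace_fin
  have hdd : ((BD.dd (E n) : ℕ) : ℝ) = (n : ℝ) + 1 := by
    rw [BD.dd, hfr]
    push_cast
    ring
  obtain ⟨cE, hcE, htw⟩ := BD.exists_lintegral_tw (V := E n) (M := Ew) (by rw [hdd]; exact hE)
  obtain ⟨cB, hcB, hvol⟩ := an_vol_plank n
  have hvb : volume (ball (0 : ST n) 1) ≠ ∞ := measure_ball_lt_top.ne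
  refine ⟨cE ^ (1 - bb) * (cB * r ^ (n + 1)) ^ bb * (volume (ball (0 : ST n) 1)).toReal ^ (1 - bb), ?_⟩
  intro u a b F ν _ ε ρ₀ d z₀ ha hb hρ₀ hd hF hν hLam
  have hε : 0 ≤ ε := le_trans (norm_nonneg _) (hF 0)
  have hN : ∀ z, anN (2 / (1 - bb)) Ew u a b F z ^ (1 - bb) ≤ ENNReal.ofReal (ε ^ 2) * ENNReal.ofReal (cE ^ (1 - bb)) := by
    intro z
    have h2 : anN (2 / (1 - bb)) Ew u a b F z ≤ ENNReal.ofReal ε ^ (2 / (1 - bb)) * ENNReal.ofReal cE := by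
      unfold anN
      calc ∫⁻ y, ‖F y‖ₑ ^ (2 / (1 - bb)) * BD.tw Ew u a b (y - z)
          ≤ ∫⁻ y, ENNReal.ofReal ε ^ (2 / (1 - bb)) * BD.tw Ew u a b (y - z) := by
            refine lintegral_mono fun y => mul_le_mul' (ENNReal.rpow_le_rpow ?_ hP.le) le_rfl
            rw [← ofReal_norm]
            exact ENNReal.ofReal_le_ofReal (hF y)
        _ = ENNReal.ofReal ε ^ (2 / (1 - bb)) * ENNReal.ofReal cE := by
            rw [lintegral_const_mul' _ _ (ENNReal.rpow_ne_top_of_nonneg hP.le ENNReal.ofReal_ne_top),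
              lintegral_sub_right_eq_self (BD.tw Ew u a b) z, htw u a b ha hb]
    refine (ENNReal.rpow_le_rpow h2 h1.le).trans (le_of_eq ?_)
    rw [ENNReal.mul_rpow_of_nonneg _ _ h1.le, ← ENNReal.rpow_mul, ENNReal.ofReal_rpow_of_pos hcE]
    congr 1
    have e : 2 / (1 - bb) * (1 - bb) = ((2 : ℕ) : ℝ) := by
      push_cast
      field_simp
    rw [e, ENNReal.rpow_natCast, ENNReal.ofReal_pow hε]
  have hM0 : ∀ z, z ∉ closedBall z₀ (ρ₀ + d) → anM u a b r ν z = 0 := by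
    intro z hz
    rw [mem_closedBall, dist_eq_norm, not_le] at hz
    unfold anM
    have : ν {y | ‖BD.Lam u a b (y - z)‖ ≤ r} = 0 := by
      refine measure_mono_null ?_ hν
      intro y hy
      have h3 := hLam _ hy
      have h4 : ‖z - z₀‖ ≤ ‖y - z₀‖ + ‖y - z‖ := by
        have e : z - z₀ = (y - z₀) - (y - z) := by abel
        rw [e]
        exact norm_sub_le _ _
      show ρ₀ < ‖y - z₀‖
      linarith
    rw [this, mul_zero]
  have hBm : MeasurableSet (closedBall z₀ (ρ₀ + d)) := isClosed_closedBall.measurableSet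
  have hMm := an_meas_M u a b r ν
  have step1 : anPhi bb Ew r u a b F ν ≤
      (ENNReal.ofReal (ε ^ 2) * ENNReal.ofReal (cE ^ (1 - bb))) * ∫⁻ z in closedBall z₀ (ρ₀ + d), anM u a b r ν z ^ bb := by
    unfold anPhi
    rw [← lintegral_const_mul' _ _ (ENNReal.mul_ne_top ENNReal.ofReal_ne_top ENNReal.ofReal_ne_top),
      ← lintegral_indicator hBm]
    refine lintegral_mono fun z => ?_
    by_cases hz : z ∈ closedBall z₀ (ρ₀ + d)
    · rw [indicator_of_mem hz, mul_comm]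
      exact mul_le_mul' (hN z) le_rfl
    · rw [indicator_of_notMem hz, hM0 z hz, ENNReal.zero_rpow_of_pos hb0, zero_mul]
  have step2 := BD.abs_jensen (μ := volume.restrict (closedBall z₀ (ρ₀ + d))) hb0.le hb1.le (anM u a b r ν) hMm.aemeasurable
  have step3 : ∫⁻ z in closedBall z₀ (ρ₀ + d), anM u a b r ν z ≤ ENNReal.ofReal (cB * r ^ (n + 1)) * ν univ :=
    (setLIntegral_le_lintegral _ _).trans (le_of_eq (an_M_total cB u a b r ha hb (hvol u a b r ha hb hr) ν))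
  have step4 : (volume.restrict (closedBall z₀ (ρ₀ + d))) univ ^ (1 - bb) =
      ENNReal.ofReal ((ρ₀ + d) ^ (((n : ℝ) + 1) * (1 - bb))) * ENNReal.ofReal ((volume (ball (0 : ST n) 1)).toReal ^ (1 - bb)) := by
    rw [Measure.restrict_apply_univ, Measure.addHaar_closedBall volume z₀ (by positivity), BD.wt_finrank,
      ENNReal.mul_rpow_of_nonneg _ _ h1.le, ENNReal.ofReal_rpow_of_nonneg (by positivity) h1.le,
      ← ENNReal.ofReal_rpow_of_nonneg ENNReal.toReal_nonneg h1.le, ENNReal.ofReal_toReal hvb, ← Real.rpow_natCast,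
      ← Real.rpow_mul (by positivity), hdd]
  calc anPhi bb Ew r u a b F ν
      ≤ (ENNReal.ofReal (ε ^ 2) * ENNReal.ofReal (cE ^ (1 - bb))) * ((ENNReal.ofReal (cB * r ^ (n + 1)) * ν univ) ^ bb *
          (ENNReal.ofReal ((ρ₀ + d) ^ (((n : ℝ) + 1) * (1 - bb))) * ENNReal.ofReal ((volume (ball (0 : ST n) 1)).toReal ^ (1 - bb)))) := by
        refine step1.trans (mul_le_mul' le_rfl (step2.trans ?_))
        rw [step4]
        exact mul_le_mul' (ENNReal.rpow_le_rpow step3 hb0.le) le_rfl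
    _ = ENNReal.ofReal (cE ^ (1 - bb) * (cB * r ^ (n + 1)) ^ bb * (volume (ball (0 : ST n) 1)).toReal ^ (1 - bb) * ε ^ 2 *
          (ρ₀ + d) ^ (((n : ℝ) + 1) * (1 - bb))) * ν univ ^ bb := by
        rw [ENNReal.mul_rpow_of_nonneg _ _ hb0.le, ENNReal.ofReal_rpow_of_pos (by positivity),
          ENNReal.ofReal_mul (by positivity), ENNReal.ofReal_mul (by positivity), ENNReal.ofReal_mul (by positivity),
          ENNReal.ofReal_mul (by positivity)]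
        ring

/-- `Lam` is additive -/
theorem an_Lam_sub (u : E n) (a b : ℝ) (y z : ST n) : BD.Lam u a b (y - z) = BD.Lam u a b y - BD.Lam u a b z := by
  unfold BD.Lam
  refine Prod.ext ?_ ?_
  · simp only [Prod.fst_sub, Prod.snd_sub]
    rw [← smul_sub]
    congr 1
    rw [mul_sub, sub_smul]
    abel
  · simp only [Prod.snd_sub]
    ring

/-- composition of two rescalings -/
theorem an_Lam_comp (u : E n) (σ a₀ b₀ : ℝ) (w : ST n) :
    BD.Lam u (σ * a₀) (σ ^ 2 * b₀) w = BD.Lam 0 a₀ b₀ (BD.Lam u σ (σ ^ 2) w) := by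
  unfold BD.Lam
  refine Prod.ext ?_ ?_
  · simp only [smul_zero, add_zero, smul_smul]
    rw [mul_comm]
  · simp only
    ring

/-- the masses under the change of variables -/
theorem an_M_resc (r : ℝ) (u : E n) (σ a₀ b₀ : ℝ) (hσ : 0 < σ) (ν : Measure (ST n)) (z : ST n) :
    anM u (σ * a₀) (σ ^ 2 * b₀) r ν z =
      ENNReal.ofReal (σ ^ (n + 2)) * anM 0 a₀ b₀ r (ν.map (BD.Lam u σ (σ ^ 2))) (BD.Lam u σ (σ ^ 2) z) := by
  unfold anM
  have hS : MeasurableSet {y : ST n | ‖BD.Lam 0 a₀ b₀ (y - BD.Lam u σ (σ ^ 2) z)‖ ≤ r} :=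
    (isClosed_le ((an_cont_Lam 0 a₀ b₀).comp (continuous_id.sub continuous_const)).norm continuous_const).measurableSet
  rw [Measure.map_apply (an_cont_Lam u σ (σ ^ 2)).measurable hS, ← mul_assoc (ENNReal.ofReal (σ ^ (n + 2))),
    ← ENNReal.ofReal_mul (by positivity)]
  congr 1
  · congr 1
    ring
  · congr 1
    ext y
    simp only [mem_ofPred_eq, mem_preimage]
    rw [an_Lam_comp, an_Lam_sub u σ (σ ^ 2)]

/-- the weights under the change of variables -/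
theorem an_tw_resc (Ew : ℝ) (u : E n) (σ a₀ b₀ : ℝ) (hσ : 0 < σ) (w : ST n) :
    BD.tw Ew u (σ * a₀) (σ ^ 2 * b₀) w = ENNReal.ofReal (σ ^ (n + 2)) * BD.tw Ew 0 a₀ b₀ (BD.Lam u σ (σ ^ 2) w) := by
  unfold BD.tw
  have hfr : Module.finrank ℝ (E n) = n := finrank_euclideanSpace_fin
  rw [← ENNReal.ofReal_mul (by positivity), an_Lam_comp, hfr]
  congr 1
  ring

/-- the local norms under the change of variables -/
theorem an_N_resc {P : ℝ} (hP : 0 ≤ P) (Ew : ℝ) (u : E n) (σ a₀ b₀ : ℝ) (hσ : 0 < σ)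
    (F V : ST n → ℂ) (hFV : ∀ y, ‖F y‖ = σ ^ ((n : ℝ) / 2) * ‖V (BD.Lam u σ (σ ^ 2) y)‖) (z : ST n) :
    anN P Ew u (σ * a₀) (σ ^ 2 * b₀) F z =
      ENNReal.ofReal (σ ^ ((n : ℝ) / 2 * P)) * anN P Ew 0 a₀ b₀ V (BD.Lam u σ (σ ^ 2) z) := by
  have hfr : Module.finrank ℝ (E n) = n := finrank_euclideanSpace_fin
  have hs : 0 < σ ^ ((n : ℝ) / 2) := Real.rpow_pos_of_pos hσ _
  have hF : ∀ y, ‖F y‖ₑ ^ P = ENNReal.ofReal (σ ^ ((n : ℝ) / 2 * P)) * ‖V (BD.Lam u σ (σ ^ 2) y)‖ₑ ^ P := fun y => by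
    rw [← ofReal_norm, hFV y, ENNReal.ofReal_mul hs.le, ofReal_norm, ENNReal.mul_rpow_of_nonneg _ _ hP,
      ENNReal.ofReal_rpow_of_pos hs, ← Real.rpow_mul hσ.le]
  have h1 := BD.lintegral_Lam u hσ (by positivity : 0 < σ ^ 2)
    (fun y' : ST n => ‖V y'‖ₑ ^ P * BD.tw Ew 0 a₀ b₀ (y' - BD.Lam u σ (σ ^ 2) z))
  unfold anN
  have e : ∀ y : ST n, ‖F y‖ₑ ^ P * BD.tw Ew u (σ * a₀) (σ ^ 2 * b₀) (y - z) =
      (ENNReal.ofReal (σ ^ ((n : ℝ) / 2 * P)) * ENNReal.ofReal (σ ^ (n + 2))) *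
        (‖V (BD.Lam u σ (σ ^ 2) y)‖ₑ ^ P * BD.tw Ew 0 a₀ b₀ (BD.Lam u σ (σ ^ 2) y - BD.Lam u σ (σ ^ 2) z)) := fun y => by
    rw [hF, an_tw_resc Ew u σ a₀ b₀ hσ, an_Lam_sub]
    ring
  simp only [e]
  rw [lintegral_const_mul' _ _ (ENNReal.mul_ne_top ENNReal.ofReal_ne_top ENNReal.ofReal_ne_top), h1, hfr, mul_assoc,
    ← mul_assoc (ENNReal.ofReal (σ ^ (n + 2))), ← ENNReal.ofReal_mul (by positivity)]
  have e2 : σ ^ (n + 2) * (σ ^ n * σ ^ 2)⁻¹ = 1 := by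
    rw [← pow_add]
    exact mul_inv_cancel₀ (by positivity)
  rw [e2, ENNReal.ofReal_one, one_mul]

/-- **L-AN-P18** (200 l.) **CHANGE OF VARIABLES** (the factor `K^{2-(n+2)b}` of d:transport, all `J` steps at once).  `X = Lam u σ σ²`;  `Lam u (σ a₀) (σ² b₀) = Lam 0 a₀ b₀ ∘ X`;
`anM z = σ^{n+2} anM' (X z)`, `anN z = σ^{nP/2} anN' (X z)` (`BD.lintegral_Lam`), `dz = σ^{-(n+2)} dz'`, `(nP/2)(1-bb) = n`. -/
theorem an_phi_resc {bb : ℝ} (hb0 : 0 < bb) (hb1 : bb < 1) (Ew r : ℝ) (u : E n) (σ a₀ b₀ : ℝ) (hσ : 0 < σ) (ha₀ : 0 < a₀) (hb₀ : 0 < b₀)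
    (F V : ST n → ℂ) (hFV : ∀ y, ‖F y‖ = σ ^ ((n : ℝ) / 2) * ‖V (BD.Lam u σ (σ ^ 2) y)‖) (ν : Measure (ST n)) :
    anPhi bb Ew r u (σ * a₀) (σ ^ 2 * b₀) F ν ≤
      ENNReal.ofReal (σ ^ (((n : ℝ) + 2) * bb - 2)) * anPhi bb Ew r 0 a₀ b₀ V (ν.map (BD.Lam u σ (σ ^ 2))) := by
  have h1 : 0 < 1 - bb := by linarith
  have hP : 0 ≤ 2 / (1 - bb) := by positivity
  have hfr : Module.finrank ℝ (E n) = n := finrank_euclideanSpace_fin
  have hL := BD.lintegral_Lam u hσ (by positivity : 0 < σ ^ 2)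
    (fun z' : ST n => anM 0 a₀ b₀ r (ν.map (BD.Lam u σ (σ ^ 2))) z' ^ bb * anN (2 / (1 - bb)) Ew 0 a₀ b₀ V z' ^ (1 - bb))
  unfold anPhi
  have e : ∀ z : ST n, anM u (σ * a₀) (σ ^ 2 * b₀) r ν z ^ bb * anN (2 / (1 - bb)) Ew u (σ * a₀) (σ ^ 2 * b₀) F z ^ (1 - bb) =
      (ENNReal.ofReal (σ ^ (n + 2)) ^ bb * ENNReal.ofReal (σ ^ ((n : ℝ) / 2 * (2 / (1 - bb)))) ^ (1 - bb)) *
        (anM 0 a₀ b₀ r (ν.map (BD.Lam u σ (σ ^ 2))) (BD.Lam u σ (σ ^ 2) z) ^ bb *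
          anN (2 / (1 - bb)) Ew 0 a₀ b₀ V (BD.Lam u σ (σ ^ 2) z) ^ (1 - bb)) := fun z => by
    rw [an_M_resc r u σ a₀ b₀ hσ, an_N_resc hP Ew u σ a₀ b₀ hσ F V hFV, ENNReal.mul_rpow_of_nonneg _ _ hb0.le,
      ENNReal.mul_rpow_of_nonneg _ _ h1.le]
    ring
  simp only [e]
  rw [lintegral_const_mul' _ _ (ENNReal.mul_ne_top (ENNReal.rpow_ne_top_of_nonneg hb0.le ENNReal.ofReal_ne_top)
    (ENNReal.rpow_ne_top_of_nonneg h1.le ENNReal.ofReal_ne_top)), hL, hfr, ← mul_assoc]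
  refine le_of_eq ?_
  congr 1
  rw [ENNReal.ofReal_rpow_of_pos (by positivity), ENNReal.ofReal_rpow_of_pos (Real.rpow_pos_of_pos hσ _),
    ← ENNReal.ofReal_mul (by positivity), ← ENNReal.ofReal_mul (by positivity)]
  congr 1
  rw [← Real.rpow_mul hσ.le, ← Real.rpow_natCast σ (n + 2), ← Real.rpow_mul hσ.le, ← pow_add, ← Real.rpow_natCast σ (n + 2),
    ← Real.rpow_neg hσ.le, ← Real.rpow_add hσ, ← Real.rpow_add hσ]
  congr 1
  push_cast
  field_simp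
  ring

/-- membership in a cube -/
theorem an_c2d_mem_iff {a : ℝ} (ha : 0 < a) (z : ST n) (k : (Fin n → ℤ) × ℤ) : z ∈ cubeS a k ↔ bigc a z = k := by
  have key : ∀ (x : ℝ) (j : ℤ), (a * (j : ℝ) ≤ x ∧ x < a * ((j : ℝ) + 1)) ↔ ⌊x / a⌋ = j := by
    intro x j
    rw [Int.floor_eq_iff, le_div_iff₀ ha, div_lt_iff₀ ha, mul_comm (j : ℝ) a, mul_comm ((j : ℝ) + 1) a]
  unfold cubeS bigc
  rw [Set.mem_ofPred_eq, Prod.ext_iff, funext_iff]
  simp only [key]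

/-- the cubes are products -/
theorem an_c2d_eq_prod (a : ℝ) (k : (Fin n → ℤ) × ℤ) :
    (cubeS a k : Set (ST n)) = ((WithLp.ofLp : E n → Fin n → ℝ) ⁻¹' (Set.pi univ fun i => Ico (a * (k.1 i : ℝ)) (a * (k.1 i + 1)))) ×ˢ
      Ico (a * (k.2 : ℝ)) (a * (k.2 + 1)) := by
  ext z
  simp only [cubeS, mem_ofPred_eq, mem_prod, mem_preimage, mem_pi, mem_univ, true_imp_iff, mem_Ico]

/-- the cubes are measurable -/
theorem an_c2d_meas (a : ℝ) (k : (Fin n → ℤ) × ℤ) : MeasurableSet (cubeS a k : Set (ST n)) := by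
  rw [an_c2d_eq_prod]
  exact ((PiLp.volume_preserving_ofLp (Fin n)).measurable (MeasurableSet.univ_pi fun i => measurableSet_Ico)).prod measurableSet_Ico

/-- the volume of a cube -/
theorem an_c2d_vol {a : ℝ} (ha : 0 < a) (k : (Fin n → ℤ) × ℤ) : volume (cubeS a k : Set (ST n)) = ENNReal.ofReal (a ^ (n + 1)) := by
  rw [an_c2d_eq_prod, Measure.volume_eq_prod, Measure.prod_prod,
    (PiLp.volume_preserving_ofLp (Fin n)).measure_preimage (MeasurableSet.univ_pi fun i => measurableSet_Ico).nullMeasurableSet,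
    Real.volume_pi_Ico, Real.volume_Ico]
  have e : ∀ j : ℤ, a * ((j : ℝ) + 1) - a * (j : ℝ) = a := fun j => by ring
  simp only [e, Finset.prod_const, Finset.card_univ, Fintype.card_fin]
  rw [pow_succ, ENNReal.ofReal_mul (by positivity), ENNReal.ofReal_pow ha.le]

/-- the cubes are pairwise disjoint -/
theorem an_c2d_disj {a : ℝ} (ha : 0 < a) : Pairwise (Function.onFun Disjoint fun k : (Fin n → ℤ) × ℤ => (cubeS a k : Set (ST n))) := by
  intro k k' hne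
  rw [Function.onFun, Set.disjoint_left]
  intro z h1 h2
  exact hne (((an_c2d_mem_iff ha z k).1 h1).symm.trans ((an_c2d_mem_iff ha z k').1 h2))

/-- integration over the partition into cubes -/
theorem an_c2d_lintegral {a : ℝ} (ha : 0 < a) (f : ST n → ℝ≥0∞) : ∫⁻ z, f z = ∑' k : (Fin n → ℤ) × ℤ, ∫⁻ z in cubeS a k, f z := by
  rw [← lintegral_iUnion (fun k => an_c2d_meas a k) (an_c2d_disj ha)]
  have : ⋃ k : (Fin n → ℤ) × ℤ, (cubeS a k : Set (ST n)) = univ :=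
    eq_univ_of_forall fun z => mem_iUnion.2 ⟨bigc a z, (an_c2d_mem_iff ha z _).2 rfl⟩
  rw [this, setLIntegral_univ]

/-- subadditivity of `x ↦ x^p`, finite sums -/
theorem an_c2d_rpow_sum {p : ℝ} (hp0 : 0 < p) (hp1 : p ≤ 1) {ι : Type} (s : Finset ι) (x : ι → ℝ≥0∞) :
    (∑ i ∈ s, x i) ^ p ≤ ∑ i ∈ s, x i ^ p := by
  classical
  induction s using Finset.induction_on with
  | empty => simp [ENNReal.zero_rpow_of_pos hp0]
  | insert i s hi ih =>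
    rw [Finset.sum_insert hi, Finset.sum_insert hi]
    exact (ENNReal.rpow_add_le_add_rpow _ _ hp0.le hp1).trans (add_le_add le_rfl ih)

/-- subadditivity of `x ↦ x^p`, infinite sums -/
theorem an_c2d_rpow_tsum {p : ℝ} (hp0 : 0 < p) (hp1 : p ≤ 1) {ι : Type} (x : ι → ℝ≥0∞) :
    (∑' i, x i) ^ p ≤ ∑' i, x i ^ p := by
  rw [ENNReal.tsum_eq_iSup_sum, ENNReal.tsum_eq_iSup_sum]
  have h := (ENNReal.orderIsoRpow p hp0).map_iSup (fun s : Finset ι => ∑ i ∈ s, x i)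
  simp only [ENNReal.orderIsoRpow_apply] at h
  rw [h]
  exact iSup_mono fun s => an_c2d_rpow_sum hp0 hp1 s x

/-- a point of space-time all of whose coordinates are `≤ δ` has norm `≤ (√n + 1) δ` -/
theorem an_c2d_norm_le (x : ST n) {δ : ℝ} (hδ : 0 ≤ δ) (h1 : ∀ i, |x.1 i| ≤ δ) (h2 : |x.2| ≤ δ) : ‖x‖ ≤ (Real.sqrt n + 1) * δ := by
  have hs : 0 ≤ Real.sqrt n := Real.sqrt_nonneg _
  have hx1 : ‖x.1‖ ≤ Real.sqrt n * δ := by
    rw [EuclideanSpace.norm_eq]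
    have h3 : ∑ i, ‖x.1 i‖ ^ 2 ≤ (n : ℝ) * δ ^ 2 := by
      calc ∑ i, ‖x.1 i‖ ^ 2 ≤ ∑ _i : Fin n, δ ^ 2 := by
            refine Finset.sum_le_sum fun i _ => ?_
            rw [Real.norm_eq_abs]
            exact pow_le_pow_left₀ (abs_nonneg _) (h1 i) 2
        _ = (n : ℝ) * δ ^ 2 := by simp
    calc Real.sqrt (∑ i, ‖x.1 i‖ ^ 2) ≤ Real.sqrt ((n : ℝ) * δ ^ 2) := Real.sqrt_le_sqrt h3
      _ = Real.sqrt n * δ := by rw [Real.sqrt_mul (Nat.cast_nonneg n), Real.sqrt_sq hδ]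
  rw [Prod.norm_def, max_le_iff]
  constructor
  · nlinarith
  · rw [Real.norm_eq_abs]
    nlinarith

/-- the coordinates are bounded by the norm -/
theorem an_c2d_coord_le (x : ST n) : (∀ i, |x.1 i| ≤ ‖x‖) ∧ |x.2| ≤ ‖x‖ := by
  refine ⟨fun i => ?_, ?_⟩
  · have h1 : |x.1 i| ≤ ‖x.1‖ := by
      rw [← Real.norm_eq_abs]
      exact PiLp.norm_apply_le x.1 i
    exact h1.trans (norm_fst_le x)
  · rw [← Real.norm_eq_abs]
    exact norm_snd_le x

/-- `z ∈ Q_k`, `y ∈ Q_{k+a}`, `w ∈ Q_a`: `w` is close to `y - z` -/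
theorem an_c2d_close {ρ : ℝ} (hρ : 0 < ρ) (k a : (Fin n → ℤ) × ℤ) (z y w : ST n) (hz : z ∈ cubeS ρ k) (hy : y ∈ cubeS ρ (k + a))
    (hw : w ∈ cubeS ρ a) : ‖w - (y - z)‖ ≤ (Real.sqrt n + 1) * (2 * ρ) := by
  have key : ∀ (κ α : ℤ) (s t v : ℝ), ρ * (κ : ℝ) ≤ s ∧ s < ρ * ((κ : ℝ) + 1) → ρ * ((κ + α : ℤ) : ℝ) ≤ t ∧ t < ρ * (((κ + α : ℤ) : ℝ) + 1) →
      ρ * (α : ℝ) ≤ v ∧ v < ρ * ((α : ℝ) + 1) → |v - (t - s)| ≤ 2 * ρ := by
    intro κ α s t v h1 h2 h3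
    push_cast at h2
    rw [abs_le]
    constructor <;> nlinarith [h1.1, h1.2, h2.1, h2.2, h3.1, h3.2]
  refine an_c2d_norm_le _ (by positivity) (fun i => ?_) ?_
  · exact key (k.1 i) (a.1 i) _ _ _ (hz.1 i) (hy.1 i) (hw.1 i)
  · exact key k.2 a.2 _ _ _ hz.2 hy.2 hw.2

/-- Peetre's inequality -/
theorem an_c2d_peetre {ρ s c : ℝ} (hρ : 0 < ρ) (hs : 0 ≤ s) (hc : 0 ≤ c) (x w : ST n) (h : ‖w - x‖ ≤ c * ρ) :
    (1 + ‖x‖ / ρ) ^ (-s) ≤ (1 + c) ^ s * (1 + ‖w‖ / ρ) ^ (-s) := by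
  have hX : 0 < 1 + ‖x‖ / ρ := by positivity
  have hY : 0 < 1 + ‖w‖ / ρ := by positivity
  have h1 : ‖w‖ ≤ ‖x‖ + c * ρ := by
    have e : w = x + (w - x) := by abel
    calc ‖w‖ = ‖x + (w - x)‖ := by rw [← e]
      _ ≤ ‖x‖ + ‖w - x‖ := norm_add_le _ _
      _ ≤ ‖x‖ + c * ρ := by linarith
  have h2 : 1 + ‖w‖ / ρ ≤ (1 + c) * (1 + ‖x‖ / ρ) := by
    have h3 : ‖w‖ / ρ ≤ ‖x‖ / ρ + c := by
      rw [div_le_iff₀ hρ, add_mul, div_mul_cancel₀ _ hρ.ne']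
      exact h1
    have h4 : 0 ≤ c * (‖x‖ / ρ) := by positivity
    nlinarith
  have h5 : (1 + ‖w‖ / ρ) ^ s ≤ (1 + c) ^ s * (1 + ‖x‖ / ρ) ^ s := by
    rw [← Real.mul_rpow (by positivity) hX.le]
    exact Real.rpow_le_rpow hY.le h2 hs
  rw [Real.rpow_neg hX.le, Real.rpow_neg hY.le, ← div_eq_mul_inv, le_div_iff₀ (Real.rpow_pos_of_pos hY _),
    inv_mul_le_iff₀ (Real.rpow_pos_of_pos hX _), mul_comm]
  exact h5

/-- the isotropic rescaling -/
theorem an_c2d_Lam {ρ : ℝ} (hρ : 0 < ρ) (w : ST n) : ‖BD.Lam (0 : E n) (1 / ρ) (1 / ρ) w‖ = ‖w‖ / ρ := by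
  have e : BD.Lam (0 : E n) (1 / ρ) (1 / ρ) w = (1 / ρ) • w := by
    unfold BD.Lam
    refine Prod.ext ?_ ?_
    · simp
    · simp
  rw [e, norm_smul, Real.norm_eq_abs, abs_of_pos (by positivity)]
  ring

/-- the decay between two cubes is dominated by the average of the weight over the cube of the difference -/
theorem an_c2d_wt_le {ρ s : ℝ} (hρ : 0 < ρ) (hs : 0 ≤ s) (k a : (Fin n → ℤ) × ℤ) (z y : ST n) (hz : z ∈ cubeS ρ k)
    (hy : y ∈ cubeS ρ (k + a)) :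
    ENNReal.ofReal ((1 + ‖y - z‖ / ρ) ^ (-s)) ≤ ENNReal.ofReal ((1 + (Real.sqrt n + 1) * 2) ^ s) *
      (ENNReal.ofReal ((ρ ^ (n + 1))⁻¹) * ∫⁻ w in cubeS ρ a, BD.wt s ρ w) := by
  have hc : 0 ≤ (Real.sqrt n + 1) * 2 := by positivity
  have h1 : ENNReal.ofReal ((1 + ‖y - z‖ / ρ) ^ (-s)) * volume (cubeS ρ a : Set (ST n)) ≤
      ENNReal.ofReal ((1 + (Real.sqrt n + 1) * 2) ^ s) * ∫⁻ w in cubeS ρ a, BD.wt s ρ w := by
    rw [← setLIntegral_const, ← lintegral_const_mul' _ _ ENNReal.ofReal_ne_top]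
    refine setLIntegral_mono' (an_c2d_meas ρ a) fun w hw => ?_
    unfold BD.wt
    rw [← ENNReal.ofReal_mul (by positivity)]
    refine ENNReal.ofReal_le_ofReal (an_c2d_peetre hρ hs hc _ _ ?_)
    have := an_c2d_close hρ k a z y w hz hy hw
    linarith
  have e : volume (cubeS ρ a : Set (ST n)) * ENNReal.ofReal ((ρ ^ (n + 1))⁻¹) = 1 := by
    rw [an_c2d_vol hρ, ← ENNReal.ofReal_mul (by positivity), mul_inv_cancel₀ (by positivity), ENNReal.ofReal_one]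
  calc ENNReal.ofReal ((1 + ‖y - z‖ / ρ) ^ (-s))
      = (ENNReal.ofReal ((1 + ‖y - z‖ / ρ) ^ (-s)) * volume (cubeS ρ a : Set (ST n))) * ENNReal.ofReal ((ρ ^ (n + 1))⁻¹) := by
        rw [mul_assoc, e, mul_one]
    _ ≤ (ENNReal.ofReal ((1 + (Real.sqrt n + 1) * 2) ^ s) * ∫⁻ w in cubeS ρ a, BD.wt s ρ w) * ENNReal.ofReal ((ρ ^ (n + 1))⁻¹) :=
        mul_le_mul' h1 le_rfl
    _ = _ := by ring

/-- the averages of the weight sum to a constant -/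
theorem an_c2d_wt_sum {ρ s cs : ℝ} (hρ : 0 < ρ) (h : ∫⁻ y : ST n, BD.wt s ρ y = ENNReal.ofReal (cs * ρ ^ ((BD.dd (E n) : ℕ) : ℝ))) :
    ∑' a : (Fin n → ℤ) × ℤ, (ENNReal.ofReal ((ρ ^ (n + 1))⁻¹) * ∫⁻ w in cubeS ρ a, BD.wt s ρ w) = ENNReal.ofReal cs := by
  have hfr : Module.finrank ℝ (E n) = n := finrank_euclideanSpace_fin
  rw [ENNReal.tsum_mul_left, ← an_c2d_lintegral hρ, h, ← ENNReal.ofReal_mul (by positivity), Real.rpow_natCast, BD.dd, hfr]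
  congr 1
  field_simp

/-- the local norm at a point of `Q_k` -/
theorem an_c2d_N {bb Ew ρ : ℝ} (hb0 : 0 < bb) (hb1 : bb < 1) (hEw : 0 ≤ Ew) (hρ : 0 < ρ) (V : ST n → ℂ) (k : (Fin n → ℤ) × ℤ)
    (z : ST n) (hz : z ∈ cubeS ρ k) :
    anN (2 / (1 - bb)) Ew 0 (1 / ρ) (1 / ρ) V z ^ (1 - bb) ≤
      ∑' a : (Fin n → ℤ) × ℤ, (⨆ y ∈ cubeS ρ (k + a), ‖V y‖ₑ) ^ 2 * (ENNReal.ofReal ((1 + (Real.sqrt n + 1) * 2) ^ (Ew * (1 - bb))) *
        (ENNReal.ofReal ((ρ ^ (n + 1))⁻¹) * ∫⁻ w in cubeS ρ a, BD.wt (Ew * (1 - bb)) ρ w)) := by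
  have h1 : 0 < 1 - bb := by linarith
  have hP : 0 < 2 / (1 - bb) := by positivity
  have hfr : Module.finrank ℝ (E n) = n := finrank_euclideanSpace_fin
  unfold anN
  rw [an_c2d_lintegral hρ, ← (Equiv.addLeft k).tsum_eq]
  refine (an_c2d_rpow_tsum h1 (by linarith) _).trans (ENNReal.tsum_le_tsum fun a => ?_)
  simp only [Equiv.coe_addLeft]
  obtain ⟨Om, hOm⟩ : ∃ Om : ℝ≥0∞, Om = ENNReal.ofReal ((1 + (Real.sqrt n + 1) * 2) ^ (Ew * (1 - bb))) *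
    (ENNReal.ofReal ((ρ ^ (n + 1))⁻¹) * ∫⁻ w in cubeS ρ a, BD.wt (Ew * (1 - bb)) ρ w) := ⟨_, rfl⟩
  rw [← hOm]
  have htw : ∀ y ∈ cubeS ρ (k + a), BD.tw Ew (0 : E n) (1 / ρ) (1 / ρ) (y - z) ≤ ENNReal.ofReal ((ρ ^ (n + 1))⁻¹) * Om ^ (1 - bb)⁻¹ := by
    intro y hy
    have hX : 0 < 1 + ‖y - z‖ / ρ := by positivity
    unfold BD.tw
    rw [an_c2d_Lam hρ, hfr, ENNReal.ofReal_mul (by positivity)]
    refine mul_le_mul' (le_of_eq ?_) ?_
    · congr 1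
      rw [pow_succ, mul_inv, one_div, inv_pow]
    · rw [ENNReal.le_rpow_inv_iff h1, ENNReal.ofReal_rpow_of_pos (Real.rpow_pos_of_pos hX _), ← Real.rpow_mul hX.le, hOm,
        neg_mul]
      exact an_c2d_wt_le hρ (by positivity) k a z y hz hy
  have hterm : ∫⁻ y in cubeS ρ (k + a), ‖V y‖ₑ ^ (2 / (1 - bb)) * BD.tw Ew (0 : E n) (1 / ρ) (1 / ρ) (y - z) ≤
      (⨆ y ∈ cubeS ρ (k + a), ‖V y‖ₑ) ^ (2 / (1 - bb)) * Om ^ (1 - bb)⁻¹ := by
    calc ∫⁻ y in cubeS ρ (k + a), ‖V y‖ₑ ^ (2 / (1 - bb)) * BD.tw Ew (0 : E n) (1 / ρ) (1 / ρ) (y - z)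
        ≤ ∫⁻ _y in cubeS ρ (k + a), (⨆ y ∈ cubeS ρ (k + a), ‖V y‖ₑ) ^ (2 / (1 - bb)) *
            (ENNReal.ofReal ((ρ ^ (n + 1))⁻¹) * Om ^ (1 - bb)⁻¹) :=
          setLIntegral_mono' (an_c2d_meas ρ _) fun y hy =>
            mul_le_mul' (ENNReal.rpow_le_rpow (le_iSup₂ (f := fun y (_ : y ∈ cubeS ρ (k + a)) => ‖V y‖ₑ) y hy) hP.le) (htw y hy)
      _ = (⨆ y ∈ cubeS ρ (k + a), ‖V y‖ₑ) ^ (2 / (1 - bb)) * Om ^ (1 - bb)⁻¹ *
            (ENNReal.ofReal ((ρ ^ (n + 1))⁻¹) * volume (cubeS ρ (k + a) : Set (ST n))) := by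
          rw [setLIntegral_const]
          ring
      _ = _ := by
          rw [an_c2d_vol hρ, ← ENNReal.ofReal_mul (by positivity), inv_mul_cancel₀ (by positivity), ENNReal.ofReal_one, mul_one]
  refine (ENNReal.rpow_le_rpow hterm h1.le).trans (le_of_eq ?_)
  rw [ENNReal.mul_rpow_of_nonneg _ _ h1.le, ← ENNReal.rpow_mul, ← ENNReal.rpow_mul, inv_mul_cancel₀ h1.ne', ENNReal.rpow_one,
    div_mul_cancel₀ _ h1.ne', ENNReal.rpow_two]

/-- the mass at a point of `Q_k` -/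
theorem an_c2d_M {bb r ρ : ℝ} (hb0 : 0 < bb) (hb1 : bb ≤ 1) (hρ : 0 < ρ) (ν' : Measure (ST n)) (k : (Fin n → ℤ) × ℤ)
    (z : ST n) (hz : z ∈ cubeS ρ k) :
    anM 0 (1 / ρ) (1 / ρ) r ν' z ^ bb ≤ ENNReal.ofReal ((ρ ^ (n + 1))⁻¹) ^ bb *
      ∑ a' ∈ (Fintype.piFinset fun _ : Fin n => Finset.Icc (-⌈r⌉) ⌈r⌉) ×ˢ Finset.Icc (-⌈r⌉) ⌈r⌉, ν' (cubeS ρ (k + a')) ^ bb := by
  have key : ∀ (κ κ' : ℤ) (s t : ℝ), ρ * (κ : ℝ) ≤ s ∧ s < ρ * ((κ : ℝ) + 1) → ρ * (κ' : ℝ) ≤ t ∧ t < ρ * ((κ' : ℝ) + 1) →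
      |t - s| ≤ r * ρ → κ' - κ ∈ Finset.Icc (-⌈r⌉) ⌈r⌉ := by
    intro κ κ' s t h1 h2 h3
    rw [abs_le] at h3
    have hr := Int.le_ceil r
    rw [Finset.mem_Icc]
    constructor
    · have h4 : ρ * (-(r + 1)) < ρ * ((κ' : ℝ) - κ) := by nlinarith [h1.1, h2.2, h3.1]
      have h5 : -(r + 1) < (κ' : ℝ) - κ := lt_of_mul_lt_mul_left h4 hρ.le
      have h6 : (-(⌈r⌉ : ℝ) - 1) < ((κ' - κ : ℤ) : ℝ) := by
        push_cast
        linarith
      have h7 : -⌈r⌉ - 1 < κ' - κ := by exact_mod_cast h6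
      omega
    · have h4 : ρ * ((κ' : ℝ) - κ) < ρ * (r + 1) := by nlinarith [h1.2, h2.1, h3.2]
      have h5 : (κ' : ℝ) - κ < r + 1 := lt_of_mul_lt_mul_left h4 hρ.le
      have h6 : ((κ' - κ : ℤ) : ℝ) < ((⌈r⌉ + 1 : ℤ) : ℝ) := by
        push_cast
        linarith
      have h7 : κ' - κ < ⌈r⌉ + 1 := by exact_mod_cast h6
      omega
  have hsub : {y : ST n | ‖BD.Lam (0 : E n) (1 / ρ) (1 / ρ) (y - z)‖ ≤ r} ⊆
      ⋃ a' ∈ (Fintype.piFinset fun _ : Fin n => Finset.Icc (-⌈r⌉) ⌈r⌉) ×ˢ Finset.Icc (-⌈r⌉) ⌈r⌉, cubeS ρ (k + a') := by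
    intro y hy
    rw [mem_ofPred_eq, an_c2d_Lam hρ, div_le_iff₀ hρ] at hy
    have hyQ : y ∈ cubeS ρ (bigc ρ y) := (an_c2d_mem_iff hρ y _).2 rfl
    have hco := an_c2d_coord_le (y - z)
    rw [mem_iUnion₂]
    refine ⟨bigc ρ y - k, ?_, ?_⟩
    · rw [Finset.mem_product, Fintype.mem_piFinset]
      exact ⟨fun i => key _ _ _ _ (hz.1 i) (hyQ.1 i) ((hco.1 i).trans hy), key _ _ _ _ hz.2 hyQ.2 (hco.2.trans hy)⟩
    · rw [add_sub_cancel]
      exact hyQ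
  unfold anM
  rw [ENNReal.mul_rpow_of_nonneg _ _ hb0.le]
  refine mul_le_mul' (le_of_eq ?_) ?_
  · congr 2
    rw [pow_succ, mul_inv, one_div, inv_pow]
  · exact (ENNReal.rpow_le_rpow ((measure_mono hsub).trans (measure_biUnion_finset_le _ _)) hb0.le).trans
      (an_c2d_rpow_sum hb0 hb1 _ _)

/-- reindexing the hypothesis -/
theorem an_c2d_shift (m S : (Fin n → ℤ) × ℤ → ℝ≥0∞) (B : ℝ≥0∞) (h : ∀ h : (Fin n → ℤ) × ℤ, ∑' k, m (k + h) * S k ≤ B)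
    (a' a : (Fin n → ℤ) × ℤ) : ∑' k, m (k + a') * S (k + a) ≤ B := by
  have e := (Equiv.addRight a).tsum_eq (fun k => m (k + (a' - a)) * S k)
  simp only [Equiv.coe_addRight] at e
  have e2 : ∀ k : (Fin n → ℤ) × ℤ, k + a + (a' - a) = k + a' := fun k => by abel
  simp only [e2] at e
  rw [e]
  exact h (a' - a)

/-- **L-AN-P19** (350 l.) **BACK TO CUBES.**  `Q_k = cubeS ρ₂ k`.  For `z ∈ Q_k`: `anN z ≤ ∑_a (sup_{Q_{k+a}} |V|)^P (1 + (|a|_∞ - 1)₊)^{-Ew}` (`vol Q = ρ₂^{n+1}`; `y ∈ Q_{k+a}` ⟹ `‖y - z‖ ≥ (|a|_∞ - 1) ρ₂`), the power `1 - bb ≤ 1` is subadditive;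
`anM z ≤ ρ₂^{-(n+1)} ∑_{|a'|_∞ ≤ ⌈r⌉+1} ν'(Q_{k+a'})`, the power `bb` is subadditive;  `∫ = ∑_k ∫_{Q_k}`;  reindex `k ↦ k - a`, `h = a' - a`;  `∑_a (1 + (|a|_∞-1)₊)^{-Ew(1-bb)} < ∞`. -/
theorem an_c2d (n : ℕ) (bb Ew r : ℝ) (hb0 : 0 < bb) (hb1 : bb < 1) (hE : (n : ℝ) + 1 < Ew * (1 - bb)) (hr : 0 < r) :
    ∃ A : ℝ, ∀ (ρ₂ : ℝ) (V : ST n → ℂ) (ν' : Measure (ST n)) (B : ℝ≥0∞), 0 < ρ₂ →
      (∀ h : (Fin n → ℤ) × ℤ, ∑' k : (Fin n → ℤ) × ℤ, ν' (cubeS ρ₂ (k + h)) ^ bb * (⨆ z ∈ cubeS ρ₂ k, ‖V z‖ₑ) ^ 2 ≤ B) →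
      anPhi bb Ew r 0 (1 / ρ₂) (1 / ρ₂) V ν' ≤ ENNReal.ofReal (A * ρ₂ ^ (((n : ℝ) + 1) * (1 - bb))) * B := by
  have h1 : 0 < 1 - bb := by linarith
  have hfr : Module.finrank ℝ (E n) = n := finrank_euclideanSpace_fin
  have hdd : ((BD.dd (E n) : ℕ) : ℝ) = (n : ℝ) + 1 := by
    rw [BD.dd, hfr]
    push_cast
    ring
  have hEw : 0 ≤ Ew := by
    by_contra hcon
    rw [not_le] at hcon
    have : Ew * (1 - bb) < 0 := mul_neg_of_neg_of_pos hcon h1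
    have hn : (0 : ℝ) ≤ n := Nat.cast_nonneg n
    linarith
  obtain ⟨cs, hcs, hwt⟩ := BD.exists_lintegral_wt (V := E n) (E := Ew * (1 - bb)) (by rw [hdd]; exact hE)
  obtain ⟨𝒜, h𝒜⟩ : ∃ 𝒜 : Finset ((Fin n → ℤ) × ℤ),
    𝒜 = (Fintype.piFinset fun _ : Fin n => Finset.Icc (-⌈r⌉) ⌈r⌉) ×ˢ Finset.Icc (-⌈r⌉) ⌈r⌉ := ⟨_, rfl⟩
  refine ⟨(1 + (Real.sqrt n + 1) * 2) ^ (Ew * (1 - bb)) * 𝒜.card * cs, ?_⟩
  intro ρ V ν' B hρ hB
  obtain ⟨C, hC⟩ : ∃ C : ℝ≥0∞, C = ENNReal.ofReal ((1 + (Real.sqrt n + 1) * 2) ^ (Ew * (1 - bb))) := ⟨_, rfl⟩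
  obtain ⟨om, hom⟩ : ∃ om : (Fin n → ℤ) × ℤ → ℝ≥0∞, ∀ a, om a =
    ENNReal.ofReal ((ρ ^ (n + 1))⁻¹) * ∫⁻ w in cubeS ρ a, BD.wt (Ew * (1 - bb)) ρ w := ⟨_, fun _ => rfl⟩
  obtain ⟨m, hm⟩ : ∃ m : (Fin n → ℤ) × ℤ → ℝ≥0∞, ∀ k, m k = ν' (cubeS ρ k) ^ bb := ⟨_, fun _ => rfl⟩
  obtain ⟨S, hS⟩ : ∃ S : (Fin n → ℤ) × ℤ → ℝ≥0∞, ∀ k, S k = (⨆ z ∈ cubeS ρ k, ‖V z‖ₑ) ^ 2 := ⟨_, fun _ => rfl⟩
  have hB' : ∀ h : (Fin n → ℤ) × ℤ, ∑' k, m (k + h) * S k ≤ B := fun h => by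
    simp only [hm, hS]
    exact hB h
  have homsum : ∑' a, om a = ENNReal.ofReal cs := by
    simp only [hom]
    exact an_c2d_wt_sum hρ (hwt ρ hρ)
  have hcube : ∀ k, ∫⁻ z in cubeS ρ k, anM 0 (1 / ρ) (1 / ρ) r ν' z ^ bb * anN (2 / (1 - bb)) Ew 0 (1 / ρ) (1 / ρ) V z ^ (1 - bb) ≤
      (ENNReal.ofReal ((ρ ^ (n + 1))⁻¹) ^ bb * ∑ a' ∈ 𝒜, m (k + a')) * (∑' a, S (k + a) * (C * om a)) * ENNReal.ofReal (ρ ^ (n + 1)) := by
    intro k
    rw [← an_c2d_vol hρ k, ← setLIntegral_const]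
    refine setLIntegral_mono' (an_c2d_meas ρ k) fun z hz => mul_le_mul' ?_ ?_
    · simp only [hm, h𝒜]
      exact an_c2d_M hb0 hb1.le hρ ν' k z hz
    · simp only [hS, hC, hom]
      exact an_c2d_N hb0 hb1 hEw hρ V k z hz
  have hsum : ∑' k, (∑ a' ∈ 𝒜, m (k + a')) * (∑' a, S (k + a) * (C * om a)) ≤ C * (𝒜.card * (ENNReal.ofReal cs * B)) := by
    calc ∑' k, (∑ a' ∈ 𝒜, m (k + a')) * (∑' a, S (k + a) * (C * om a))
        = ∑' k, ∑ a' ∈ 𝒜, ∑' a, (C * om a) * (m (k + a') * S (k + a)) := by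
          refine tsum_congr fun k => ?_
          rw [Finset.sum_mul]
          refine Finset.sum_congr rfl fun a' _ => ?_
          rw [← ENNReal.tsum_mul_left]
          exact tsum_congr fun a => by ring
      _ = ∑ a' ∈ 𝒜, ∑' k, ∑' a, (C * om a) * (m (k + a') * S (k + a)) :=
          Summable.tsum_finsetSum fun _ _ => ENNReal.summable
      _ = ∑ a' ∈ 𝒜, ∑' a, (C * om a) * ∑' k, m (k + a') * S (k + a) := by
          refine Finset.sum_congr rfl fun a' _ => ?_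
          rw [ENNReal.tsum_comm]
          exact tsum_congr fun a => ENNReal.tsum_mul_left
      _ ≤ ∑ _a' ∈ 𝒜, ∑' a, (C * om a) * B :=
          Finset.sum_le_sum fun a' _ => ENNReal.tsum_le_tsum fun a => mul_le_mul' le_rfl (an_c2d_shift m S B hB' a' a)
      _ = C * (𝒜.card * (ENNReal.ofReal cs * B)) := by
          rw [Finset.sum_const, nsmul_eq_mul, ENNReal.tsum_mul_right]
          simp only [ENNReal.tsum_mul_left, homsum]
          ring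
  unfold anPhi
  rw [an_c2d_lintegral hρ]
  calc ∑' k, ∫⁻ z in cubeS ρ k, anM 0 (1 / ρ) (1 / ρ) r ν' z ^ bb * anN (2 / (1 - bb)) Ew 0 (1 / ρ) (1 / ρ) V z ^ (1 - bb)
      ≤ ∑' k, (ENNReal.ofReal ((ρ ^ (n + 1))⁻¹) ^ bb * ENNReal.ofReal (ρ ^ (n + 1))) *
          ((∑ a' ∈ 𝒜, m (k + a')) * (∑' a, S (k + a) * (C * om a))) :=
        ENNReal.tsum_le_tsum fun k => (hcube k).trans (le_of_eq (by ring))
    _ = (ENNReal.ofReal ((ρ ^ (n + 1))⁻¹) ^ bb * ENNReal.ofReal (ρ ^ (n + 1))) *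
          ∑' k, (∑ a' ∈ 𝒜, m (k + a')) * (∑' a, S (k + a) * (C * om a)) := ENNReal.tsum_mul_left
    _ ≤ (ENNReal.ofReal ((ρ ^ (n + 1))⁻¹) ^ bb * ENNReal.ofReal (ρ ^ (n + 1))) * (C * (𝒜.card * (ENNReal.ofReal cs * B))) :=
        mul_le_mul' le_rfl hsum
    _ = ENNReal.ofReal ((1 + (Real.sqrt n + 1) * 2) ^ (Ew * (1 - bb)) * 𝒜.card * cs * ρ ^ (((n : ℝ) + 1) * (1 - bb))) * B := by
        have e1 : ENNReal.ofReal ((ρ ^ (n + 1))⁻¹) ^ bb * ENNReal.ofReal (ρ ^ (n + 1)) = ENNReal.ofReal (ρ ^ (((n : ℝ) + 1) * (1 - bb))) := by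
          rw [ENNReal.ofReal_rpow_of_pos (by positivity), ← ENNReal.ofReal_mul (by positivity)]
          congr 1
          rw [← Real.rpow_natCast ρ (n + 1), ← Real.rpow_neg hρ.le, ← Real.rpow_mul hρ.le, ← Real.rpow_add hρ]
          congr 1
          push_cast
          ring
        rw [e1, hC, ENNReal.ofReal_mul (by positivity), ENNReal.ofReal_mul (by positivity), ENNReal.ofReal_mul (by positivity),
          ENNReal.ofReal_natCast]
        ring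

/-- Stores the on-demand equation lemmas of the definitions of THIS module here (rule 6 hygiene). -/
theorem an_phi_forced : True := by
  have := @anM.eq_1
  have := @anN.eq_1
  have := @anPhi.eq_1
  trivial

end Claimed.Agent.R257
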