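import Claimed.Agent.R257.Ang.Phi

/-!
# R257 / Ang / Resc : CAP RESCALING OF ARRAYS AND MEASURES (H fractal.tex l.95-107, d:transport l.500-516, l.84-93)      Mathlib + Infra/Defs + Lib/BD/Defs.      (architect helper83)

`X = BD.Lam (-v) R⁻¹ (R⁻¹)² : (x,t) ↦ ((x - 2tv)/R, t/R²)`.
* `Arr.child A R v` : scale `L/R`, frequencies `R(ω - v)`, intercepts `y/R`, SAME profiles, same coefficients;   `an_atom_child` : `atom α z = R^{-n/2} car v z · atom' α (X z)`  (exact)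
* `an_child_in`     : the class is preserved (labels are translated)
* `an_grow_push`, `an_dens_push` : growth `C m R^{n+1}`, mass of balls `C r^{n+1} R^{n+2} ϰ` for the push-forward
* `an_tubeMom_of_grow` : the tube moment with `D = 1` follows from growth
-/

set_option autoImplicit false

namespace Claimed.Agent.R257

open MeasureTheory Metric Set
open scoped ENNReal InnerProductSpace

variable {n : ℕ} {ι : Type}

/-- the child array of the frequency cube of side `1/R` centred at `v` -/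
noncomputable def Arr.child (A : Arr n ι) (R : ℝ) (v : E n) : Arr n ι where
  L := A.L / R
  om := fun α => R • (A.om α - v)
  y := fun α => R⁻¹ • A.y α
  tc := A.tc
  pf := A.pf

theorem an_chart_child_aux (L : ℝ) (hL : 0 < L) (R : ℝ) (hR : 0 < R) (v w y : E n) (τ : ℝ) (z : ST n) :
    chart (L / R) (R • (w - v)) (R⁻¹ • y) τ (BD.Lam (-v) R⁻¹ (R⁻¹ ^ 2) z) = chart L w y τ z := by
  unfold chart BD.Lam
  refine Prod.ext ?_ ?_
  · show (L / R)⁻¹ • (R⁻¹ • (z.1 + (2 * z.2) • (-v)) - R⁻¹ • y - (2 * (R⁻¹ ^ 2 * z.2)) • (R • (w - v))) = L⁻¹ • (z.1 - y - (2 * z.2) • w)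
    have e1 : (2 * (R⁻¹ ^ 2 * z.2)) • (R • (w - v)) = R⁻¹ • ((2 * z.2) • (w - v)) := by
      rw [smul_smul, smul_smul]
      congr 1
      field_simp
    rw [e1, ← smul_sub, ← smul_sub, smul_smul]
    have e2 : (L / R)⁻¹ * R⁻¹ = L⁻¹ := by field_simp
    rw [e2]
    congr 1
    rw [smul_neg, smul_sub]
    abel
  · show R⁻¹ ^ 2 * z.2 / (L / R) ^ 2 - τ = z.2 / L ^ 2 - τ
    field_simp

theorem an_car_child_aux (R : ℝ) (hR : 0 < R) (v w : E n) (z : ST n) :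
    car w z = car v z * car (R • (w - v)) (BD.Lam (-v) R⁻¹ (R⁻¹ ^ 2) z) := by
  unfold car BD.Lam
  rw [← Complex.exp_add, ← mul_add, ← Complex.ofReal_add]
  congr 3
  show ⟪z.1, w⟫_ℝ - z.2 * ‖w‖ ^ 2 = ⟪z.1, v⟫_ℝ - z.2 * ‖v‖ ^ 2 + (⟪R⁻¹ • (z.1 + (2 * z.2) • (-v)), R • (w - v)⟫_ℝ - R⁻¹ ^ 2 * z.2 * ‖R • (w - v)‖ ^ 2)
  rw [norm_smul, Real.norm_eq_abs, abs_of_pos hR, real_inner_smul_left, real_inner_smul_right, inner_add_left, real_inner_smul_left, inner_neg_left, inner_sub_right, inner_sub_right,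
    mul_pow, norm_sub_sq_real, real_inner_self_eq_norm_sq, real_inner_comm v w]
  field_simp
  ring

/-- **L-AN-R1** (150 l.) atom covariance (exact).  `chart' (X z) = chart z`;  `car (R(ω - v)) (X z) = car ω z / car v z` (`2⟪v, ω - v⟫ + ‖ω - v‖² = ‖ω‖² - ‖v‖²`);  `(L/R)^{-n/2} = L^{-n/2} R^{n/2}`. -/
theorem an_atom_child (A : Arr n ι) (hL : 0 < A.L) (R : ℝ) (hR : 0 < R) (v : E n) (α : ι) (z : ST n) :
    A.atom α z = ((R ^ (-(n : ℝ) / 2) : ℝ) : ℂ) * car v z * (A.child R v).atom α (BD.Lam (-v) R⁻¹ (R⁻¹ ^ 2) z) := by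
  unfold Arr.atom
  show ((A.L ^ (-(n : ℝ) / 2) : ℝ) : ℂ) * car (A.om α) z * A.pf α (chart A.L (A.om α) (A.y α) (A.tc α) z)
    = ((R ^ (-(n : ℝ) / 2) : ℝ) : ℂ) * car v z * ((((A.L / R) ^ (-(n : ℝ) / 2) : ℝ) : ℂ) * car (R • (A.om α - v)) (BD.Lam (-v) R⁻¹ (R⁻¹ ^ 2) z)
      * A.pf α (chart (A.L / R) (R • (A.om α - v)) (R⁻¹ • A.y α) (A.tc α) (BD.Lam (-v) R⁻¹ (R⁻¹ ^ 2) z)))
  rw [an_chart_child_aux A.L hL R hR, an_car_child_aux R hR v (A.om α) z]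
  have e : A.L ^ (-(n : ℝ) / 2) = R ^ (-(n : ℝ) / 2) * (A.L / R) ^ (-(n : ℝ) / 2) := by
    rw [← Real.mul_rpow hR.le (by positivity)]
    congr 1
    field_simp
  rw [e, Complex.ofReal_mul]
  ring

/-- the field of a subarray -/
theorem an_fld_child (A : Arr n ι) (hL : 0 < A.L) (R : ℝ) (hR : 0 < R) (v : E n) (s : Finset ι) (c : ι → ℂ) (z : ST n) :
    A.fld s c z = ((R ^ (-(n : ℝ) / 2) : ℝ) : ℂ) * car v z * (A.child R v).fld s c (BD.Lam (-v) R⁻¹ (R⁻¹ ^ 2) z) := by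
  unfold Arr.fld
  rw [Finset.mul_sum]
  refine Finset.sum_congr rfl fun α _ => ?_
  rw [an_atom_child A hL R hR v α z]
  ring

/-- **L-AN-R2** (40 l.) `‖car v z‖ = 1`. -/
theorem an_norm_car (v : E n) (z : ST n) : ‖car v z‖ = 1 := by
  unfold car
  rw [mul_comm]
  exact Complex.norm_exp_ofReal_mul_I _

/-- **L-AN-R3** (120 l.) the class is preserved: `lab' α = lab α - (L v, 0, 0)` when `tc α = 0`. -/
theorem an_child_in (A : Arr n ι) (s s' : Finset ι) (K : Cls) (hA : A.In s K) (hs : s' ⊆ s) (htc : ∀ α ∈ s', A.tc α = 0) (R : ℝ) (hR : 0 < R) (hRL : R ≤ A.L) (v : E n)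
    (hv : ∀ α ∈ s', R * ‖A.om α - v‖ ≤ K.Rω) : (A.child R v).In s' K := by
  have hL : 0 < A.L := lt_of_lt_of_le hR hRL
  refine ⟨?_, ?_, ?_, ?_⟩
  · show 1 ≤ A.L / R
    rw [le_div_iff₀ hR]
    linarith
  · intro α hα
    exact hA.prof α (hs hα)
  · intro α hα
    show ‖R • (A.om α - v)‖ ≤ K.Rω
    rw [norm_smul, Real.norm_eq_abs, abs_of_pos hR]
    exact hv α hα
  · intro ξ y τ t ht h
    refine hA.mult (ξ + A.L • v) (y + (2 * τ * A.L) • v) τ t (ht.trans hs) ?_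
    intro α hα
    obtain ⟨h1, h2, h3⟩ := h α hα
    refine ⟨?_, h2, ?_⟩
    · have h1' : ‖(A.L / R) • (R • (A.om α - v)) - ξ‖ ≤ 1 := h1
      have e : (A.L / R) • (R • (A.om α - v)) - ξ = A.L • A.om α - (ξ + A.L • v) := by
        rw [smul_smul]
        have : A.L / R * R = A.L := by field_simp
        rw [this, smul_sub]
        abel
      rwa [e] at h1'
    · have h3' : ‖(A.L / R)⁻¹ • (R⁻¹ • A.y α) + (2 * τ * (A.L / R)) • (R • (A.om α - v)) - y‖ ≤ 1 := h3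
      have e : (A.L / R)⁻¹ • (R⁻¹ • A.y α) + (2 * τ * (A.L / R)) • (R • (A.om α - v)) - y
          = A.L⁻¹ • A.y α + (2 * τ * A.L) • A.om α - (y + (2 * τ * A.L) • v) := by
        rw [smul_smul, smul_smul]
        have e1 : (A.L / R)⁻¹ * R⁻¹ = A.L⁻¹ := by field_simp
        have e2 : 2 * τ * (A.L / R) * R = 2 * τ * A.L := by field_simp
        rw [e1, e2, smul_sub]
        abel
      rwa [e] at h3'

/-- a vector all of whose coordinates are `≤ δ` has norm `≤ √n δ`. -/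
theorem an_norm_le_sqrt (x : E n) {δ : ℝ} (hδ : 0 ≤ δ) (h : ∀ i, |x i| ≤ δ) : ‖x‖ ≤ Real.sqrt n * δ := by
  rw [EuclideanSpace.norm_eq]
  have h1 : ∑ i, ‖x i‖ ^ 2 ≤ (n : ℝ) * δ ^ 2 := by
    calc ∑ i, ‖x i‖ ^ 2 ≤ ∑ _i : Fin n, δ ^ 2 := by
          refine Finset.sum_le_sum fun i _ => ?_
          rw [Real.norm_eq_abs]
          exact pow_le_pow_left₀ (abs_nonneg _) (h i) 2
      _ = (n : ℝ) * δ ^ 2 := by simp
  calc Real.sqrt (∑ i, ‖x i‖ ^ 2) ≤ Real.sqrt ((n : ℝ) * δ ^ 2) := Real.sqrt_le_sqrt h1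
    _ = Real.sqrt n * δ := by rw [Real.sqrt_mul (Nat.cast_nonneg n), Real.sqrt_sq hδ]

/-- **L-AN-R4** (60 l.) a label of the bin `k` is within `√n/R` of the centre. -/
theorem an_fbin_near (R : ℝ) (hR : 0 < R) (w : E n) : R * ‖w - bcen R (fbin R w)‖ ≤ Real.sqrt n := by
  have key : ∀ x : ℝ, |x - ((⌊R * x⌋ : ℝ) + 1 / 2) / R| ≤ 1 / R := by
    intro x
    have h1 := Int.floor_le (R * x)
    have h2 := Int.lt_floor_add_one (R * x)
    have e : x - ((⌊R * x⌋ : ℝ) + 1 / 2) / R = (R * x - (⌊R * x⌋ : ℝ) - 1 / 2) / R := by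
      field_simp
      ring
    rw [e, abs_div, abs_of_pos hR]
    refine div_le_div_of_nonneg_right ?_ hR.le
    rw [abs_le]
    constructor <;> linarith
  have := an_norm_le_sqrt (w - bcen R (fbin R w)) (by positivity : 0 ≤ 1 / R) (fun i => by
    simpa [bcen, fbin] using key (w i))
  calc R * ‖w - bcen R (fbin R w)‖ ≤ R * (Real.sqrt n * (1 / R)) := mul_le_mul_of_nonneg_left this hR.le
    _ = Real.sqrt n := by field_simp

theorem an_interval_pick (a h t : ℝ) (N : ℕ) (h1 : a ≤ t) (h2 : t ≤ a + 2 * h * (N + 1)) :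
    ∃ i ≤ N, |t - (a + (2 * (i : ℝ) + 1) * h)| ≤ h := by
  induction N with
  | zero =>
    refine ⟨0, le_refl _, ?_⟩
    rw [abs_le]
    push_cast at h2 ⊢
    constructor <;> linarith
  | succ N ih =>
    by_cases hc : t ≤ a + 2 * h * (N + 1)
    · obtain ⟨i, hi, h⟩ := ih hc
      exact ⟨i, by omega, h⟩
    · refine ⟨N + 1, le_refl _, ?_⟩
      rw [abs_le]
      push_cast at h2 hc ⊢
      constructor <;> linarith

theorem an_tube_pick (u c : E n) (t₀ ρ H h : ℝ) (N : ℕ) (hN : H ≤ h * (N + 1)) (z : ST n) (hz1 : ‖z.1 + (2 * z.2) • u - c‖ ≤ ρ) (hz2 : |z.2 - t₀| ≤ H) :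
    ∃ i ∈ Finset.range (N + 1), ‖z.1 - (c - (2 * (t₀ - H + (2 * (i : ℝ) + 1) * h)) • u)‖ ≤ ρ + 2 * h * ‖u‖ ∧ |z.2 - (t₀ - H + (2 * (i : ℝ) + 1) * h)| ≤ h := by
  rw [abs_le] at hz2
  obtain ⟨i, hi, h3⟩ := an_interval_pick (t₀ - H) h z.2 N (by linarith) (by linarith)
  refine ⟨i, Finset.mem_range.2 (by omega), ?_, h3⟩
  have e : z.1 - (c - (2 * (t₀ - H + (2 * (i : ℝ) + 1) * h)) • u) = (z.1 + (2 * z.2) • u - c) - (2 * (z.2 - (t₀ - H + (2 * (i : ℝ) + 1) * h))) • u := by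
    rw [mul_sub, sub_smul]
    abel
  rw [e]
  refine (norm_sub_le _ _).trans ?_
  rw [norm_smul, Real.norm_eq_abs, abs_mul, abs_of_pos (by norm_num : (0:ℝ) < 2)]
  have := mul_le_mul_of_nonneg_right h3 (norm_nonneg u)
  linarith

theorem an_tube_mass (ν : Measure (ST n)) (m : ℝ) (hν : Grow ν m n) (u c : E n) (t₀ ρ H h ρ' : ℝ) (N : ℕ) (hN : H ≤ h * (N + 1)) (h1 : ρ + 2 * h * ‖u‖ ≤ ρ') (h2 : h ≤ ρ') (h3 : 1 ≤ ρ') :
    ν {z : ST n | ‖z.1 + (2 * z.2) • u - c‖ ≤ ρ ∧ |z.2 - t₀| ≤ H} ≤ ((N + 1 : ℕ) : ℝ≥0∞) * ENNReal.ofReal (m * ρ' ^ (n : ℝ)) := by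
  have hsub : {z : ST n | ‖z.1 + (2 * z.2) • u - c‖ ≤ ρ ∧ |z.2 - t₀| ≤ H} ⊆
      ⋃ i ∈ Finset.range (N + 1), closedBall ((c - (2 * (t₀ - H + (2 * (i : ℝ) + 1) * h)) • u, t₀ - H + (2 * (i : ℝ) + 1) * h) : ST n) ρ' := by
    rintro z ⟨hz1, hz2⟩
    obtain ⟨i, hi, h4, h5⟩ := an_tube_pick u c t₀ ρ H h N hN z hz1 hz2
    refine mem_biUnion hi ?_
    rw [mem_closedBall, Prod.dist_eq, max_le_iff, dist_eq_norm, Real.dist_eq]
    exact ⟨h4.trans h1, h5.trans h2⟩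
  refine (measure_mono hsub).trans ((measure_biUnion_finset_le _ _).trans ?_)
  refine (Finset.sum_le_card_nsmul _ _ _ fun i _ => hν _ ρ' h3).trans ?_
  rw [Finset.card_range, nsmul_eq_mul]

/-- **L-AN-R5** (200 l.) growth of the push-forward.  The preimage of `closedBall z' r`: `t` in an interval of half length `r R²`, cut into `⌈R⌉ ≤ 2R` intervals of half length `≤ r R` about `t_i`; there `‖x - (R x' - 2 t_i u)‖ ≤ r R (1 + 2Cu)`. -/
theorem an_grow_push (ν : Measure (ST n)) (m Cu : ℝ) (hm : 0 ≤ m) (hν : Grow ν m n) (u : E n) (hu : ‖u‖ ≤ Cu) (R : ℝ) (hR : 1 ≤ R) :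
    Grow (ν.map (BD.Lam u R⁻¹ (R⁻¹ ^ 2))) (2 * (1 + 2 * Cu) ^ n * m * R ^ ((n : ℝ) + 1)) n := by
  intro z' r hr
  have hR0 : 0 < R := by linarith
  have hr0 : 0 < r := by linarith
  have hCu : 0 ≤ Cu := (norm_nonneg u).trans hu
  rw [Measure.map_apply (an_cont_Lam u _ _).measurable isClosed_closedBall.measurableSet]
  have hsub : BD.Lam u R⁻¹ (R⁻¹ ^ 2) ⁻¹' closedBall z' r ⊆ {z : ST n | ‖z.1 + (2 * z.2) • u - R • z'.1‖ ≤ r * R ∧ |z.2 - R ^ 2 * z'.2| ≤ r * R ^ 2} := by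
    intro z hz
    rw [mem_preimage, mem_closedBall, Prod.dist_eq, max_le_iff, dist_eq_norm, Real.dist_eq] at hz
    obtain ⟨h1, h2⟩ := hz
    have h1' : ‖R⁻¹ • (z.1 + (2 * z.2) • u) - z'.1‖ ≤ r := h1
    have h2' : |R⁻¹ ^ 2 * z.2 - z'.2| ≤ r := h2
    constructor
    · have e : z.1 + (2 * z.2) • u - R • z'.1 = R • (R⁻¹ • (z.1 + (2 * z.2) • u) - z'.1) := by
        rw [smul_sub, smul_smul, mul_inv_cancel₀ hR0.ne', one_smul]
      rw [e, norm_smul, Real.norm_eq_abs, abs_of_pos hR0, mul_comm]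
      exact mul_le_mul_of_nonneg_right h1' hR0.le
    · have e : z.2 - R ^ 2 * z'.2 = R ^ 2 * (R⁻¹ ^ 2 * z.2 - z'.2) := by
        field_simp
      rw [e, abs_mul, abs_of_pos (by positivity : 0 < R ^ 2), mul_comm]
      exact mul_le_mul_of_nonneg_right h2' (by positivity)
  have hrR : 1 ≤ r * R := by nlinarith
  have hN1 : R ≤ (⌊R⌋₊ : ℝ) + 1 := (Nat.lt_floor_add_one R).le
  have hN2 : (⌊R⌋₊ : ℝ) ≤ R := Nat.floor_le hR0.le
  refine (measure_mono hsub).trans ((an_tube_mass ν m hν u (R • z'.1) (R ^ 2 * z'.2) (r * R) (r * R ^ 2) (r * R) (r * R * (1 + 2 * Cu)) ⌊R⌋₊ ?_ ?_ ?_ ?_).trans ?_)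
  · have := mul_le_mul_of_nonneg_left hN1 (by positivity : 0 ≤ r * R)
    nlinarith
  · have := mul_le_mul_of_nonneg_left hu (by positivity : 0 ≤ 2 * (r * R))
    nlinarith
  · have : 0 ≤ r * R * (2 * Cu) := by positivity
    nlinarith
  · have : 0 ≤ r * R * (2 * Cu) := by positivity
    nlinarith
  · rw [← ENNReal.ofReal_natCast, ← ENNReal.ofReal_mul (by positivity)]
    refine ENNReal.ofReal_le_ofReal ?_
    rw [Real.rpow_natCast, Real.rpow_natCast, Real.rpow_add hR0, Real.rpow_natCast, Real.rpow_one, mul_pow, mul_pow]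
    push_cast
    have h0 : 0 ≤ m * (r ^ n * R ^ n * (1 + 2 * Cu) ^ n) := by positivity
    calc ((⌊R⌋₊ : ℝ) + 1) * (m * (r ^ n * R ^ n * (1 + 2 * Cu) ^ n)) ≤ (2 * R) * (m * (r ^ n * R ^ n * (1 + 2 * Cu) ^ n)) :=
          mul_le_mul_of_nonneg_right (by linarith) h0
      _ = 2 * (1 + 2 * Cu) ^ n * m * (R ^ n * R) * r ^ n := by ring

theorem an_Lam_preimage_ball (u : E n) (R : ℝ) (hR0 : 0 < R) (z' : ST n) (r : ℝ) :
    BD.Lam u R⁻¹ (R⁻¹ ^ 2) ⁻¹' closedBall z' r ⊆ {z : ST n | ‖z.1 + (2 * z.2) • u - R • z'.1‖ ≤ r * R ∧ |z.2 - R ^ 2 * z'.2| ≤ r * R ^ 2} := by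
  intro z hz
  rw [mem_preimage, mem_closedBall, Prod.dist_eq, max_le_iff, dist_eq_norm, Real.dist_eq] at hz
  obtain ⟨h1, h2⟩ := hz
  have h1' : ‖R⁻¹ • (z.1 + (2 * z.2) • u) - z'.1‖ ≤ r := h1
  have h2' : |R⁻¹ ^ 2 * z.2 - z'.2| ≤ r := h2
  constructor
  · have e : z.1 + (2 * z.2) • u - R • z'.1 = R • (R⁻¹ • (z.1 + (2 * z.2) • u) - z'.1) := by
      rw [smul_sub, smul_smul, mul_inv_cancel₀ hR0.ne', one_smul]
    rw [e, norm_smul, Real.norm_eq_abs, abs_of_pos hR0, mul_comm]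
    exact mul_le_mul_of_nonneg_right h1' hR0.le
  · have e : z.2 - R ^ 2 * z'.2 = R ^ 2 * (R⁻¹ ^ 2 * z.2 - z'.2) := by
      field_simp
    rw [e, abs_mul, abs_of_pos (by positivity : 0 < R ^ 2), mul_comm]
    exact mul_le_mul_of_nonneg_right h2' (by positivity)

/-- **L-AN-R6** (250 l.) unit covering of the preimage of a ball (H (w:eq-dcap)): `⌈r R²⌉` time intervals of half length `≤ 1`; for each the `x`-set lies in a ball of radius `r R + 2Cu` of `E n`, covered by `≤ (2(rR+2Cu)+1)^n` unit balls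
(`BD.exists_sep_net`, `BD.card_le_of_sep`). -/
theorem an_dens_push (n : ℕ) (Cu : ℝ) (hCu : 0 ≤ Cu) : ∃ C : ℝ, ∀ (ν : Measure (ST n)) (ϰ : ℝ≥0∞) (u : E n) (R r : ℝ) (z' : ST n), (∀ z, ν (closedBall z 1) ≤ ϰ) → ‖u‖ ≤ Cu → 1 ≤ R → 1 ≤ r →
    (ν.map (BD.Lam u R⁻¹ (R⁻¹ ^ 2))) (closedBall z' r) ≤ ENNReal.ofReal (C * r ^ ((n : ℝ) + 1) * R ^ ((n : ℝ) + 2)) * ϰ := by
  refine ⟨2 * (3 + 4 * Cu) ^ n, ?_⟩
  intro ν ϰ u R r z' hν hu hR hr
  have hR0 : 0 < R := by linarith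
  have hr0 : 0 < r := by linarith
  have hrR : 1 ≤ r * R := by nlinarith
  have hrR2 : 1 ≤ r * R ^ 2 := by nlinarith
  rw [Measure.map_apply (an_cont_Lam u _ _).measurable isClosed_closedBall.measurableSet]
  have hA : 0 ≤ r * R + 2 * Cu := by positivity
  obtain ⟨T, hT1, hT2, hT3⟩ := BD.exists_sep_net (0 : E n) hA (one_pos)
  have hcard := BD.card_le_of_sep hA one_pos T 0 hT1 hT2
  rw [finrank_euclideanSpace, Fintype.card_fin] at hcard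
  have hN1 : r * R ^ 2 ≤ (⌊r * R ^ 2⌋₊ : ℝ) + 1 := (Nat.lt_floor_add_one _).le
  have hN2 : (⌊r * R ^ 2⌋₊ : ℝ) ≤ r * R ^ 2 := Nat.floor_le (by positivity)
  have hsub : {z : ST n | ‖z.1 + (2 * z.2) • u - R • z'.1‖ ≤ r * R ∧ |z.2 - R ^ 2 * z'.2| ≤ r * R ^ 2} ⊆
      ⋃ i ∈ Finset.range (⌊r * R ^ 2⌋₊ + 1), ⋃ c ∈ T, closedBall (((R • z'.1 - (2 * (R ^ 2 * z'.2 - r * R ^ 2 + (2 * (i : ℝ) + 1) * 1)) • u) + c, R ^ 2 * z'.2 - r * R ^ 2 + (2 * (i : ℝ) + 1) * 1) : ST n) 1 := by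
    rintro z ⟨hz1, hz2⟩
    obtain ⟨i, hi, h4, h5⟩ := an_tube_pick u (R • z'.1) (R ^ 2 * z'.2) (r * R) (r * R ^ 2) 1 ⌊r * R ^ 2⌋₊ (by linarith) z hz1 hz2
    obtain ⟨c, hc, h6⟩ := hT3 (z.1 - (R • z'.1 - (2 * (R ^ 2 * z'.2 - r * R ^ 2 + (2 * (i : ℝ) + 1) * 1)) • u)) (by
      rw [sub_zero]
      linarith)
    refine mem_biUnion hi (mem_biUnion hc ?_)
    rw [mem_closedBall, Prod.dist_eq, max_le_iff, dist_eq_norm, Real.dist_eq]
    refine ⟨?_, h5⟩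
    rw [← sub_sub]
    exact h6
  refine (measure_mono (an_Lam_preimage_ball u R hR0 z' r)).trans ((measure_mono hsub).trans ((measure_biUnion_finset_le _ _).trans ?_))
  refine (Finset.sum_le_card_nsmul _ _ ((T.card : ℝ≥0∞) * ϰ) fun i _ => ?_).trans ?_
  · refine (measure_biUnion_finset_le _ _).trans ?_
    refine (Finset.sum_le_card_nsmul _ _ _ fun c _ => hν _).trans ?_
    rw [nsmul_eq_mul]
  · rw [Finset.card_range, nsmul_eq_mul, ← mul_assoc]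
    refine mul_le_mul_left ?_ _
    rw [← ENNReal.ofReal_natCast, ← ENNReal.ofReal_natCast, ← ENNReal.ofReal_mul (by positivity)]
    refine ENNReal.ofReal_le_ofReal ?_
    rw [Real.rpow_add hr0, Real.rpow_add hR0, Real.rpow_natCast, Real.rpow_natCast, Real.rpow_one, Real.rpow_two]
    push_cast
    have h7 : (T.card : ℝ) ≤ (r * R * (3 + 4 * Cu)) ^ n := by
      refine hcard.trans (pow_le_pow_left₀ (by positivity) ?_ n)
      have : 0 ≤ (r * R - 1) * (1 + 4 * Cu) := mul_nonneg (by linarith) (by positivity)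
      nlinarith
    calc ((⌊r * R ^ 2⌋₊ : ℝ) + 1) * (T.card : ℝ) ≤ (2 * (r * R ^ 2)) * (r * R * (3 + 4 * Cu)) ^ n :=
          mul_le_mul (by linarith) h7 (by positivity) (by positivity)
      _ = 2 * (3 + 4 * Cu) ^ n * (r ^ n * r) * (R ^ n * R ^ 2) := by
          rw [mul_pow, mul_pow]
          ring

/-- **L-AN-R7** (60 l.) a cube of side `a` lies in a ball of radius `√n a` (also `≥ a`) about any of its points. -/
theorem an_cubeS_subset (a : ℝ) (ha : 0 < a) (k : (Fin n → ℤ) × ℤ) (z : ST n) (hz : z ∈ cubeS a k) : cubeS a k ⊆ closedBall z ((Real.sqrt n + 1) * a) := by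
  intro y hy
  have hsq : 0 ≤ Real.sqrt n := Real.sqrt_nonneg _
  obtain ⟨h1, h2, h3⟩ := hz
  obtain ⟨g1, g2, g3⟩ := hy
  rw [mem_closedBall, Prod.dist_eq, max_le_iff]
  constructor
  · rw [dist_eq_norm]
    have := an_norm_le_sqrt (y.1 - z.1) ha.le (fun i => by
      rw [PiLp.sub_apply, abs_le]
      constructor
      · linarith [(h1 i).2, (g1 i).1]
      · linarith [(h1 i).1, (g1 i).2])
    nlinarith
  · rw [Real.dist_eq, abs_le]
    constructor <;> nlinarith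

/-- dyadic pigeonhole for the weight. -/
theorem an_dyadic_wt (M : ℕ) (l d : ℝ) (hl : 0 < l) (hd : 0 ≤ d) :
    ∃ a : ℕ, d ≤ 2 ^ a * l ∧ (1 + d / l) ^ (-(M : ℤ)) ≤ 2 ^ M / (2 ^ a) ^ M := by
  classical
  have hex : ∃ a : ℕ, d ≤ 2 ^ a * l := by
    obtain ⟨a, ha⟩ := pow_unbounded_of_one_lt (d / l) (by norm_num : (1:ℝ) < 2)
    refine ⟨a, ?_⟩
    rw [div_lt_iff₀ hl] at ha
    exact ha.le
  have h0 : 0 ≤ d / l := by positivity
  rw [zpow_neg, zpow_natCast]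
  rcases hk : Nat.find hex with _ | k
  · refine ⟨0, ?_, ?_⟩
    · have := Nat.find_spec hex
      rwa [hk] at this
    · rw [pow_zero, one_pow, div_one]
      calc ((1 + d / l) ^ M)⁻¹ ≤ 1 := inv_le_one_of_one_le₀ (one_le_pow₀ (by linarith))
        _ ≤ 2 ^ M := one_le_pow₀ (by norm_num)
  · refine ⟨k + 1, ?_, ?_⟩
    · have := Nat.find_spec hex
      rwa [hk] at this
    · have hlt : ¬ d ≤ 2 ^ k * l := Nat.find_min hex (by omega)
      push Not at hlt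
      have h1 : (2:ℝ) ^ k ≤ 1 + d / l := by
        have : (2:ℝ) ^ k < d / l := by rwa [lt_div_iff₀ hl]
        linarith
      have e : (2:ℝ) ^ M / (2 ^ (k + 1)) ^ M = ((2 ^ k) ^ M)⁻¹ := by
        rw [pow_succ, mul_pow]
        field_simp
      rw [e]
      exact inv_anti₀ (by positivity) (pow_le_pow_left₀ (by positivity) h1 M)

/-- **L-AN-R8** (300 l.) the tube moment with `D = 1` from growth (H fractal.tex l.84-93).  Dyadic annuli `tdist ≤ 2^a l`: `(1 + tdist/l)^{-M} ≤ ∑_a 2^{-(a-1)M} 1[tdist ≤ 2^a l]`;  `{tdist ≤ r, |t| ≤ T₀ l²}`, `r = 2^a l ≥ 1`, is covered by `⌈T₀ l²/r⌉` balls of radius `(1+2Rω) r`: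
mass `≤ (T₀ l 2^{-a} + 1) m (1+2Rω)^n (2^a l)^n`;  `∑_a 2^{-aM} 2^{an} < ∞` since `M ≥ n + 1`. -/
theorem an_tubeMom_of_grow (n M : ℕ) (hM : n + 1 ≤ M) (T₀ Rω : ℝ) (hT : 0 ≤ T₀) (hRω : 0 ≤ Rω) :
    ∃ C : ℝ, 1 ≤ C ∧ ∀ (ι : Type) (A : Arr n ι) (s : Finset ι) (ν : Measure (ST n)) (m : ℝ), 1 ≤ A.L → 0 ≤ m → (∀ α ∈ s, ‖A.om α‖ ≤ Rω) → Grow ν m n → Slab ν (T₀ * A.L ^ 2) →
      TubeMom ν A s (C * m) 1 M := by
  refine ⟨2 ^ M * (T₀ + 1) * (1 + 2 * Rω) ^ n * 2, ?_, ?_⟩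
  · have h1 : (1:ℝ) ≤ 2 ^ M := one_le_pow₀ (by norm_num)
    have h2 : (1:ℝ) ≤ (1 + 2 * Rω) ^ n := one_le_pow₀ (by linarith)
    have h3 : (1:ℝ) ≤ T₀ + 1 := by linarith
    have h4 : (1:ℝ) ≤ 2 ^ M * (T₀ + 1) := by nlinarith
    have h5 : (1:ℝ) ≤ 2 ^ M * (T₀ + 1) * (1 + 2 * Rω) ^ n := by nlinarith
    linarith
  intro ι A s ν m hL hm hom hν hsl α hα
  have hl : 0 < A.L := by linarith
  have hcont : Continuous fun z : ST n => A.tdist α z := by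
    unfold Arr.tdist
    fun_prop
  have hSm : ∀ a : ℕ, MeasurableSet {z : ST n | A.tdist α z ≤ 2 ^ a * A.L} := fun a =>
    (isClosed_le hcont continuous_const).measurableSet
  -- pointwise bound
  have hpt : ∀ z : ST n, ENNReal.ofReal ((1 + A.tdist α z / A.L) ^ (-(M : ℤ))) ≤
      ∑' a : ℕ, ({z : ST n | A.tdist α z ≤ 2 ^ a * A.L}.indicator (fun _ => ENNReal.ofReal (2 ^ M / (2 ^ a) ^ M)) z) := by
    intro z
    obtain ⟨a, ha1, ha2⟩ := an_dyadic_wt M A.L (A.tdist α z) hl (norm_nonneg _)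
    refine le_trans ?_ (ENNReal.le_tsum a)
    rw [indicator_of_mem (show z ∈ {z : ST n | A.tdist α z ≤ 2 ^ a * A.L} from ha1)]
    exact ENNReal.ofReal_le_ofReal ha2
  -- the mass of an annulus
  have hN1 : T₀ * A.L ≤ (⌊T₀ * A.L⌋₊ : ℝ) + 1 := (Nat.lt_floor_add_one _).le
  have hN2 : (⌊T₀ * A.L⌋₊ : ℝ) ≤ T₀ * A.L := Nat.floor_le (by positivity)
  have hmass : ∀ a : ℕ, ν {z : ST n | A.tdist α z ≤ 2 ^ a * A.L} ≤ ((⌊T₀ * A.L⌋₊ + 1 : ℕ) : ℝ≥0∞) * ENNReal.ofReal (m * ((1 + 2 * Rω) * (2 ^ a * A.L)) ^ (n : ℝ)) := by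
    intro a
    have h2a : (1:ℝ) ≤ 2 ^ a := one_le_pow₀ (by norm_num)
    have h2l : 1 ≤ 2 ^ a * A.L := by nlinarith
    have hsub : {z : ST n | A.tdist α z ≤ 2 ^ a * A.L} ⊆ {z : ST n | ‖z.1 + (2 * z.2) • (-A.om α) - A.y α‖ ≤ 2 ^ a * A.L ∧ |z.2 - 0| ≤ T₀ * A.L ^ 2} ∪ {z : ST n | T₀ * A.L ^ 2 < |z.2|} := by
      intro z hz
      by_cases hc : T₀ * A.L ^ 2 < |z.2|
      · exact Or.inr hc
      · refine Or.inl ⟨?_, ?_⟩
        · have e : z.1 + (2 * z.2) • (-A.om α) - A.y α = z.1 - A.y α - (2 * z.2) • A.om α := by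
            rw [smul_neg]
            abel
          rw [e]
          exact hz
        · rw [sub_zero]
          exact not_lt.1 hc
    refine (measure_mono hsub).trans ((measure_union_le _ _).trans ?_)
    have hsl' : ν {z : ST n | T₀ * A.L ^ 2 < |z.2|} = 0 := hsl
    rw [hsl', add_zero]
    refine an_tube_mass ν m hν (-A.om α) (A.y α) 0 (2 ^ a * A.L) (T₀ * A.L ^ 2) (2 ^ a * A.L) _ ⌊T₀ * A.L⌋₊ ?_ ?_ ?_ ?_
    · calc T₀ * A.L ^ 2 = 1 * A.L * (T₀ * A.L) := by ring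
        _ ≤ 2 ^ a * A.L * ((⌊T₀ * A.L⌋₊ : ℝ) + 1) := by
          refine mul_le_mul (mul_le_mul_of_nonneg_right h2a hl.le) hN1 (by positivity) (by positivity)
    · rw [norm_neg]
      have := mul_le_mul_of_nonneg_left (hom α hα) (by positivity : 0 ≤ 2 * (2 ^ a * A.L))
      nlinarith
    · have : 0 ≤ 2 * Rω * (2 ^ a * A.L) := by positivity
      nlinarith
    · have : 0 ≤ 2 * Rω * (2 ^ a * A.L) := by positivity
      nlinarith
  -- each term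
  have hterm : ∀ a : ℕ, ENNReal.ofReal (2 ^ M / (2 ^ a) ^ M) * ν {z : ST n | A.tdist α z ≤ 2 ^ a * A.L} ≤
      ENNReal.ofReal (2 ^ M * (T₀ + 1) * (1 + 2 * Rω) ^ n * m * A.L ^ ((n : ℝ) + 1)) * (2⁻¹ : ℝ≥0∞) ^ a := by
    intro a
    have h2a : (1:ℝ) ≤ 2 ^ a := one_le_pow₀ (by norm_num)
    refine (mul_le_mul_right (hmass a) _).trans ?_
    have e2 : (2⁻¹ : ℝ≥0∞) ^ a = ENNReal.ofReal ((2 ^ a)⁻¹) := by
      rw [ENNReal.ofReal_inv_of_pos (by positivity), ENNReal.ofReal_pow (by norm_num), ENNReal.inv_pow]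
      norm_num
    rw [e2, ← ENNReal.ofReal_natCast, ← ENNReal.ofReal_mul (by positivity), ← ENNReal.ofReal_mul (by positivity), ← ENNReal.ofReal_mul (by positivity)]
    refine ENNReal.ofReal_le_ofReal ?_
    rw [Real.rpow_natCast, Real.rpow_add hl, Real.rpow_natCast, Real.rpow_one, mul_pow, mul_pow]
    push_cast
    have h6 : ((2:ℝ) ^ a) ^ n / (2 ^ a) ^ M ≤ (2 ^ a)⁻¹ := by
      rw [div_le_iff₀ (by positivity), ← div_eq_inv_mul, le_div_iff₀ (by positivity), ← pow_succ]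
      exact pow_le_pow_right₀ h2a hM
    have h7 : (⌊T₀ * A.L⌋₊ : ℝ) + 1 ≤ (T₀ + 1) * A.L := by nlinarith
    calc (2:ℝ) ^ M / (2 ^ a) ^ M * (((⌊T₀ * A.L⌋₊ : ℝ) + 1) * (m * ((1 + 2 * Rω) ^ n * ((2 ^ a) ^ n * A.L ^ n))))
        = (2 ^ M * (1 + 2 * Rω) ^ n * m * A.L ^ n) * (((⌊T₀ * A.L⌋₊ : ℝ) + 1) * (((2:ℝ) ^ a) ^ n / (2 ^ a) ^ M)) := by ring
      _ ≤ (2 ^ M * (1 + 2 * Rω) ^ n * m * A.L ^ n) * (((T₀ + 1) * A.L) * (2 ^ a)⁻¹) := by
          refine mul_le_mul_of_nonneg_left (mul_le_mul h7 h6 (by positivity) (by positivity)) (by positivity)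
      _ = 2 ^ M * (T₀ + 1) * (1 + 2 * Rω) ^ n * m * (A.L ^ n * A.L) * (2 ^ a)⁻¹ := by ring
  calc ∫⁻ z, ENNReal.ofReal ((1 + A.tdist α z / A.L) ^ (-(M : ℤ))) ∂ν
      ≤ ∫⁻ z, ∑' a : ℕ, ({z : ST n | A.tdist α z ≤ 2 ^ a * A.L}.indicator (fun _ => ENNReal.ofReal (2 ^ M / (2 ^ a) ^ M)) z) ∂ν := lintegral_mono hpt
    _ = ∑' a : ℕ, ENNReal.ofReal (2 ^ M / (2 ^ a) ^ M) * ν {z : ST n | A.tdist α z ≤ 2 ^ a * A.L} := by
        rw [lintegral_tsum fun a => (measurable_const.indicator (hSm a)).aemeasurable]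
        refine tsum_congr fun a => ?_
        rw [lintegral_indicator_const (hSm a)]
    _ ≤ ∑' a : ℕ, ENNReal.ofReal (2 ^ M * (T₀ + 1) * (1 + 2 * Rω) ^ n * m * A.L ^ ((n : ℝ) + 1)) * (2⁻¹ : ℝ≥0∞) ^ a := ENNReal.tsum_le_tsum hterm
    _ = ENNReal.ofReal (2 ^ M * (T₀ + 1) * (1 + 2 * Rω) ^ n * m * A.L ^ ((n : ℝ) + 1)) * 2 := by
        rw [ENNReal.tsum_mul_left, ENNReal.tsum_geometric, ENNReal.one_sub_inv_two, inv_inv]
    _ = ENNReal.ofReal (2 ^ M * (T₀ + 1) * (1 + 2 * Rω) ^ n * 2 * m * A.L ^ ((n : ℝ) + 1) / 1) := by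
        rw [show (2 : ℝ≥0∞) = ENNReal.ofReal 2 by norm_num, ← ENNReal.ofReal_mul (by positivity)]
        congr 1
        ring

/-- Stores the on-demand equation lemmas of the definitions of THIS module here (rule 6 hygiene). -/
theorem an_resc_forced : True := by
  have := @Arr.child.eq_1
  trivial

end Claimed.Agent.R257
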